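import Vale.Agent.P099.MathlibUsed
import Vale.Agent.P099.Defs
attribute [-instance] ProperSMul.toContinuousSMul IsTopologicalTorsor.toContinuousSMul IdemSemiring.toCanonicallyOrderedAdd IdemSemiring.toMulLeftMono IdemSemiring.toMulRightMono AddQuantale.instAddLeftMono AddQuantale.instAddRightMono Quantale.instMulLeftMono Quantale.instMulRightMono FiniteDimensional.rclike_to_real IsScalarTower.complexToReal FiniteDimensional.complexToReal

set_option linter.all false

section

section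

open MeasureTheory Set Filter Topology

namespace Vale.Agent.P099

/-- cross product of plane vectors -/
def cr (a b : ℂ) : ℝ := a.re * b.im - a.im * b.re

/-- real inner product of plane vectors -/
def dt (a b : ℂ) : ℝ := a.re * b.re + a.im * b.im

namespace Triangle

variable (T : Triangle)

/-- side vector -/
def d (i : Fin 3) : ℂ := T.P (i + 2) - T.P (i + 1)

/-- twice the signed area -/
def Del : ℝ := cr (T.P 1 - T.P 0) (T.P 2 - T.P 0)

/-- barycentric coordinates -/
noncomputable def lam (i : Fin 3) (x : ℂ) : ℝ := cr (T.d i) (x - T.P (i + 1)) / T.Del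

/-- linear part of the barycentric coordinates -/
noncomputable def ell (i : Fin 3) (u : ℂ) : ℝ := cr (T.d i) u / T.Del

/-- affine reflection in the line of side `i` -/
noncomputable def R (i : Fin 3) (x : ℂ) : ℂ := T.P (i + 1) + T.refl i (x - T.P (i + 1))

/-- a bound for all distances in the closed triangle -/
noncomputable def dm : ℝ := ‖T.d 0‖ + ‖T.d 1‖ + ‖T.d 2‖

/-- a Lipschitz constant for the barycentric coordinates -/
noncomputable def Lp : ℝ := T.dm / |T.Del|

lemma d_zero : T.d 0 = T.P 2 - T.P 1 := rfl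
lemma d_one : T.d 1 = T.P 0 - T.P 2 := rfl
lemma d_two : T.d 2 = T.P 1 - T.P 0 := rfl
lemma lam_zero (x : ℂ) : T.lam 0 x = cr (T.P 2 - T.P 1) (x - T.P 1) / T.Del := rfl
lemma lam_one (x : ℂ) : T.lam 1 x = cr (T.P 0 - T.P 2) (x - T.P 2) / T.Del := rfl
lemma lam_two (x : ℂ) : T.lam 2 x = cr (T.P 1 - T.P 0) (x - T.P 0) / T.Del := rfl
lemma ell_zero (x : ℂ) : T.ell 0 x = cr (T.P 2 - T.P 1) x / T.Del := rfl
lemma ell_one (x : ℂ) : T.ell 1 x = cr (T.P 0 - T.P 2) x / T.Del := rfl
lemma ell_two (x : ℂ) : T.ell 2 x = cr (T.P 1 - T.P 0) x / T.Del := rfl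

lemma cr_eq_im (a b : ℂ) : cr a b = ((starRingEnd ℂ) a * b).im := by
  unfold cr
  simp only [Complex.mul_im, Complex.conj_re, Complex.conj_im, neg_mul]
  ring

lemma dt_eq_re (a b : ℂ) : dt a b = ((starRingEnd ℂ) a * b).re := by
  unfold dt
  simp only [Complex.mul_re, Complex.conj_re, Complex.conj_im, neg_mul, sub_neg_eq_add]

lemma Del_ne : T.Del ≠ 0 := by
  intro h
  refine (affineIndependent_iff_not_collinear.1 T.indep) ?_
  rw [collinear_iff_of_mem (mem_range_self 0)]
  have h' : (T.P 1 - T.P 0).re * (T.P 2 - T.P 0).im = (T.P 1 - T.P 0).im * (T.P 2 - T.P 0).re := by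
    have := h
    unfold Del cr at this
    linarith
  have ha : T.P 1 - T.P 0 ≠ 0 := by
    rw [sub_ne_zero]
    exact T.indep.injective.ne (by decide)
  refine ⟨T.P 1 - T.P 0, ?_⟩
  have hn : 0 < (T.P 1 - T.P 0).re ^ 2 + (T.P 1 - T.P 0).im ^ 2 := by
    rcases eq_or_ne (T.P 1 - T.P 0).re 0 with h1 | h1
    · rcases eq_or_ne (T.P 1 - T.P 0).im 0 with h2 | h2
      · exact absurd (Complex.ext h1 h2) ha
      · (clear * - h2; positivity)
    · positivity
  rintro _ ⟨j, rfl⟩
  match j with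
  | 0 => exact ⟨0, by simp⟩
  | 1 => exact ⟨1, by simp only [Fin.isValue, one_smul, vadd_eq_add, sub_add_cancel]⟩
  | 2 =>
    refine ⟨dt (T.P 1 - T.P 0) (T.P 2 - T.P 0) /
      ((T.P 1 - T.P 0).re ^ 2 + (T.P 1 - T.P 0).im ^ 2), ?_⟩
    rw [vadd_eq_add, ← sub_eq_iff_eq_add]
    apply Complex.ext
    · rw [Complex.real_smul, Complex.re_ofReal_mul, div_mul_eq_mul_div, eq_div_iff hn.ne']
      unfold dt
      linear_combination -(T.P 1 - T.P 0).im * h'
    · rw [Complex.real_smul, Complex.im_ofReal_mul, div_mul_eq_mul_div, eq_div_iff hn.ne']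
      unfold dt
      linear_combination (T.P 1 - T.P 0).re * h'

lemma d_ne (i : Fin 3) : T.d i ≠ 0 := by
  unfold d
  rw [sub_ne_zero]
  refine T.indep.injective.ne ?_
  revert i
  decide

/-- explicit formula for the reflection -/
lemma refl_eq (i : Fin 3) (u : ℂ) :
    T.refl i u = T.d i / (starRingEnd ℂ) (T.d i) * (starRingEnd ℂ) u := by
  have hd := T.d_ne i
  have hc : (starRingEnd ℂ) (T.d i) ≠ 0 := by simpa only [ne_eq, map_eq_zero] using hd
  have h1 : T.refl i u = (Submodule.span ℝ {T.d i}).reflection u := rfl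
  rw [h1, Submodule.reflection_singleton_apply, div_mul_eq_mul_div, eq_div_iff hc]
  have hn : ((‖T.d i‖ : ℝ) : ℂ) ^ 2 = T.d i * (starRingEnd ℂ) (T.d i) := by
    rw [Complex.mul_conj, Complex.normSq_eq_norm_sq]
    push_cast
    rfl
  have hn0 : ((‖T.d i‖ : ℝ) : ℂ) ^ 2 ≠ 0 := by
    rw [hn]
    exact mul_ne_zero hd hc
  have hin : ((inner ℝ (T.d i) u : ℝ) : ℂ) =
      ((starRingEnd ℂ) (T.d i) * u + T.d i * (starRingEnd ℂ) u) / 2 := by
    rw [Complex.inner]
    rw [Complex.re_eq_add_conj]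
    simp only [map_mul, RingHomCompTriple.comp_apply, RingHom.id_apply, mul_comm]
  rw [two_smul, Complex.real_smul, Complex.ofReal_div, hin]
  simp only [RCLike.ofReal_real_eq_id, id_eq, Complex.ofReal_pow]
  rw [hn]
  field_simp
  ring

lemma refl_refl (i : Fin 3) (u : ℂ) : T.refl i (T.refl i u) = u := by
  exact Submodule.reflection_reflection _ u

lemma norm_refl (i : Fin 3) (u : ℂ) : ‖T.refl i u‖ = ‖u‖ := by
  exact LinearIsometryEquiv.norm_map _ u

lemma refl_add (i : Fin 3) (u v : ℂ) : T.refl i (u + v) = T.refl i u + T.refl i v := by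
  exact map_add _ u v

lemma refl_smul (i : Fin 3) (r : ℝ) (u : ℂ) : T.refl i (r • u) = r • T.refl i u := by
  exact map_smul _ r u

lemma refl_neg (i : Fin 3) (u : ℂ) : T.refl i (-u) = - T.refl i u := by
  exact map_neg _ u

lemma refl_sub (i : Fin 3) (u v : ℂ) : T.refl i (u - v) = T.refl i u - T.refl i v := by
  exact map_sub _ u v

lemma refl_d (i : Fin 3) : T.refl i (T.d i) = T.d i := by
  have hd := T.d_ne i
  have hc : (starRingEnd ℂ) (T.d i) ≠ 0 := by simpa using hd
  rw [refl_eq]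
  field_simp

lemma refl_star_mul (i : Fin 3) (a b : ℂ) :
    (starRingEnd ℂ) (T.refl i a) * T.refl i b = a * (starRingEnd ℂ) b := by
  have hd := T.d_ne i
  have hc : (starRingEnd ℂ) (T.d i) ≠ 0 := by simpa using hd
  rw [refl_eq, refl_eq]
  simp only [map_mul, map_div₀, Complex.conj_conj]
  field_simp

lemma cr_refl (i : Fin 3) (a b : ℂ) : cr (T.refl i a) (T.refl i b) = - cr a b := by
  rw [cr_eq_im, cr_eq_im, refl_star_mul]
  simp only [Complex.mul_im, Complex.conj_im, mul_neg, Complex.conj_re, neg_mul, neg_add_rev, neg_neg]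
  ring

lemma dt_refl (i : Fin 3) (a b : ℂ) : dt (T.refl i a) (T.refl i b) = dt a b := by
  rw [dt_eq_re, dt_eq_re, refl_star_mul]
  simp only [Complex.mul_re, Complex.conj_re, Complex.conj_im, mul_neg, sub_neg_eq_add, neg_mul]

lemma continuous_refl (i : Fin 3) : Continuous (T.refl i) := by
  exact (LinearIsometryEquiv.continuous _)

lemma ell_refl (i : Fin 3) (u : ℂ) : T.ell i (T.refl i u) = - T.ell i u := by
  unfold ell
  have h := T.cr_refl i (T.d i) u
  rw [refl_d] at h
  rw [h, neg_div]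

lemma ell_add (i : Fin 3) (u v : ℂ) : T.ell i (u + v) = T.ell i u + T.ell i v := by
  unfold ell cr
  rw [← add_div]
  congr 1
  simp only [Complex.add_re, Complex.add_im]
  ring

lemma ell_smul (i : Fin 3) (r : ℝ) (u : ℂ) : T.ell i (r • u) = r * T.ell i u := by
  unfold ell cr
  rw [mul_div_assoc']
  congr 1
  rw [Complex.real_smul, Complex.re_ofReal_mul, Complex.im_ofReal_mul]
  ring

lemma ell_neg (i : Fin 3) (u : ℂ) : T.ell i (-u) = - T.ell i u := by
  unfold ell cr
  rw [← neg_div]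
  congr 1
  simp only [Complex.neg_re, Complex.neg_im]
  ring

lemma lam_add (i : Fin 3) (x v : ℂ) : T.lam i (x + v) = T.lam i x + T.ell i v := by
  unfold lam ell cr
  rw [← add_div]
  congr 1
  simp only [Complex.add_re, Complex.add_im, Complex.sub_re, Complex.sub_im]
  ring

lemma lam_add_smul (i : Fin 3) (x u : ℂ) (t : ℝ) :
    T.lam i (x + t • u) = T.lam i x + t * T.ell i u := by
  rw [lam_add, ell_smul]

lemma sum_lam (x : ℂ) : T.lam 0 x + T.lam 1 x + T.lam 2 x = 1 := by
  rw [lam_zero, lam_one, lam_two, ← add_div, ← add_div, div_eq_one_iff_eq T.Del_ne]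
  unfold Del cr
  simp only [Complex.sub_re, Complex.sub_im]
  ring

lemma sum_ell (u : ℂ) : T.ell 0 u + T.ell 1 u + T.ell 2 u = 0 := by
  rw [ell_zero, ell_one, ell_two, ← add_div, ← add_div, div_eq_zero_iff]
  left
  unfold cr
  simp only [Complex.sub_re, Complex.sub_im]
  ring

/-- for a nonzero direction some coordinate strictly decreases -/
lemma exists_ell_neg {u : ℂ} (hu : u ≠ 0) : ∃ i, T.ell i u < 0 := by
  by_contra hcon
  push Not at hcon
  have h0 := hcon 0
  have h1 := hcon 1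
  have h2 := hcon 2
  have hs := T.sum_ell u
  have e1 : T.ell 1 u = 0 := by linarith
  have e2 : T.ell 2 u = 0 := by linarith only [h2, h0, h1, hs]
  rw [ell_one, div_eq_zero_iff, or_iff_left T.Del_ne] at e1
  rw [ell_two, div_eq_zero_iff, or_iff_left T.Del_ne] at e2
  have hD := T.Del_ne
  unfold Del cr at hD
  unfold cr at e1 e2
  simp only [Complex.sub_re, Complex.sub_im] at hD e1 e2
  apply hu
  apply Complex.ext
  · refine (mul_right_injective₀ hD) ?_
    simp only [Complex.zero_re, mul_zero]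
    linear_combination ((T.P 1).re - (T.P 0).re) * e1 + ((T.P 2).re - (T.P 0).re) * e2
  · refine (mul_right_injective₀ hD) ?_
    simp only [Complex.zero_im, mul_zero]
    linear_combination ((T.P 1).im - (T.P 0).im) * e1 + ((T.P 2).im - (T.P 0).im) * e2

lemma lam_P (i j : Fin 3) : T.lam i (T.P j) = if i = j then 1 else 0 := by
  have hD := T.Del_ne
  match i, j with
  | 0, 0 => rw [lam_zero, if_pos rfl, div_eq_one_iff_eq hD]; unfold Del cr; simp only [Complex.sub_re, Complex.sub_im]; ring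
  | 0, 1 => rw [lam_zero, if_neg (by decide), div_eq_zero_iff]; left; unfold cr; simp only [Complex.sub_re, Complex.sub_im]; ring
  | 0, 2 => rw [lam_zero, if_neg (by decide), div_eq_zero_iff]; left; unfold cr; simp only [Complex.sub_re, Complex.sub_im]; ring
  | 1, 0 => rw [lam_one, if_neg (by decide), div_eq_zero_iff]; left; unfold cr; simp only [Complex.sub_re, Complex.sub_im]; ring
  | 1, 1 => rw [lam_one, if_pos rfl, div_eq_one_iff_eq hD]; unfold Del cr; simp only [Complex.sub_re, Complex.sub_im]; ring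
  | 1, 2 => rw [lam_one, if_neg (by decide), div_eq_zero_iff]; left; unfold cr; simp only [Complex.sub_re, Complex.sub_im]; ring
  | 2, 0 => rw [lam_two, if_neg (by decide), div_eq_zero_iff]; left; unfold cr; simp only [Complex.sub_re, Complex.sub_im]; ring
  | 2, 1 => rw [lam_two, if_neg (by decide), div_eq_zero_iff]; left; unfold cr; simp only [Complex.sub_re, Complex.sub_im]; ring
  | 2, 2 => rw [lam_two, if_pos rfl, div_eq_one_iff_eq hD]; unfold Del cr; simp only [Complex.sub_re, Complex.sub_im]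

/-- a point from its barycentric coordinates -/
lemma eq_sum_lam (x : ℂ) :
    x = T.lam 0 x • T.P 0 + T.lam 1 x • T.P 1 + T.lam 2 x • T.P 2 := by
  have hD := T.Del_ne
  rw [lam_zero, lam_one, lam_two]
  apply Complex.ext
  · simp only [Complex.add_re, Complex.real_smul, Complex.re_ofReal_mul]
    rw [div_mul_eq_mul_div, div_mul_eq_mul_div, div_mul_eq_mul_div, ← add_div, ← add_div,
      eq_div_iff hD]
    unfold Del cr
    simp only [Complex.sub_re, Complex.sub_im]
    ring
  · simp only [Complex.add_im, Complex.real_smul, Complex.im_ofReal_mul]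
    rw [div_mul_eq_mul_div, div_mul_eq_mul_div, div_mul_eq_mul_div, ← add_div, ← add_div,
      eq_div_iff hD]
    unfold Del cr
    simp only [Complex.sub_re, Complex.sub_im]
    ring

/-- relative to the vertex `k` -/
lemma sub_P_eq (k : Fin 3) (x : ℂ) :
    x - T.P k = T.lam (k + 1) x • (T.P (k + 1) - T.P k) + T.lam (k + 2) x • (T.P (k + 2) - T.P k) := by
  have h := T.eq_sum_lam x
  have hs := T.sum_lam x
  match k with
  | 0 =>
    change x - T.P 0 = T.lam 1 x • (T.P 1 - T.P 0) + T.lam 2 x • (T.P 2 - T.P 0)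
    conv_lhs => rw [h]
    rw [show T.lam 0 x = 1 - T.lam 1 x - T.lam 2 x by linarith]
    module
  | 1 =>
    change x - T.P 1 = T.lam 2 x • (T.P 2 - T.P 1) + T.lam 0 x • (T.P 0 - T.P 1)
    conv_lhs => rw [h]
    rw [show T.lam 1 x = 1 - T.lam 0 x - T.lam 2 x by linarith only [hs]]
    module
  | 2 =>
    change x - T.P 2 = T.lam 0 x • (T.P 0 - T.P 2) + T.lam 1 x • (T.P 1 - T.P 2)
    conv_lhs => rw [h]
    rw [show T.lam 2 x = 1 - T.lam 0 x - T.lam 1 x by linarith only [hs]]
    module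

lemma lam_comb (j : Fin 3) {a b : ℝ} (hab : a + b = 1) {x y : ℂ} :
    T.lam j (a • x + b • y) = a * T.lam j x + b * T.lam j y := by
  unfold lam cr
  rw [mul_div_assoc', mul_div_assoc', ← add_div]
  congr 1
  simp only [Complex.add_re, Complex.add_im, Complex.sub_re, Complex.sub_im, Complex.real_smul,
    Complex.re_ofReal_mul, Complex.im_ofReal_mul]
  have hb : b = 1 - a := by linarith
  subst hb
  ring

lemma lam_comb3 (j : Fin 3) {a b c : ℝ} (hab : a + b + c = 1) {x y z : ℂ} :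
    T.lam j (a • x + b • y + c • z) = a * T.lam j x + b * T.lam j y + c * T.lam j z := by
  unfold lam cr
  rw [mul_div_assoc', mul_div_assoc', mul_div_assoc', ← add_div, ← add_div]
  congr 1
  simp only [Complex.add_re, Complex.add_im, Complex.sub_re, Complex.sub_im, Complex.real_smul,
    Complex.re_ofReal_mul, Complex.im_ofReal_mul]
  have hb : c = 1 - a - b := by linarith only [hab]
  subst hb
  ring

lemma mem_table_iff (x : ℂ) : x ∈ T.table ↔ ∀ i, 0 < T.lam i x := by
  have htop : affineSpan ℝ (range T.P) = ⊤ := by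
    rw [T.indep.affineSpan_eq_top_iff_card_eq_finrank_add_one, Complex.finrank_real_complex,
      Fintype.card_fin]
  let b : AffineBasis (Fin 3) ℝ ℂ := ⟨T.P, T.indep, htop⟩
  have hcoord : ∀ i, b.coord i x = T.lam i x := by
    intro i
    have h1 : ∑ j, T.lam j x = 1 := by
      rw [Fin.sum_univ_three]
      exact T.sum_lam x
    have h2 := b.coord_apply_combination_of_mem (s := Finset.univ) (Finset.mem_univ i)
      (w := fun j => T.lam j x) h1
    rw [Finset.affineCombination_eq_linear_combination _ _ _ h1, Fin.sum_univ_three] at h2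
    have h3 : T.lam 0 x • b 0 + T.lam 1 x • b 1 + T.lam 2 x • b 2 = x := (T.eq_sum_lam x).symm
    rw [h3] at h2
    exact h2
  have h := b.interior_convexHull
  have h' : T.table = {x | ∀ i, 0 < b.coord i x} := h
  rw [h']
  simp only [mem_ofPred_eq, hcoord]

lemma mem_side_iff (i : Fin 3) (x : ℂ) :
    x ∈ T.side i ↔ T.lam i x = 0 ∧ 0 < T.lam (i + 1) x ∧ 0 < T.lam (i + 2) x := by
  constructor
  · rintro ⟨a, b, ha, hb, hab, rfl⟩
    have h : ∀ j, T.lam j (a • T.P (i + 1) + b • T.P (i + 2)) =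
        a * (if j = i + 1 then 1 else 0) + b * (if j = i + 2 then 1 else 0) := by
      intro j
      rw [← T.lam_P j (i + 1), ← T.lam_P j (i + 2), T.lam_comb j hab]
    rw [h, h, h]
    match i with
    | 0 => simp only [Fin.isValue, zero_add, zero_ne_one, ↓reduceIte, mul_zero, Fin.reduceEq, add_zero, mul_one, ha, hb, and_self]
    | 1 => simp only [Fin.isValue, Fin.reduceAdd, Fin.reduceEq, ↓reduceIte, mul_zero, one_ne_zero, add_zero, mul_one, ha, zero_add, hb, and_self]
    | 2 => simp [ha, hb]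
  · rintro ⟨h1, h2, h3⟩
    refine ⟨T.lam (i + 1) x, T.lam (i + 2) x, h2, h3, ?_, ?_⟩
    · have hs := T.sum_lam x
      match i with
      | 0 => change T.lam 1 x + T.lam 2 x = 1; linarith
      | 1 => change T.lam 2 x + T.lam 0 x = 1; linarith only [hs, h1]
      | 2 => change T.lam 0 x + T.lam 1 x = 1; linarith
    · have hs := T.eq_sum_lam x
      match i with
      | 0 =>
        change T.lam 1 x • T.P 1 + T.lam 2 x • T.P 2 = x
        rw [h1, zero_smul, zero_add] at hs
        exact hs.symm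
      | 1 =>
        change T.lam 2 x • T.P 2 + T.lam 0 x • T.P 0 = x
        rw [h1, zero_smul, add_zero, add_comm] at hs
        exact hs.symm
      | 2 =>
        change T.lam 0 x • T.P 0 + T.lam 1 x • T.P 1 = x
        rw [h1, zero_smul, add_zero] at hs
        exact hs.symm

lemma mem_side_iff' (i : Fin 3) (x : ℂ) :
    x ∈ T.side i ↔ T.lam i x = 0 ∧ ∀ j, j ≠ i → 0 < T.lam j x := by
  rw [mem_side_iff]
  match i with
  | 0 =>
    constructor
    · rintro ⟨h1, h2, h3⟩
      refine ⟨h1, fun j hj => ?_⟩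
      match j with
      | 0 => exact absurd rfl hj
      | 1 => exact h2
      | 2 => exact h3
    · rintro ⟨h1, h2⟩
      exact ⟨h1, h2 _ (by decide), h2 _ (by decide)⟩
  | 1 =>
    constructor
    · rintro ⟨h1, h2, h3⟩
      refine ⟨h1, fun j hj => ?_⟩
      match j with
      | 0 => exact h3
      | 1 => exact absurd rfl hj
      | 2 => exact h2
    · rintro ⟨h1, h2⟩
      exact ⟨h1, h2 _ (by decide), h2 _ (by decide)⟩
  | 2 =>
    constructor
    · rintro ⟨h1, h2, h3⟩
      refine ⟨h1, fun j hj => ?_⟩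
      match j with
      | 0 => exact h2
      | 1 => exact h3
      | 2 => exact absurd rfl hj
    · rintro ⟨h1, h2⟩
      exact ⟨h1, h2 _ (by decide), h2 _ (by decide)⟩

lemma isOpen_table : IsOpen T.table := by
  exact isOpen_interior

lemma convex_table : Convex ℝ T.table := by
  exact (convex_convexHull ℝ _).interior

lemma table_nonempty : T.table.Nonempty := by
  have h13 : (1 / 3 : ℝ) + 1 / 3 + 1 / 3 = 1 := by norm_num
  refine ⟨(1 / 3 : ℝ) • T.P 0 + (1 / 3 : ℝ) • T.P 1 + (1 / 3 : ℝ) • T.P 2, ?_⟩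
  rw [mem_table_iff]
  intro i
  rw [T.lam_comb3 i h13]
  simp only [lam_P]
  match i with
  | 0 => rw [if_pos rfl, if_neg (by decide), if_neg (by decide)]; norm_num
  | 1 => rw [if_neg (by decide), if_pos rfl, if_neg (by decide)]; norm_num
  | 2 => rw [if_neg (by decide), if_neg (by decide), if_pos rfl]; norm_num

lemma volume_table_pos : 0 < volume T.table := by
  exact T.isOpen_table.measure_pos _ T.table_nonempty

lemma volume_table_lt_top : volume T.table < ⊤ := by
  refine Bornology.IsBounded.measure_lt_top ?_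
  refine Bornology.IsBounded.subset ?_ interior_subset
  exact isBounded_convexHull.2 (finite_range T.P).isBounded

lemma dm_pos : 0 < T.dm := by
  have h0 : 0 < ‖T.d 0‖ := norm_pos_iff.2 (T.d_ne 0)
  unfold dm
  positivity

lemma Lp_pos : 0 < T.Lp := by
  exact div_pos T.dm_pos (abs_pos.2 T.Del_ne)

/-- all distances in the closed triangle are at most `dm` -/
lemma norm_sub_le_dm {x y : ℂ} (hx0 : ∀ i, 0 ≤ T.lam i x) (hy0 : ∀ i, 0 ≤ T.lam i y) :
    ‖x - y‖ ≤ T.dm := by
  have h1 := T.sub_P_eq 0 x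
  have h2 := T.sub_P_eq 0 y
  have h3 : x - y = (T.lam 1 x - T.lam 1 y) • (T.P 1 - T.P 0) +
      (T.lam 2 x - T.lam 2 y) • (T.P 2 - T.P 0) := by
    have : x - y = (x - T.P 0) - (y - T.P 0) := by ring
    rw [this, h1, h2]
    change T.lam 1 x • (T.P 1 - T.P 0) + T.lam 2 x • (T.P 2 - T.P 0) -
      (T.lam 1 y • (T.P 1 - T.P 0) + T.lam 2 y • (T.P 2 - T.P 0)) = _
    module
  have hx := T.sum_lam x
  have hy := T.sum_lam y
  have b1 : |T.lam 1 x - T.lam 1 y| ≤ 1 := by
    rw [abs_le]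
    constructor <;> linarith [hx0 0, hx0 1, hx0 2, hy0 0, hy0 1, hy0 2]
  have b2 : |T.lam 2 x - T.lam 2 y| ≤ 1 := by
    rw [abs_le]
    constructor <;> linarith only [hx, hx0 0, hx0 1, hy0 2, hy, hx0 2, hy0 0, hy0 1]
  have e1 : ‖T.P 1 - T.P 0‖ = ‖T.d 2‖ := rfl
  have e2 : ‖T.P 2 - T.P 0‖ = ‖T.d 1‖ := by
    rw [norm_sub_rev]
    rfl
  rw [h3]
  refine (norm_add_le _ _).trans ?_
  rw [norm_smul, norm_smul, Real.norm_eq_abs, Real.norm_eq_abs, e1, e2]
  have n0 := norm_nonneg (T.d 0)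
  have n1 := norm_nonneg (T.d 1)
  have n2 := norm_nonneg (T.d 2)
  unfold dm
  linarith only [mul_nonneg (sub_nonneg.2 b2) (sub_nonneg.2 n1), mul_nonneg (sub_nonneg.2 b1) (sub_nonneg.2 n2), n0]

lemma abs_ell_le (i : Fin 3) (u : ℂ) : |T.ell i u| ≤ T.Lp * ‖u‖ := by
  unfold ell Lp
  rw [abs_div, div_mul_eq_mul_div]
  refine div_le_div_of_nonneg_right ?_ (abs_nonneg _)
  have h1 : |cr (T.d i) u| ≤ ‖T.d i‖ * ‖u‖ := by
    rw [cr_eq_im]
    refine (Complex.abs_im_le_norm _).trans ?_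
    rw [norm_mul, RCLike.norm_conj]
  refine h1.trans (mul_le_mul_of_nonneg_right ?_ (norm_nonneg _))
  have n0 := norm_nonneg (T.d 0)
  have n1 := norm_nonneg (T.d 1)
  have n2 := norm_nonneg (T.d 2)
  unfold dm
  match i with
  | 0 => linarith
  | 1 => linarith only [n0, n2]
  | 2 => linarith

lemma R_R (i : Fin 3) (x : ℂ) : T.R i (T.R i x) = x := by
  unfold R
  rw [add_sub_cancel_left, refl_refl, add_sub_cancel]

lemma R_add (i : Fin 3) (x v : ℂ) : T.R i (x + v) = T.R i x + T.refl i v := by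
  unfold R
  rw [show x + v - T.P (i + 1) = (x - T.P (i + 1)) + v by ring, refl_add, add_assoc]

lemma R_of_lam_eq_zero {i : Fin 3} {x : ℂ} (h : T.lam i x = 0) : T.R i x = x := by
  unfold lam at h
  rw [div_eq_zero_iff, or_iff_left T.Del_ne, cr_eq_im] at h
  have hd := T.d_ne i
  have hc : (starRingEnd ℂ) (T.d i) ≠ 0 := by simpa using hd
  unfold R
  rw [refl_eq]
  have h2 := Complex.conj_eq_iff_im.2 h
  rw [map_mul, Complex.conj_conj] at h2
  rw [div_mul_eq_mul_div, h2, mul_div_cancel_left₀ _ hc, add_sub_cancel]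

lemma lam_R (i : Fin 3) (x : ℂ) : T.lam i (T.R i x) = - T.lam i x := by
  unfold lam R
  rw [add_sub_cancel_left]
  have h := T.cr_refl i (T.d i) (x - T.P (i + 1))
  rw [refl_d] at h
  rw [h, neg_div]

lemma norm_R_sub_R (i : Fin 3) (x y : ℂ) : ‖T.R i x - T.R i y‖ = ‖x - y‖ := by
  unfold R
  rw [add_sub_add_left_eq_sub, ← refl_sub, norm_refl, sub_sub_sub_cancel_right]

lemma continuous_R (i : Fin 3) : Continuous (T.R i) := by
  unfold R
  exact continuous_const.add ((T.continuous_refl i).comp (continuous_id.sub continuous_const))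

lemma measurePreserving_R (i : Fin 3) : MeasurePreserving (T.R i) volume volume := by
  have h1 : MeasurePreserving (fun x : ℂ => x - T.P (i + 1)) volume volume :=
    measurePreserving_sub_right volume _
  have h2 : MeasurePreserving (T.refl i) volume volume :=
    (LinearIsometryEquiv.measurePreserving
      ((Submodule.span ℝ {T.P (i + 2) - T.P (i + 1)}).reflection))
  have h3 : MeasurePreserving (fun x : ℂ => T.P (i + 1) + x) volume volume :=
    measurePreserving_add_left volume _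
  exact h3.comp (h2.comp h1)

/-- a point with `lam i x = 0` on the line of side `i`: crossing point of a segment from a point
`x` with `0 < lam i x` to `y` with `lam i y < 0` -/
lemma norm_R_sub_le (i : Fin 3) {x y : ℂ} (hx : 0 ≤ T.lam i x) (hy : T.lam i y ≤ 0) :
    ‖T.R i y - x‖ ≤ ‖y - x‖ := by
  have hd := T.d_ne i
  have hc : (starRingEnd ℂ) (T.d i) ≠ 0 := by simpa using hd
  have hN : 0 < (T.d i).re ^ 2 + (T.d i).im ^ 2 := by
    rcases eq_or_ne (T.d i).re 0 with h1 | h1
    · rcases eq_or_ne (T.d i).im 0 with h2 | h2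
      · exact absurd (Complex.ext h1 h2) hd
      · (clear * - h2; positivity)
    · positivity
  set a := y - T.P (i + 1) with ha
  set b := x - T.P (i + 1) with hb
  have h1 : T.R i y - x = T.refl i a - b := by
    unfold R
    rw [hb]
    ring
  have h2 : y - x = a - b := by rw [ha, hb]; ring
  rw [h1, h2]
  -- signs
  have hsign : cr (T.d i) a * cr (T.d i) b ≤ 0 := by
    have e1 : cr (T.d i) a = T.lam i y * T.Del := by
      unfold lam
      rw [div_mul_cancel₀ _ T.Del_ne]
    have e2 : cr (T.d i) b = T.lam i x * T.Del := by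
      unfold lam
      rw [div_mul_cancel₀ _ T.Del_ne]
    rw [e1, e2]
    have : T.lam i y * T.lam i x ≤ 0 := mul_nonpos_of_nonpos_of_nonneg hy hx
    linarith only [mul_nonneg (sub_nonneg.2 this) (mul_self_nonneg T.Del)]
  have key : dt a b ≤ dt (T.refl i a) b := by
    have h3 : dt (T.refl i a) b * ((T.d i).re ^ 2 + (T.d i).im ^ 2) =
        dt a b * ((T.d i).re ^ 2 + (T.d i).im ^ 2) - 2 * (cr (T.d i) a * cr (T.d i) b) := by
      have h4 : T.refl i a * (((T.d i).re ^ 2 + (T.d i).im ^ 2 : ℝ) : ℂ) =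
          T.d i * T.d i * (starRingEnd ℂ) a := by
        rw [refl_eq]
        have h5 : (((T.d i).re ^ 2 + (T.d i).im ^ 2 : ℝ) : ℂ) = T.d i * (starRingEnd ℂ) (T.d i) := by
          rw [Complex.mul_conj, Complex.normSq_apply]
          push_cast
          ring
        rw [h5]
        field_simp
      have h6 := congrArg Complex.re h4
      have h7 := congrArg Complex.im h4
      rw [mul_comm, Complex.re_ofReal_mul] at h6
      rw [mul_comm, Complex.im_ofReal_mul] at h7
      simp only [Complex.mul_re, Complex.mul_im, Complex.conj_re, Complex.conj_im] at h6 h7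
      unfold dt cr
      linear_combination b.re * h6 + b.im * h7
    (by_contra nlg; linarith only [nlg, mul_pos (sub_pos.2 (not_le.1 nlg)) (sub_pos.2 hN), h3, hsign])
  have hsq : ∀ v w : ℂ, ‖v - w‖ ^ 2 = ‖v‖ ^ 2 + ‖w‖ ^ 2 - 2 * dt v w := by
    intro v w
    rw [← Complex.normSq_eq_norm_sq, ← Complex.normSq_eq_norm_sq, ← Complex.normSq_eq_norm_sq,
      Complex.normSq_apply, Complex.normSq_apply, Complex.normSq_apply]
    unfold dt
    simp only [Complex.sub_re, Complex.sub_im]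
    ring
  have h8 := hsq (T.refl i a) b
  have h9 := hsq a b
  rw [norm_refl] at h8
  refine (sq_le_sq₀ (norm_nonneg _) (norm_nonneg _)).1 ?_
  rw [h8, h9]
  linarith only [key]

end Triangle

end Vale.Agent.P099
end
end

section

section

open MeasureTheory Set Filter Topology

namespace Vale.Agent.P099

namespace Triangle

variable (T : Triangle)

/-- time at which the ray from `s.1` in direction `s.2` meets the line of side `i` -/
noncomputable def hitT (i : Fin 3) (s : ℂ × ℂ) : ℝ := - T.lam i s.1 / T.ell i s.2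

/-- the forward ray of the state `s` leaves the table through the open side `i` -/
def E (i : Fin 3) (s : ℂ × ℂ) : Prop :=
  T.ell i s.2 < 0 ∧ ∀ j, j ≠ i → 0 < T.lam j (s.1 + T.hitT i s • s.2)

/-- the state just after the collision with side `i` -/
noncomputable def hit (i : Fin 3) (s : ℂ × ℂ) : ℂ × ℂ :=
  (s.1 + T.hitT i s • s.2, T.refl i s.2)

/-- state after the collisions listed in the word -/
noncomputable def orb : List (Fin 3) → ℂ × ℂ → ℂ × ℂ
  | [], s => s
  | i :: w, s => orb w (T.hit i s)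

/-- the successive collisions of `s` are with the sides listed in the word -/
def dom : List (Fin 3) → ℂ × ℂ → Prop
  | [], _ => True
  | i :: w, s => T.E i s ∧ dom w (T.hit i s)

/-- total time of the collisions of the word -/
noncomputable def tm : List (Fin 3) → ℂ × ℂ → ℝ
  | [], _ => 0
  | i :: w, s => T.hitT i s + tm w (T.hit i s)

/-- admissible states: in the closed table, and moving inwards when on a side -/
def Adm (s : ℂ × ℂ) : Prop :=
  ∀ i, 0 < T.lam i s.1 ∨ (T.lam i s.1 = 0 ∧ 0 < T.ell i s.2)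

/-- regular states: the forward trajectory never runs into a vertex -/
def Reg (s : ℂ × ℂ) : Prop := ∀ w, T.dom w s → ∃ i, T.E i (T.orb w s)

/-! ### basic facts on words -/

lemma adm_of_mem_table {s : ℂ × ℂ} (h : s.1 ∈ T.table) : T.Adm s :=
  fun i => Or.inl ((T.mem_table_iff s.1).1 h i)

/-- admissible states have nonnegative coordinates -/
lemma Adm.nonneg {s : ℂ × ℂ} (h : T.Adm s) (i : Fin 3) : 0 ≤ T.lam i s.1 := by
  rcases h i with h1 | h1
  · exact h1.le
  · exact h1.1.ge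

/-- if the exit side is `i` then the coordinate is positive and the hitting time is positive -/
lemma E.lam_pos {s : ℂ × ℂ} (h : T.Adm s) {i : Fin 3} (hE : T.E i s) : 0 < T.lam i s.1 := by
  rcases h i with h1 | h1
  · exact h1
  · exact absurd (h1.2.trans hE.1) (lt_irrefl _)

lemma E.hitT_pos {s : ℂ × ℂ} (h : T.Adm s) {i : Fin 3} (hE : T.E i s) : 0 < T.hitT i s :=
  div_pos_of_neg_of_neg (neg_neg_of_pos (E.lam_pos T h hE)) hE.1

lemma lam_hit (i : Fin 3) {s : ℂ × ℂ} (hE : T.E i s) : T.lam i (T.hit i s).1 = 0 := by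
  rw [hit, T.lam_add_smul, hitT, div_mul_cancel₀ _ hE.1.ne]
  ring

lemma E.hit_mem_side {s : ℂ × ℂ} {i : Fin 3} (hE : T.E i s) : (T.hit i s).1 ∈ T.side i :=
  (T.mem_side_iff' i _).2 ⟨T.lam_hit i hE, hE.2⟩

lemma E.adm_hit {s : ℂ × ℂ} {i : Fin 3} (hE : T.E i s) : T.Adm (T.hit i s) := by
  intro j
  by_cases hj : j = i
  · rw [hj]
    right
    refine ⟨T.lam_hit i hE, ?_⟩
    change 0 < T.ell i (T.refl i s.2)
    rw [T.ell_refl]
    linarith only [hE.1]
  · exact Or.inl (hE.2 j hj)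

lemma lam_le_of_hitT_le {s : ℂ × ℂ} {i : Fin 3} (hE : T.ell i s.2 < 0) {t : ℝ}
    (ht : T.hitT i s ≤ t) : T.lam i (s.1 + t • s.2) ≤ 0 := by
  rw [T.lam_add_smul]
  rw [hitT, div_le_iff_of_neg hE] at ht
  linarith

lemma lam_pos_of_lt_hitT {s : ℂ × ℂ} {i : Fin 3} (hE : T.ell i s.2 < 0) {t : ℝ}
    (ht : t < T.hitT i s) : 0 < T.lam i (s.1 + t • s.2) := by
  rw [T.lam_add_smul]
  rw [hitT, lt_div_iff_of_neg hE] at ht
  linarith

/-- the exit side is unique -/
lemma E.unique {s : ℂ × ℂ} (_h : T.Adm s) {i j : Fin 3} (hi : T.E i s) (hj : T.E j s) :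
    i = j := by
  by_contra hij
  rcases le_total (T.hitT i s) (T.hitT j s) with h1 | h1
  · have h2 := T.lam_le_of_hitT_le hi.1 h1
    have h3 := hj.2 i hij
    linarith only [h2, h3]
  · have h2 := T.lam_le_of_hitT_le hj.1 h1
    have h3 := hi.2 j (Ne.symm hij)
    linarith only [h2, h3]

/-- before the hitting time the ray is inside the table -/
lemma E.mem_table {s : ℂ × ℂ} (h : T.Adm s) {i : Fin 3} (hE : T.E i s) {t : ℝ} (ht : 0 < t)
    (ht' : t < T.hitT i s) : s.1 + t • s.2 ∈ T.table := by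
  rw [T.mem_table_iff]
  intro j
  by_cases hj : j = i
  · rw [hj]; exact T.lam_pos_of_lt_hitT hE.1 ht'
  · have h1 := Adm.nonneg T h j
    have h2 := hE.2 j hj
    have h0 : 0 < T.hitT i s := ht.trans ht'
    rw [T.lam_add_smul] at h2 ⊢
    have h3 : 0 < (T.hitT i s) * (T.lam j s.1 + t * T.ell j s.2) := by
      have e : (T.hitT i s) * (T.lam j s.1 + t * T.ell j s.2)
          = (T.hitT i s - t) * T.lam j s.1 + t * (T.lam j s.1 + T.hitT i s * T.ell j s.2) := by ring
      rw [e]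
      have h4 : 0 ≤ (T.hitT i s - t) * T.lam j s.1 := mul_nonneg (by linarith) h1
      have h5 := mul_pos ht h2
      linarith
    exact (mul_pos_iff_of_pos_left h0).1 h3

lemma adm_orb {s : ℂ × ℂ} (h : T.Adm s) (w : List (Fin 3)) (hw : T.dom w s) :
    T.Adm (T.orb w s) := by
  induction w generalizing s with
  | nil => exact h
  | cons i w ih => exact ih (E.adm_hit T hw.1) hw.2

lemma norm_orb {s : ℂ × ℂ} (h : ‖s.2‖ = 1) (w : List (Fin 3)) : ‖(T.orb w s).2‖ = 1 := by
  induction w generalizing s with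
  | nil => exact h
  | cons i w ih => exact ih (by change ‖T.refl i s.2‖ = 1; rw [T.norm_refl, h])

lemma tm_nonneg {s : ℂ × ℂ} (h : T.Adm s) (w : List (Fin 3)) (hw : T.dom w s) :
    0 ≤ T.tm w s := by
  induction w generalizing s with
  | nil => exact le_rfl
  | cons i w ih =>
    have h1 := ih (E.adm_hit T hw.1) hw.2
    have h2 := E.hitT_pos T h hw.1
    change 0 ≤ T.hitT i s + T.tm w (T.hit i s)
    linarith

lemma Reg.hit {s : ℂ × ℂ} (h : T.Reg s) {i : Fin 3} (hE : T.E i s) : T.Reg (T.hit i s) :=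
  fun w hw => h (i :: w) ⟨hE, hw⟩

end Triangle

end Vale.Agent.P099
end
end

section

section

open MeasureTheory Set Filter Topology

namespace Vale.Agent.P099

/-! ### the direction measure `nu` -/

instance factTwoPi : Fact (0 < 2 * Real.pi) := ⟨by positivity⟩

/-- the angle circle -/
abbrev Cir := AddCircle (2 * Real.pi)

/-- the unit vector of an angle -/
noncomputable def evec (x : Cir) : ℂ := fourier 1 x

lemma measurable_evec : Measurable evec := (map_continuous (fourier 1)).measurable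

lemma evec_coe (θ : ℝ) : evec (θ : Cir) = Complex.exp (θ * Complex.I) := by
  unfold evec
  rw [fourier_coe_apply]
  congr 1
  have : (Real.pi : ℂ) ≠ 0 := by exact_mod_cast Real.pi_ne_zero
  push_cast
  field_simp

lemma norm_evec (x : Cir) : ‖evec x‖ = 1 := by
  unfold evec
  rw [fourier_apply, Circle.norm_coe]

lemma evec_add (x y : Cir) : evec (x + y) = evec x * evec y := by
  unfold evec
  simp only [fourier_apply, one_zsmul, AddCircle.toCircle_add, Circle.coe_mul]

lemma evec_neg (x : Cir) : evec (-x) = (starRingEnd ℂ) (evec x) := by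
  unfold evec
  rw [← fourier_neg]
  simp [fourier_apply]

lemma evec_zpow (x : Cir) (k : ℤ) : evec x ^ k = fourier k x := by
  unfold evec
  simp only [fourier_apply, one_zsmul, AddCircle.toCircle_zsmul, Circle.coe_zpow]

lemma volume_Ioc_pi : volume (Ioc (-Real.pi) Real.pi) = ENNReal.ofReal (2 * Real.pi) := by
  rw [Real.volume_Ioc]
  congr 1
  ring

lemma measurable_expI : Measurable (fun θ : ℝ => Complex.exp (θ * Complex.I)) := by
  (clear * -; fun_prop)

instance : IsProbabilityMeasure nu := by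
  have h : IsProbabilityMeasure (ProbabilityTheory.cond volume (Ioc (-Real.pi) Real.pi)) := by
    apply ProbabilityTheory.cond_isProbabilityMeasure_of_finite
    · rw [volume_Ioc_pi]
      simp [Real.pi_pos]
    · rw [volume_Ioc_pi]
      exact ENNReal.ofReal_ne_top
  exact Measure.isProbabilityMeasure_map measurable_expI.aemeasurable

lemma nu_eq_map : nu = (AddCircle.haarAddCircle : Measure Cir).map evec := by
  have h1 := (AddCircle.measurePreserving_mk (2 * Real.pi) (-Real.pi)).map_eq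
  have h2 : (-Real.pi + 2 * Real.pi) = Real.pi := by ring
  rw [h2] at h1
  have h3 : (AddCircle.haarAddCircle : Measure Cir) =
      (ENNReal.ofReal (2 * Real.pi))⁻¹ • (volume : Measure Cir) := by
    rw [AddCircle.volume_eq_smul_haarAddCircle, smul_smul, ENNReal.inv_mul_cancel, one_smul]
    · simp only [Nat.ofNat_nonneg, ENNReal.ofReal_mul, ENNReal.ofReal_ofNat, ne_eq, mul_eq_zero, OfNat.ofNat_ne_zero, ENNReal.ofReal_eq_zero, false_or, not_le, Real.pi_pos]
    · exact ENNReal.ofReal_ne_top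
  rw [h3, ← h1, nu, ProbabilityTheory.cond, volume_Ioc_pi, Measure.map_smul, Measure.map_smul,
    Measure.map_map measurable_evec (by fun_prop)]
  congr 2
  funext θ
  simp only [Function.comp]
  rw [← evec_coe]

lemma measurePreserving_evec : MeasurePreserving evec AddCircle.haarAddCircle nu :=
  ⟨measurable_evec, nu_eq_map.symm⟩

lemma nu_eq (f : ℂ → ℂ) (hf : Measurable f) :
    ∫ u, f u ∂nu = (2 * Real.pi)⁻¹ • ∫ θ in (-Real.pi)..Real.pi, f (Complex.exp (θ * Complex.I)) := by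
  rw [nu, integral_map measurable_expI.aemeasurable hf.aestronglyMeasurable,
    ProbabilityTheory.cond, integral_smul_measure, volume_Ioc_pi,
    intervalIntegral.integral_of_le (by (clear * -; linarith [Real.pi_pos]))]
  congr 1
  rw [ENNReal.toReal_inv, ENNReal.toReal_ofReal (by positivity)]

lemma ae_norm : ∀ᵐ u ∂nu, ‖u‖ = 1 := by
  rw [nu_eq_map, ae_map_iff measurable_evec.aemeasurable]
  · exact ae_of_all _ norm_evec
  · exact measurableSet_eq_fun measurable_norm measurable_const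

lemma exists_evec_eq {ω : ℂ} (hω : ‖ω‖ = 1) : ∃ a : Cir, evec a = ω := by
  refine ⟨(ω.arg : Cir), ?_⟩
  rw [evec_coe]
  have := Complex.norm_mul_exp_arg_mul_I ω
  rw [hω] at this
  simpa using this

lemma measurePreserving_mul {ω : ℂ} (hω : ‖ω‖ = 1) :
    MeasurePreserving (fun u => ω * u) nu nu := by
  obtain ⟨a, rfl⟩ := exists_evec_eq hω
  refine ⟨by fun_prop, ?_⟩
  conv_rhs => rw [nu_eq_map, ← (measurePreserving_add_left AddCircle.haarAddCircle a).map_eq]
  rw [nu_eq_map, Measure.map_map (by fun_prop) measurable_evec,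
    Measure.map_map measurable_evec (by fun_prop)]
  congr 1
  funext x
  simp [evec_add]

lemma measurePreserving_conj : MeasurePreserving (starRingEnd ℂ) nu nu := by
  have hm : Measurable (starRingEnd ℂ) := Complex.continuous_conj.measurable
  refine ⟨hm, ?_⟩
  conv_rhs => rw [nu_eq_map, ← (Measure.measurePreserving_neg (AddCircle.haarAddCircle : Measure Cir)).map_eq]
  rw [nu_eq_map, Measure.map_map hm measurable_evec,
    Measure.map_map measurable_evec measurable_neg]
  congr 1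
  funext x
  simp [evec_neg]

lemma measurePreserving_neg' : MeasurePreserving (fun u : ℂ => - u) nu nu := by
  have := measurePreserving_mul (ω := -1) (by simp)
  simpa using this

lemma Triangle.measurePreserving_refl (T : Triangle) (i : Fin 3) :
    MeasurePreserving (T.refl i) nu nu := by
  have h1 : ‖T.d i / (starRingEnd ℂ) (T.d i)‖ = 1 := by
    rw [norm_div, RCLike.norm_conj, div_self]
    exact norm_ne_zero_iff.mpr (T.d_ne i)
  have h2 := (measurePreserving_mul h1).comp measurePreserving_conj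
  have h3 : T.refl i = (fun u => T.d i / (starRingEnd ℂ) (T.d i) * u) ∘ (starRingEnd ℂ) := by
    funext u
    simp [T.refl_eq]
  rw [h3]
  exact h2

/-- Fourier modes in the direction variable -/
noncomputable def mode (k : ℤ) (f : ℂ → ℂ) : ℂ := ∫ u, f u * u ^ (-k) ∂nu

lemma mode_eq (k : ℤ) (f : ℂ → ℂ) (hf : AEStronglyMeasurable f nu) :
    mode k f = fourierCoeff (fun x : Cir => f (evec x)) k := by
  have h : AEStronglyMeasurable (fun u : ℂ => f u * u ^ (-k)) nu := by
    apply hf.mul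
    exact (measurable_id.pow_const (-k)).aestronglyMeasurable
  rw [mode, fourierCoeff]
  rw [nu_eq_map] at h ⊢
  rw [integral_map measurable_evec.aemeasurable h]
  apply integral_congr_ae
  refine ae_of_all _ fun x => ?_
  simp only [smul_eq_mul]
  rw [evec_zpow, mul_comm]

/-- Parseval's identity -/
lemma hasSum_mode (f : ℂ → ℂ) (hf : MemLp f 2 nu) :
    HasSum (fun k : ℤ => ‖mode k f‖ ^ 2) (∫ u, ‖f u‖ ^ 2 ∂nu) := by
  have h1 : MemLp (fun x : Cir => f (evec x)) 2 AddCircle.haarAddCircle :=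
    hf.comp_measurePreserving measurePreserving_evec
  have h2 := hasSum_sq_fourierCoeff (h1.toLp _)
  have h3 : ∀ k, fourierCoeff (h1.toLp _) k = mode k f := by
    intro k
    rw [mode_eq k f hf.aestronglyMeasurable, fourierCoeff_congr_ae h1.coeFn_toLp]
  have h4 : ∫ t : Cir, ‖(h1.toLp _) t‖ ^ 2 ∂AddCircle.haarAddCircle = ∫ u, ‖f u‖ ^ 2 ∂nu := by
    have h5 : ∫ t : Cir, ‖(h1.toLp _) t‖ ^ 2 ∂AddCircle.haarAddCircle =
        ∫ t : Cir, ‖f (evec t)‖ ^ 2 ∂AddCircle.haarAddCircle := by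
      apply integral_congr_ae
      filter_upwards [h1.coeFn_toLp] with t ht
      rw [ht]
    rw [h5]
    have h6 : AEStronglyMeasurable (fun u : ℂ => ‖f u‖ ^ 2) nu :=
      (hf.aestronglyMeasurable.norm).pow 2
    rw [nu_eq_map] at h6 ⊢
    rw [integral_map measurable_evec.aemeasurable h6]
  rw [h4] at h2
  simpa only [h3] using h2

/-- Bessel's inequality -/
lemma bessel (f : ℂ → ℂ) (hf : MemLp f 2 nu) (s : Finset ℤ) :
    ∑ k ∈ s, ‖mode k f‖ ^ 2 ≤ ∫ u, ‖f u‖ ^ 2 ∂nu := by
  exact sum_le_hasSum s (fun k _ => by positivity) (hasSum_mode f hf)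

/-- modes tend to zero (a consequence of Bessel) -/
lemma summable_mode (f : ℂ → ℂ) (hf : MemLp f 2 nu) : Summable fun k : ℤ => ‖mode k f‖ ^ 2 := by
  exact (hasSum_mode f hf).summable

/-- uniqueness -/
lemma ae_zero_of_mode (f : ℂ → ℂ) (hf : MemLp f 2 nu) (h : ∀ k, mode k f = 0) :
    f =ᵐ[nu] 0 := by
  have h1 := hasSum_mode f hf
  simp only [h, norm_zero] at h1
  have h2 : ∫ u, ‖f u‖ ^ 2 ∂nu = 0 := by
    have h3 : HasSum (fun _ : ℤ => (0:ℝ) ^ 2) 0 := by
      simp
    exact h1.unique h3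
  rw [integral_eq_zero_iff_of_nonneg (fun u => by positivity)] at h2
  · filter_upwards [h2] with u hu
    simpa using hu
  · exact hf.integrable_norm_pow (by norm_num)

end Vale.Agent.P099
end
end

section

section

open MeasureTheory Set Filter Topology

namespace Vale.Agent.P099

/-! ### mollifiers -/

/-- There is a smooth radial mollifier. -/
lemma exists_rho : ∃ ρ : ℂ → ℝ, ContDiff ℝ (⊤ : ℕ∞) ρ ∧ (∀ z, 0 ≤ ρ z) ∧ (∀ z, 1 ≤ ‖z‖ → ρ z = 0) ∧
    (∫ z, ρ z = 1) ∧ (∀ z z', ‖z‖ = ‖z'‖ → ρ z = ρ z') := by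
  set f : ℂ → ℝ := fun z => expNegInvGlue (1 - ‖z‖ ^ 2) with hf
  have hsm : ContDiff ℝ (⊤ : ℕ∞) f :=
    expNegInvGlue.contDiff.comp (contDiff_const.sub (contDiff_norm_sq ℝ))
  have hnn : ∀ z, 0 ≤ f z := fun z => expNegInvGlue.nonneg _
  have hz : ∀ z, 1 ≤ ‖z‖ → f z = 0 := by
    intro z h
    apply expNegInvGlue.zero_of_nonpos
    nlinarith only [h]
  have hcs : HasCompactSupport f := by
    apply HasCompactSupport.intro (isCompact_closedBall (0 : ℂ) 1)
    intro z h
    apply hz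
    simp only [Metric.mem_closedBall, dist_zero_right, not_le] at h
    exact h.le
  have hpos : 0 < ∫ z, f z := by
    apply hsm.continuous.integral_pos_of_hasCompactSupport_nonneg_nonzero hcs hnn (x := 0)
    have : 0 < f 0 := by
      apply expNegInvGlue.pos_of_pos
      simp only [norm_zero, ne_eq, OfNat.ofNat_ne_zero, not_false_eq_true, zero_pow, sub_zero, zero_lt_one]
    exact this.ne'
  refine ⟨fun z => (∫ z, f z)⁻¹ * f z, contDiff_const.mul hsm, fun z => ?_, fun z h => ?_, ?_,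
    fun z z' h => ?_⟩
  · exact mul_nonneg (inv_nonneg.2 hpos.le) (hnn z)
  · simp [hz z h]
  · rw [integral_const_mul, inv_mul_cancel₀ hpos.ne']
  · simp only [hf, h]

/-- the unit mollifier -/
noncomputable def rho1 : ℂ → ℝ := exists_rho.choose

/-- the mollifier at scale `ε` -/
noncomputable def rho (ε : ℝ) (z : ℂ) : ℝ := ε⁻¹ ^ 2 * rho1 ((ε⁻¹ : ℝ) • z)

lemma rho1_contDiff : ContDiff ℝ (⊤ : ℕ∞) rho1 := exists_rho.choose_spec.1

lemma rho_contDiff (ε : ℝ) : ContDiff ℝ (⊤ : ℕ∞) (rho ε) :=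
  contDiff_const.mul (rho1_contDiff.comp (contDiff_const_smul _))

lemma rho_nonneg (ε : ℝ) (z : ℂ) : 0 ≤ rho ε z :=
  mul_nonneg (by positivity) (exists_rho.choose_spec.2.1 _)

lemma rho_eq_zero {ε : ℝ} (hε : 0 < ε) {z : ℂ} (hz : ε ≤ ‖z‖) : rho ε z = 0 := by
  have h : rho1 ((ε⁻¹ : ℝ) • z) = 0 := by
    apply exists_rho.choose_spec.2.2.1
    rw [norm_smul, norm_inv, Real.norm_of_nonneg hε.le]
    rw [inv_mul_eq_div, le_div_iff₀ hε]
    simpa only [one_mul] using hz
  rw [rho, h, mul_zero]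

lemma integral_rho {ε : ℝ} (hε : 0 < ε) : ∫ z, rho ε z = 1 := by
  have h1 : ∫ z, rho1 z = 1 := exists_rho.choose_spec.2.2.2.1
  simp only [rho]
  rw [integral_const_mul, Measure.integral_comp_smul volume rho1 ε⁻¹, Complex.finrank_real_complex,
    h1, abs_of_pos (by positivity)]
  simp only [smul_eq_mul, mul_one]
  field_simp

lemma rho_radial (ε : ℝ) {z z' : ℂ} (h : ‖z‖ = ‖z'‖) : rho ε z = rho ε z' := by
  simp only [rho]
  congr 1
  apply exists_rho.choose_spec.2.2.2.2
  rw [norm_smul, norm_smul, h]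

lemma hasCompactSupport_rho {ε : ℝ} (hε : 0 < ε) : HasCompactSupport (rho ε) := by
  apply HasCompactSupport.intro (isCompact_closedBall (0 : ℂ) ε)
  intro z h
  apply rho_eq_zero hε
  simp only [Metric.mem_closedBall, dist_zero_right, not_le] at h
  exact h.le

/-- `∂_z` of the mollifier -/
noncomputable def kap (ε : ℝ) (z : ℂ) : ℂ :=
  (fderiv ℝ (rho ε) z 1 - Complex.I * fderiv ℝ (rho ε) z Complex.I) / 2

/-- directional derivative in terms of `kap` -/
lemma fderiv_rho_apply (ε : ℝ) (z u : ℂ) :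
    fderiv ℝ (rho ε) z u = 2 * (u * kap ε z).re := by
  have hu : u = (u.re : ℝ) • (1 : ℂ) + (u.im : ℝ) • Complex.I := by
    apply Complex.ext <;> simp only [Complex.real_smul, mul_one, Complex.re_add_im]
  have h1 : fderiv ℝ (rho ε) z u =
      u.re * fderiv ℝ (rho ε) z 1 + u.im * fderiv ℝ (rho ε) z Complex.I := by
    conv_lhs => rw [hu]
    rw [map_add, map_smul, map_smul]
    simp only [smul_eq_mul]
  rw [h1, kap]
  simp only [Complex.mul_re, Complex.div_ofNat_re, Complex.sub_re, Complex.ofReal_re, Complex.I_re,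
    zero_mul, Complex.I_im, Complex.ofReal_im, mul_zero, sub_self, Complex.div_ofNat_im,
    Complex.sub_im, Complex.mul_im, one_mul, zero_add]
  ring

lemma continuous_fderiv_rho (ε : ℝ) (u : ℂ) : Continuous fun z => fderiv ℝ (rho ε) z u :=
  ((rho_contDiff ε).continuous_fderiv (by simp)).clm_apply continuous_const

lemma continuous_kap (ε : ℝ) : Continuous (kap ε) := by
  unfold kap
  exact ((Complex.continuous_ofReal.comp (continuous_fderiv_rho ε 1)).sub
    (continuous_const.mul (Complex.continuous_ofReal.comp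
      (continuous_fderiv_rho ε Complex.I)))).div_const 2

lemma fderiv_rho_eq_zero {ε : ℝ} (hε : 0 < ε) {z : ℂ} (hz : ε ≤ ‖z‖) :
    fderiv ℝ (rho ε) z = 0 := by
  apply IsLocalMin.fderiv_eq_zero
  apply Eventually.of_forall
  intro y
  simp only [rho_eq_zero hε hz]
  exact rho_nonneg ε y

lemma kap_eq_zero {ε : ℝ} (hε : 0 < ε) {z : ℂ} (hz : ε ≤ ‖z‖) : kap ε z = 0 := by
  simp only [kap, fderiv_rho_eq_zero hε hz, zero_apply, Complex.ofReal_zero, mul_zero, sub_self, zero_div]

lemma hasCompactSupport_kap {ε : ℝ} (hε : 0 < ε) : HasCompactSupport (kap ε) := by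
  apply HasCompactSupport.intro (isCompact_closedBall (0 : ℂ) ε)
  intro z h
  apply kap_eq_zero hε
  simp only [Metric.mem_closedBall, dist_zero_right, not_le] at h
  exact h.le

lemma hasCompactSupport_fderiv_rho {ε : ℝ} (hε : 0 < ε) (u : ℂ) :
    HasCompactSupport fun z => fderiv ℝ (rho ε) z u := by
  apply HasCompactSupport.intro (isCompact_closedBall (0 : ℂ) ε)
  intro z h
  have : fderiv ℝ (rho ε) z = 0 := by
    apply fderiv_rho_eq_zero hε
    simp only [Metric.mem_closedBall, dist_zero_right, not_le] at h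
    exact h.le
  simp [this]

lemma integral_fderiv_rho {ε : ℝ} (hε : 0 < ε) (u : ℂ) :
    ∫ z, fderiv ℝ (rho ε) z u = 0 := by
  have h := integral_mul_fderiv_eq_neg_fderiv_mul_of_integrable (μ := (volume : Measure ℂ))
    (f := fun _ : ℂ => (1 : ℝ)) (g := rho ε) (v := u) (by simp only [fderiv_fun_const, Pi.zero_apply, zero_apply, zero_mul, integrable_fun_zero])
    (by
      simpa only [one_mul] using     (continuous_fderiv_rho ε u).integrable_of_hasCompactSupport (hasCompactSupport_fderiv_rho hε u))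
    (by
      simpa only [one_mul] using     (rho_contDiff ε).continuous.integrable_of_hasCompactSupport (hasCompactSupport_rho hε))
    (fun x _ => differentiableAt_const _)
    (fun x _ => ((rho_contDiff ε).differentiable (by simp)).differentiableAt)
  simpa only [one_mul, fderiv_fun_const, Pi.zero_apply, zero_apply, zero_mul, integral_zero, neg_zero] using h

lemma integrable_kap {ε : ℝ} (hε : 0 < ε) : Integrable (kap ε) :=
  (continuous_kap ε).integrable_of_hasCompactSupport (hasCompactSupport_kap hε)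

lemma integral_kap {ε : ℝ} (hε : 0 < ε) : ∫ z, kap ε z = 0 := by
  have hi : ∀ u : ℂ, Integrable fun z => ((fderiv ℝ (rho ε) z u : ℝ) : ℂ) := fun u =>
    ((continuous_fderiv_rho ε u).integrable_of_hasCompactSupport
      (hasCompactSupport_fderiv_rho hε u)).ofReal
  simp only [kap]
  rw [integral_div, integral_sub (hi 1) ((hi Complex.I).const_mul _), integral_const_mul,
    integral_complex_ofReal, integral_complex_ofReal, integral_fderiv_rho hε,
    integral_fderiv_rho hε]
  simp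

lemma rho_eq_rho_one {ε : ℝ} (z : ℂ) : rho ε z = ε⁻¹ ^ 2 * rho 1 ((ε⁻¹ : ℝ) • z) := by
  simp only [rho, inv_pow, Complex.real_smul, Complex.ofReal_inv, inv_one, one_pow, one_smul, one_mul]

lemma fderiv_rho_scale {ε : ℝ} (z u : ℂ) :
    fderiv ℝ (rho ε) z u = ε⁻¹ ^ 3 * fderiv ℝ (rho 1) ((ε⁻¹ : ℝ) • z) u := by
  have h1 : HasFDerivAt (rho 1) (fderiv ℝ (rho 1) ((ε⁻¹ : ℝ) • z)) ((ε⁻¹ : ℝ) • z) :=
    (((rho_contDiff 1).differentiable (by simp)).differentiableAt).hasFDerivAt
  have h2 : HasFDerivAt (fun z : ℂ => (ε⁻¹ : ℝ) • z) ((ε⁻¹ : ℝ) • ContinuousLinearMap.id ℝ ℂ) z :=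
    ((ε⁻¹ : ℝ) • ContinuousLinearMap.id ℝ ℂ).hasFDerivAt
  have h3 := (h1.comp z h2).const_mul (ε⁻¹ ^ 2)
  have h4 : (fun z => ε⁻¹ ^ 2 * (rho 1 ∘ fun z : ℂ => (ε⁻¹ : ℝ) • z) z) = rho ε := by
    funext z
    rw [rho_eq_rho_one z]
    rfl
  rw [h4] at h3
  rw [h3.fderiv]
  simp only [ContinuousLinearMap.coe_smul', ContinuousLinearMap.coe_comp', Pi.smul_apply,
    Function.comp_apply, ContinuousLinearMap.coe_id', id_eq, map_smul, smul_eq_mul]
  ring

lemma kap_scale {ε : ℝ} (z : ℂ) : kap ε z = (ε⁻¹ ^ 3 : ℝ) * kap 1 ((ε⁻¹ : ℝ) • z) := by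
  simp only [kap]
  rw [fderiv_rho_scale z 1, fderiv_rho_scale z Complex.I]
  push_cast
  ring

/-- a bound for the `L¹` norm of the gradient of the mollifier -/
lemma exists_kap_bound : ∃ C : ℝ, 0 < C ∧ ∀ ε : ℝ, 0 < ε → ∫ z, ‖kap ε z‖ ≤ C / ε := by
  refine ⟨(∫ z, ‖kap 1 z‖) + 1, ?_, fun ε hε => ?_⟩
  · have : 0 ≤ ∫ z, ‖kap 1 z‖ := integral_nonneg fun z => norm_nonneg _
    linarith
  · have h1 : ∀ z, ‖kap ε z‖ = ε⁻¹ ^ 3 * ‖kap 1 ((ε⁻¹ : ℝ) • z)‖ := by
      intro z
      rw [kap_scale, norm_mul, Complex.norm_real, Real.norm_of_nonneg (by positivity)]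
    simp only [h1]
    rw [integral_const_mul, Measure.integral_comp_smul volume (fun z => ‖kap 1 z‖) ε⁻¹,
      Complex.finrank_real_complex, abs_of_pos (by positivity)]
    simp only [smul_eq_mul]
    have h2 : 0 ≤ ∫ z, ‖kap 1 z‖ := integral_nonneg fun z => norm_nonneg _
    have h3 : ε⁻¹ ^ 3 * ((ε⁻¹ ^ 2)⁻¹ * ∫ z, ‖kap 1 z‖) = (∫ z, ‖kap 1 z‖) / ε := by
      (clear * - hε; field_simp)
    rw [h3]
    gcongr
    linarith only []

/-- convolution with a kernel -/
noncomputable def conv (κ : ℂ → ℂ) (f : ℂ → ℂ) (x : ℂ) : ℂ := ∫ y, κ (x - y) * f y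

/-- `∂_z` and `∂_zbar` -/
noncomputable def dz (w : ℂ → ℂ) (x : ℂ) : ℂ :=
  (fderiv ℝ w x 1 - Complex.I * fderiv ℝ w x Complex.I) / 2

noncomputable def dzb (w : ℂ → ℂ) (x : ℂ) : ℂ :=
  (fderiv ℝ w x 1 + Complex.I * fderiv ℝ w x Complex.I) / 2

lemma conv_eq_convolution (κ f : ℂ → ℂ) :
    conv κ f = convolution f κ (ContinuousLinearMap.mul ℝ ℂ) volume := by
  funext x
  simp only [conv, convolution_def, ContinuousLinearMap.mul_apply', mul_comm]

lemma rhoC_contDiff (ε : ℝ) : ContDiff ℝ (⊤ : ℕ∞) fun z => (rho ε z : ℂ) :=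
  Complex.ofRealCLM.contDiff.comp (rho_contDiff ε)

lemma hasCompactSupport_rhoC {ε : ℝ} (hε : 0 < ε) :
    HasCompactSupport fun z => (rho ε z : ℂ) :=
  (hasCompactSupport_rho hε).comp_left (g := fun r : ℝ => (r : ℂ)) (by simp)

lemma contDiff_conv {ε : ℝ} (hε : 0 < ε) {f : ℂ → ℂ} (hf : LocallyIntegrable f) :
    ContDiff ℝ (⊤ : ℕ∞) (conv (fun z => (rho ε z : ℂ)) f) := by
  rw [conv_eq_convolution]
  exact (hasCompactSupport_rhoC hε).contDiff_convolution_right _ hf (rhoC_contDiff ε)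

lemma fderiv_rhoC (ε : ℝ) (z u : ℂ) :
    fderiv ℝ (fun z => (rho ε z : ℂ)) z u =
      u * kap ε z + (starRingEnd ℂ) u * (starRingEnd ℂ) (kap ε z) := by
  have h1 : HasFDerivAt (rho ε) (fderiv ℝ (rho ε) z) z :=
    (((rho_contDiff ε).differentiable (by simp)).differentiableAt).hasFDerivAt
  have h2 : HasFDerivAt (fun z => (rho ε z : ℂ)) (Complex.ofRealCLM.comp (fderiv ℝ (rho ε) z)) z :=
    Complex.ofRealCLM.hasFDerivAt.comp z h1
  rw [h2.fderiv]
  simp only [ContinuousLinearMap.coe_comp, Function.comp_apply, Complex.ofRealCLM_apply]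
  rw [fderiv_rho_apply]
  rw [← map_mul, Complex.add_conj]

lemma conv_integrable {κ : ℂ → ℂ} (hκ : Continuous κ) (hc : HasCompactSupport κ) {f : ℂ → ℂ}
    (hf : LocallyIntegrable f) (x : ℂ) : Integrable fun y => κ (x - y) * f y := by
  have h := hc.convolutionExists_right (ContinuousLinearMap.mul ℝ ℂ) hf hκ x
  have h' : Integrable fun y => f y * κ (x - y) := h
  simpa only [mul_comm] using h'

lemma fderiv_conv {ε : ℝ} (hε : 0 < ε) {f : ℂ → ℂ} (hf : LocallyIntegrable f) (x u : ℂ) :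
    fderiv ℝ (conv (fun z => (rho ε z : ℂ)) f) x u =
      u * conv (kap ε) f x + (starRingEnd ℂ) u * conv (fun z => (starRingEnd ℂ) (kap ε z)) f x := by
  rw [conv_eq_convolution]
  rw [((hasCompactSupport_rhoC hε).hasFDerivAt_convolution_right (ContinuousLinearMap.mul ℝ ℂ) hf
    ((rhoC_contDiff ε).of_le (by exact_mod_cast le_top)) x).fderiv]
  have hc : HasCompactSupport fun z => (starRingEnd ℂ) (kap ε z) :=
    (hasCompactSupport_kap hε).comp_left (g := fun z : ℂ => (starRingEnd ℂ) z) (by simp)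
  have hcont : Continuous fun z => (starRingEnd ℂ) (kap ε z) :=
    Complex.continuous_conj.comp (continuous_kap ε)
  rw [convolution_precompR_apply (ContinuousLinearMap.mul ℝ ℂ) hf
    ((hasCompactSupport_rhoC hε).fderiv ℝ)
    ((rhoC_contDiff ε).continuous_fderiv (by simp))]
  simp only [convolution_def, ContinuousLinearMap.mul_apply', fderiv_rhoC, conv]
  rw [← integral_const_mul, ← integral_const_mul, ← integral_add]
  · congr 1
    funext y
    ring
  · exact (conv_integrable (continuous_kap ε) (hasCompactSupport_kap hε) hf x).const_mul _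
  · exact (conv_integrable hcont hc hf x).const_mul _

lemma dz_conv {ε : ℝ} (hε : 0 < ε) {f : ℂ → ℂ} (hf : LocallyIntegrable f) (x : ℂ) :
    dz (conv (fun z => (rho ε z : ℂ)) f) x = conv (kap ε) f x := by
  rw [dz, fderiv_conv hε hf, fderiv_conv hε hf]
  simp only [map_one, one_mul, Complex.conj_I]
  linear_combination (conv (kap ε) f x - conv (fun z => (starRingEnd ℂ) (kap ε z)) f x) *
    (-1 / 2) * Complex.I_mul_I

lemma dzb_conv {ε : ℝ} (hε : 0 < ε) {f : ℂ → ℂ} (hf : LocallyIntegrable f) (x : ℂ) :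
    dzb (conv (fun z => (rho ε z : ℂ)) f) x = conv (fun z => (starRingEnd ℂ) (kap ε z)) f x := by
  rw [dzb, fderiv_conv hε hf, fderiv_conv hε hf]
  simp only [map_one, one_mul, Complex.conj_I]
  linear_combination (conv (kap ε) f x - conv (fun z => (starRingEnd ℂ) (kap ε z)) f x) *
    (1 / 2) * Complex.I_mul_I

end Vale.Agent.P099
end
end

section

section

/-!
# P099: Green's formula on the standard simplex and the Jacobian identity
-/

namespace Vale.Agent.P099

open MeasureTheory Set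

/-- The open standard simplex. -/
def simp2 : Set (ℝ × ℝ) := {p | 0 < p.1 ∧ 0 < p.2 ∧ p.1 + p.2 < 1}

theorem isOpen_simp2 : IsOpen simp2 := by
  have h1 : IsOpen {p : ℝ × ℝ | 0 < p.1} := isOpen_lt continuous_const continuous_fst
  have h2 : IsOpen {p : ℝ × ℝ | 0 < p.2} := isOpen_lt continuous_const continuous_snd
  have h3 : IsOpen {p : ℝ × ℝ | p.1 + p.2 < 1} :=
    isOpen_lt (continuous_fst.add continuous_snd) continuous_const
  exact h1.inter (h2.inter h3)

theorem simp2_subset : simp2 ⊆ Icc 0 1 ×ˢ Icc 0 1 := by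
  rintro ⟨s, t⟩ ⟨h1, h2, h3⟩
  simp only at h1 h2 h3
  exact ⟨⟨h1.le, by linarith⟩, ⟨h2.le, by linarith⟩⟩

variable {E : Type*} [NormedAddCommGroup E] [NormedSpace ℝ E] [CompleteSpace E]

omit [CompleteSpace E] [NormedSpace ℝ E] in
theorem integrableOn_simp2 {φ : ℝ × ℝ → E} (hφ : Continuous φ) :
    IntegrableOn φ simp2 (volume : Measure (ℝ × ℝ)) := by
  have hK : IsCompact (Icc (0 : ℝ) 1 ×ˢ Icc (0 : ℝ) 1) := isCompact_Icc.prod isCompact_Icc
  exact (hφ.continuousOn.integrableOn_compact hK).mono_set simp2_subset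

omit [CompleteSpace E] in
theorem integral_simp2 {φ : ℝ × ℝ → E} (hφ : Continuous φ) :
    ∫ p in simp2, φ p = ∫ s in (0 : ℝ)..1, ∫ t in (0 : ℝ)..(1 - s), φ (s, t) := by
  have hm : MeasurableSet simp2 := isOpen_simp2.measurableSet
  have hint : Integrable (simp2.indicator φ) ((volume : Measure ℝ).prod (volume : Measure ℝ)) :=
    (integrable_indicator_iff hm).2 (integrableOn_simp2 hφ)
  rw [← integral_indicator hm]
  have h0 : ∫ p, simp2.indicator φ p
      = ∫ s : ℝ, ∫ t : ℝ, simp2.indicator φ (s, t) := integral_prod _ hint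
  rw [h0, intervalIntegral.integral_of_le zero_le_one, integral_Ioc_eq_integral_Ioo,
    ← integral_indicator measurableSet_Ioo]
  congr 1
  funext s
  by_cases hs : s ∈ Ioo (0 : ℝ) 1
  · rw [indicator_of_mem hs, intervalIntegral.integral_of_le (by linarith only [hs.2]),
      integral_Ioc_eq_integral_Ioo, ← integral_indicator measurableSet_Ioo]
    congr 1
    funext t
    by_cases ht : t ∈ Ioo (0 : ℝ) (1 - s)
    · rw [indicator_of_mem ht, indicator_of_mem]
      exact ⟨hs.1, ht.1, by have := ht.2; simp only; linarith⟩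
    · rw [indicator_of_notMem ht, indicator_of_notMem]
      rintro ⟨_, h2, h3⟩
      simp only at h2 h3
      exact ht ⟨h2, by linarith⟩
  · rw [indicator_of_notMem hs]
    have hz : ∀ t : ℝ, simp2.indicator φ (s, t) = 0 := by
      intro t
      rw [indicator_of_notMem]
      rintro ⟨h1, h2, h3⟩
      simp only at h1 h2 h3
      exact hs ⟨h1, by linarith⟩
    simp only [hz, integral_zero]

omit [CompleteSpace E] in
theorem integral_simp2' {φ : ℝ × ℝ → E} (hφ : Continuous φ) :
    ∫ p in simp2, φ p = ∫ t in (0 : ℝ)..1, ∫ s in (0 : ℝ)..(1 - t), φ (s, t) := by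
  have hsw : MeasurePreserving (Prod.swap : ℝ × ℝ → ℝ × ℝ) volume volume :=
    Measure.measurePreserving_swap
  have he : MeasurableEmbedding (Prod.swap : ℝ × ℝ → ℝ × ℝ) :=
    (MeasurableEquiv.prodComm (α := ℝ) (β := ℝ)).measurableEmbedding
  have h1 := hsw.setIntegral_preimage_emb he φ simp2
  have h2 : (Prod.swap : ℝ × ℝ → ℝ × ℝ) ⁻¹' simp2 = simp2 := by
    ext ⟨s, t⟩
    simp only [simp2, mem_preimage, Prod.swap_prod_mk, mem_ofPred_eq]
    constructor
    · rintro ⟨a, b, c⟩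
      exact ⟨b, a, by linarith only [c]⟩
    · rintro ⟨a, b, c⟩
      exact ⟨b, a, by linarith⟩
  rw [h2] at h1
  rw [← h1]
  exact integral_simp2 (φ := fun p => φ p.swap) (hφ.comp continuous_swap)

/-- Green's formula on the simplex. -/
theorem green_simp2 {F G Fs Gt : ℝ × ℝ → E} (hFc : Continuous Fs) (hGc : Continuous Gt)
    (hF : ∀ s t, HasDerivAt (fun s => F (s, t)) (Fs (s, t)) s)
    (hG : ∀ s t, HasDerivAt (fun t => G (s, t)) (Gt (s, t)) t)
    (hFcont : Continuous F) (hGcont : Continuous G) :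
    ∫ p in simp2, (Fs p - Gt p)
      = (∫ t in (0 : ℝ)..1, (F (1 - t, t) - G (1 - t, t))) - (∫ t in (0 : ℝ)..1, F (0, t))
        + ∫ s in (0 : ℝ)..1, G (s, 0) := by
  rw [integral_sub (integrableOn_simp2 hFc) (integrableOn_simp2 hGc), integral_simp2' hFc,
    integral_simp2 hGc]
  have h1 : ∀ t : ℝ, ∫ s in (0 : ℝ)..(1 - t), Fs (s, t) = F (1 - t, t) - F (0, t) := by
    intro t
    refine intervalIntegral.integral_eq_sub_of_hasDerivAt (fun s _ => hF s t) ?_
    exact (hFc.comp (continuous_id.prodMk continuous_const)).intervalIntegrable _ _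
  have h2 : ∀ s : ℝ, ∫ t in (0 : ℝ)..(1 - s), Gt (s, t) = G (s, 1 - s) - G (s, 0) := by
    intro s
    refine intervalIntegral.integral_eq_sub_of_hasDerivAt (fun t _ => hG s t) ?_
    exact (hGc.comp (continuous_const.prodMk continuous_id)).intervalIntegrable _ _
  simp only [h1, h2]
  have c1 : Continuous fun t : ℝ => F (1 - t, t) := by fun_prop
  have c2 : Continuous fun t : ℝ => F (0, t) := by fun_prop
  have c3 : Continuous fun t : ℝ => G (1 - t, t) := by fun_prop
  have c4 : Continuous fun t : ℝ => G (t, 1 - t) := by fun_prop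
  have c5 : Continuous fun t : ℝ => G (t, 0) := by fun_prop
  rw [intervalIntegral.integral_sub (c1.intervalIntegrable _ _) (c2.intervalIntegrable _ _),
    intervalIntegral.integral_sub (c4.intervalIntegrable _ _) (c5.intervalIntegrable _ _),
    intervalIntegral.integral_sub (c1.intervalIntegrable _ _) (c3.intervalIntegrable _ _)]
  have h3 : ∫ s in (0 : ℝ)..1, G (s, 1 - s) = ∫ t in (0 : ℝ)..1, G (1 - t, t) := by
    have := intervalIntegral.integral_comp_sub_left (a := 0) (b := 1)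
      (fun s : ℝ => G (s, 1 - s)) 1
    simp only [sub_sub_cancel, sub_zero, sub_self] at this
    exact this.symm
  rw [h3]
  abel

/-- Determinant of two plane vectors. -/
def cdet (u v : ℂ) : ℝ := u.re * v.im - u.im * v.re

/-- Affine parametrization of a triangle. -/
noncomputable def tri (A u v : ℂ) (p : ℝ × ℝ) : ℂ := A + (p.1 • u + p.2 • v)

theorem continuous_tri (A u v : ℂ) : Continuous (tri A u v) := by
  unfold tri
  fun_prop

/-- The linear part as a continuous linear map of `ℂ`. -/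
noncomputable def triL (u v : ℂ) : ℂ →L[ℝ] ℂ :=
  Complex.reCLM.smulRight u + Complex.imCLM.smulRight v

theorem triL_apply (u v z : ℂ) : triL u v z = z.re • u + z.im • v := rfl

theorem det_triL (u v : ℂ) : (triL u v).det = cdet u v := by
  have h : (triL u v).det = LinearMap.det ((triL u v : ℂ →L[ℝ] ℂ) : ℂ →ₗ[ℝ] ℂ) := rfl
  rw [h, ← LinearMap.det_toMatrix Complex.basisOneI, Matrix.det_fin_two]
  simp only [LinearMap.toMatrix_apply, ContinuousLinearMap.coe_coe, triL_apply]
  unfold cdet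
  simp
  ring

theorem triL_injective {u v : ℂ} (h : cdet u v ≠ 0) : Function.Injective (triL u v) := by
  intro z z' hz
  rw [triL_apply, triL_apply] at hz
  have h1 := congrArg Complex.re hz
  have h2 := congrArg Complex.im hz
  simp only [Complex.real_smul, Complex.add_re, Complex.mul_re, Complex.ofReal_re, Complex.ofReal_im, zero_mul, sub_zero, Complex.add_im, Complex.mul_im, add_zero] at h1 h2
  unfold cdet at h
  have e1 : (z.re - z'.re) * (u.re * v.im - u.im * v.re) = 0 := by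
    linear_combination v.im * h1 - v.re * h2
  have e2 : (z.im - z'.im) * (u.re * v.im - u.im * v.re) = 0 := by
    linear_combination u.re * h2 - u.im * h1
  apply Complex.ext
  · rcases mul_eq_zero.1 e1 with h3 | h3
    · linarith
    · exact absurd h3 h
  · rcases mul_eq_zero.1 e2 with h3 | h3
    · linarith only [h3]
    · exact absurd h3 h

/-- Change of variables from the triangle to the simplex. -/
theorem integral_tri {E : Type*} [NormedAddCommGroup E] [NormedSpace ℝ E] (A : ℂ) {u v : ℂ}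
    (h : cdet u v ≠ 0) (f : ℂ → E) :
    ∫ x in tri A u v '' simp2, f x = |cdet u v| • ∫ p in simp2, f (tri A u v p) := by
  set e := Complex.measurableEquivRealProd with he
  have hmp : MeasurePreserving e volume volume := Complex.volume_preserving_equiv_real_prod
  set S : Set ℂ := e ⁻¹' simp2 with hS
  have hSm : MeasurableSet S := e.measurable isOpen_simp2.measurableSet
  set φ : ℂ → ℂ := fun z => A + triL u v z with hφ
  have hφe : ∀ z, φ z = tri A u v (e z) := fun z => rfl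
  have himg : tri A u v '' simp2 = φ '' S := by
    ext x
    constructor
    · rintro ⟨p, hp, rfl⟩
      refine ⟨e.symm p, ?_, ?_⟩
      · show e (e.symm p) ∈ simp2
        rwa [e.apply_symm_apply]
      · rw [hφe, e.apply_symm_apply]
    · rintro ⟨z, hz, rfl⟩
      exact ⟨e z, hz, (hφe z).symm⟩
  have hinj : Function.Injective φ := fun z z' hz => triL_injective h (add_left_cancel hz)
  have hder : ∀ z ∈ S, HasFDerivWithinAt φ (triL u v) S z := fun z _ =>
    ((triL u v).hasFDerivAt.const_add A).hasFDerivWithinAt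
  rw [himg, integral_image_eq_integral_abs_det_fderiv_smul volume hSm hder hinj.injOn f,
    det_triL, integral_smul]
  congr 1
  exact hmp.setIntegral_preimage_emb e.measurableEmbedding (fun p => f (tri A u v p)) simp2

theorem integrableOn_tri {E : Type*} [NormedAddCommGroup E] {A u v : ℂ}
    {f : ℂ → E} (hf : Continuous f) : IntegrableOn f (tri A u v '' simp2) := by
  have hK : IsCompact (tri A u v '' (Icc (0 : ℝ) 1 ×ˢ Icc (0 : ℝ) 1)) :=
    (isCompact_Icc.prod isCompact_Icc).image (continuous_tri A u v)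
  exact (hf.continuousOn.integrableOn_compact hK).mono_set (image_mono simp2_subset)

end Vale.Agent.P099
end
end

section

section

/-!
# P099: Green's formulas on the triangle
-/

open MeasureTheory Set Filter Topology

open scoped ComplexConjugate

namespace Vale.Agent.P099

theorem fderiv_real_eq (p : ℂ → ℝ) (z v : ℂ) :
    fderiv ℝ p z v = v.re * fderiv ℝ p z 1 + v.im * fderiv ℝ p z Complex.I := by
  have hv : v = v.re • (1 : ℂ) + v.im • Complex.I := by
    simp [Complex.re_add_im]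
  conv_lhs => rw [hv]
  rw [map_add, map_smul, map_smul, smul_eq_mul, smul_eq_mul]

theorem fderiv_complex_eq (h : ℂ → ℂ) (z v : ℂ) :
    fderiv ℝ h z v = v.re * fderiv ℝ h z 1 + v.im * fderiv ℝ h z Complex.I := by
  have hv : v = v.re • (1 : ℂ) + v.im • Complex.I := by
    simp [Complex.re_add_im]
  conv_lhs => rw [hv]
  rw [map_add, map_smul, map_smul, Complex.real_smul, Complex.real_smul]

/-- Pointwise identity for the Jacobian. -/
theorem jac_point (h : ℂ → ℂ) (z u v : ℂ) :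
    conj (fderiv ℝ h z u) * fderiv ℝ h z v - conj (fderiv ℝ h z v) * fderiv ℝ h z u
      = (2 * cr u v * (‖dz h z‖ ^ 2 - ‖dzb h z‖ ^ 2) : ℝ) * Complex.I := by
  rw [fderiv_complex_eq h z u, fderiv_complex_eq h z v]
  unfold dz dzb cr
  generalize fderiv ℝ h z 1 = a
  generalize fderiv ℝ h z Complex.I = b
  have h1 : ‖(a - Complex.I * b) / 2‖ ^ 2
      = ((a.re + b.im) ^ 2 + (a.im - b.re) ^ 2) / 4 := by
    rw [← Complex.normSq_eq_norm_sq, Complex.normSq_apply]
    simp only [Complex.div_ofNat_re, Complex.sub_re, Complex.mul_re, Complex.I_re, zero_mul, Complex.I_im, one_mul, zero_sub, sub_neg_eq_add, Complex.div_ofNat_im, Complex.sub_im, Complex.mul_im, zero_add]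
    ring
  have h2 : ‖(a + Complex.I * b) / 2‖ ^ 2
      = ((a.re - b.im) ^ 2 + (a.im + b.re) ^ 2) / 4 := by
    rw [← Complex.normSq_eq_norm_sq, Complex.normSq_apply]
    simp only [Complex.div_ofNat_re, Complex.add_re, Complex.mul_re, Complex.I_re, zero_mul, Complex.I_im, one_mul, zero_sub, Complex.div_ofNat_im, Complex.add_im, Complex.mul_im, zero_add]
    ring
  rw [h1, h2]
  apply Complex.ext
  · rw [Complex.re_ofReal_mul, Complex.I_re, mul_zero]
    simp only [map_add, map_mul, Complex.conj_ofReal, Complex.sub_re, Complex.mul_re, Complex.add_re, Complex.ofReal_re, Complex.conj_re, Complex.ofReal_im, Complex.conj_im, mul_neg, zero_mul, neg_zero, sub_zero, Complex.add_im, Complex.mul_im, add_zero]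
    ring
  · rw [Complex.im_ofReal_mul, Complex.I_im, mul_one]
    simp only [map_add, map_mul, Complex.conj_ofReal, Complex.sub_im, Complex.mul_im, Complex.add_re, Complex.mul_re, Complex.ofReal_re, Complex.conj_re, Complex.ofReal_im, Complex.conj_im, mul_neg, zero_mul, neg_zero, sub_zero, Complex.add_im, add_zero]
    ring

/-- Integral along a segment on which `h` takes values in a real line. -/
theorem side_real {h : ℂ → ℂ} (hh : ContDiff ℝ 1 h) (P V c : ℂ)
    (hc : ∀ t ∈ Icc (0 : ℝ) 1, ∃ r : ℝ, h (P + t • V) = r * c) :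
    (∫ t in (0 : ℝ)..1, conj (h (P + t • V)) * fderiv ℝ h (P + t • V) V).im = 0 := by
  have hcd : Continuous (fderiv ℝ h) := hh.continuous_fderiv one_ne_zero
  have hcont : Continuous fun t : ℝ => conj (h (P + t • V)) * fderiv ℝ h (P + t • V) V := by
    have h1 : Continuous fun t : ℝ => P + t • V := by fun_prop
    refine (Complex.continuous_conj.comp (hh.continuous.comp h1)).mul ?_
    exact (hcd.comp h1).clm_apply continuous_const
  have him : ∀ t ∈ Ioo (0 : ℝ) 1,
      (conj (h (P + t • V)) * fderiv ℝ h (P + t • V) V).im = 0 := by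
    intro t ht
    have hder : HasDerivAt (fun t : ℝ => h (P + t • V)) (fderiv ℝ h (P + t • V) V) t := by
      have h1 : HasFDerivAt h (fderiv ℝ h (P + t • V)) (P + t • V) :=
        (hh.differentiable one_ne_zero _).hasFDerivAt
      have h2 : HasDerivAt (fun t : ℝ => P + t • V) V t := by
        simpa using ((hasDerivAt_id t).smul_const V).const_add P
      exact h1.comp_hasDerivAt t h2
    by_cases hc0 : c = 0
    · obtain ⟨r, hr⟩ := hc t ⟨ht.1.le, ht.2.le⟩
      rw [hr, hc0]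
      simp only [mul_zero, map_zero, Complex.real_smul, zero_mul, Complex.zero_im]
    · have h3 : HasDerivAt (fun t : ℝ => (h (P + t • V) / c).im)
          ((fderiv ℝ h (P + t • V) V / c).im) t := by
        have h4 := hder.div_const c
        exact (Complex.imCLM.hasFDerivAt.comp_hasDerivAt t h4)
      have h5 : (fun t : ℝ => (h (P + t • V) / c).im) =ᶠ[nhds t] fun _ => (0 : ℝ) := by
        filter_upwards [Ioo_mem_nhds ht.1 ht.2] with t' ht'
        obtain ⟨r, hr⟩ := hc t' ⟨ht'.1.le, ht'.2.le⟩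
        rw [hr, mul_div_cancel_right₀ _ hc0]
        exact Complex.ofReal_im r
      have h6 : (fderiv ℝ h (P + t • V) V / c).im = 0 := by
        have h7 := h5.deriv_eq
        rw [h3.deriv] at h7
        simpa only [Complex.real_smul, deriv_const'] using h7
      obtain ⟨r, hr⟩ := hc t ⟨ht.1.le, ht.2.le⟩
      set q := fderiv ℝ h (P + t • V) V / c with hq
      have h8 : fderiv ℝ h (P + t • V) V = q * c := by
        rw [hq, div_mul_cancel₀ _ hc0]
      rw [hr, h8]
      have h9 : q = (q.re : ℂ) := by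
        apply Complex.ext
        · simp
        · simpa using h6
      rw [h9]
      simp only [map_mul, Complex.conj_ofReal, Complex.mul_im, Complex.mul_re, Complex.ofReal_re, Complex.conj_re, Complex.ofReal_im, Complex.conj_im, mul_neg, zero_mul, neg_zero, sub_zero, add_zero, neg_mul]
      ring
  have hint : IntervalIntegrable
      (fun t : ℝ => conj (h (P + t • V)) * fderiv ℝ h (P + t • V) V) volume 0 1 :=
    hcont.intervalIntegrable _ _
  have h10 : (∫ t in (0 : ℝ)..1, conj (h (P + t • V)) * fderiv ℝ h (P + t • V) V).im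
      = ∫ t in (0 : ℝ)..1, (conj (h (P + t • V)) * fderiv ℝ h (P + t • V) V).im := by
    have := Complex.imCLM.intervalIntegral_comp_comm hint
    simpa only [Complex.real_smul, Complex.mul_im, Complex.conj_re, Complex.conj_im, neg_mul,     Complex.imCLM_apply] using this.symm
  rw [h10, intervalIntegral.integral_of_le zero_le_one, integral_Ioc_eq_integral_Ioo]
  rw [setIntegral_congr_fun measurableSet_Ioo him]
  simp only [integral_zero]

/-- Values fixed by `w ↦ ω * conj w` lie on a real line. -/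
theorem exists_line (ω : ℂ) : ∃ c : ℂ, ∀ w : ℂ, w = ω * conj w → ∃ r : ℝ, w = r * c := by
  by_cases hω : ‖ω‖ = 1
  · obtain ⟨c, hc⟩ := IsAlgClosed.exists_pow_nat_eq ω (n := 2) two_pos
    have hcn : ‖c‖ = 1 := by
      have h1 : ‖c‖ ^ 2 = 1 := by rw [← norm_pow, hc, hω]
      (clear * - h1; nlinarith [norm_nonneg c])
    have hc0 : c ≠ 0 := by
      intro h
      rw [h, norm_zero] at hcn
      exact zero_ne_one hcn
    have hcc : c * conj c = 1 := by
      rw [Complex.mul_conj, Complex.normSq_eq_norm_sq, hcn]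
      norm_num
    refine ⟨c, fun w hw => ⟨(w * conj c).re, ?_⟩⟩
    have hreal : conj (w * conj c) = w * conj c := by
      rw [map_mul, Complex.conj_conj]
      calc conj w * c = (c * conj c) * (conj w * c) := by rw [hcc, one_mul]
        _ = (c ^ 2 * conj w) * conj c := by ring
        _ = w * conj c := by rw [hc, ← hw]
    have h2 : ((w * conj c).re : ℂ) = w * conj c := Complex.conj_eq_iff_re.1 hreal
    rw [h2, mul_assoc, mul_comm (conj c) c, hcc, mul_one]
  · refine ⟨0, fun w hw => ⟨0, ?_⟩⟩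
    have h1 : ‖w‖ = ‖ω‖ * ‖w‖ := by
      conv_lhs => rw [hw]
      rw [norm_mul, RCLike.norm_conj]
    have h2 : ‖w‖ = 0 := by
      have h3 : (1 - ‖ω‖) * ‖w‖ = 0 := by linarith
      rcases mul_eq_zero.1 h3 with h4 | h4
      · exact absurd (by linarith only [h4]) hω
      · exact h4
    rw [norm_eq_zero.1 h2]
    simp

namespace Triangle

variable (T : Triangle)

theorem table_eq_image :
    T.table = tri (T.P 0) (T.P 1 - T.P 0) (T.P 2 - T.P 0) '' simp2 := by
  have hD := T.Del_ne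
  ext x
  rw [T.mem_table_iff]
  constructor
  · intro h
    refine ⟨(T.lam 1 x, T.lam 2 x), ⟨h 1, h 2, ?_⟩, ?_⟩
    · have h0 := h 0
      have hs := T.sum_lam x
      show T.lam 1 x + T.lam 2 x < 1
      linarith
    · have h1 := T.eq_sum_lam x
      have hs := T.sum_lam x
      have h0 : T.lam 0 x = 1 - T.lam 1 x - T.lam 2 x := by linarith only [hs]
      rw [h0] at h1
      conv_rhs => rw [h1]
      unfold tri
      module
  · rintro ⟨⟨s, t⟩, ⟨h1, h2, h3⟩, rfl⟩
    simp only at h1 h2 h3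
    have e1 : T.lam 1 (tri (T.P 0) (T.P 1 - T.P 0) (T.P 2 - T.P 0) (s, t)) = s := by
      unfold tri lam d
      rw [div_eq_iff hD]
      have i2 : (1 : Fin 3) + 1 = 2 := rfl
      have i0 : (1 : Fin 3) + 2 = 0 := rfl
      rw [i2, i0]
      unfold Del cr
      simp only [Fin.isValue, Complex.sub_re, Complex.real_smul, Complex.sub_im, Complex.add_im, Complex.mul_im, Complex.ofReal_re, Complex.ofReal_im, zero_mul, add_zero, Complex.add_re, Complex.mul_re, sub_zero]
      ring
    have e2 : T.lam 2 (tri (T.P 0) (T.P 1 - T.P 0) (T.P 2 - T.P 0) (s, t)) = t := by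
      unfold tri lam d
      rw [div_eq_iff hD]
      have i2 : (2 : Fin 3) + 1 = 0 := rfl
      have i0 : (2 : Fin 3) + 2 = 1 := rfl
      rw [i2, i0]
      unfold Del cr
      simp only [Fin.isValue, Complex.sub_re, Complex.real_smul, add_sub_cancel_left, Complex.add_im, Complex.mul_im, Complex.ofReal_re, Complex.sub_im, Complex.ofReal_im, zero_mul, add_zero, Complex.add_re, Complex.mul_re, sub_zero]
      ring
    have hs := T.sum_lam (tri (T.P 0) (T.P 1 - T.P 0) (T.P 2 - T.P 0) (s, t))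
    rw [e1, e2] at hs
    intro i
    fin_cases i
    · show 0 < T.lam 0 _
      linarith only [h3, hs]
    · show 0 < T.lam 1 _
      rw [e1]; exact h1
    · show 0 < T.lam 2 _
      rw [e2]; exact h2

theorem Del_eq_cdet : T.Del = cdet (T.P 1 - T.P 0) (T.P 2 - T.P 0) := rfl

theorem integral_table {E : Type*} [NormedAddCommGroup E] [NormedSpace ℝ E] (f : ℂ → E) :
    ∫ x in T.table, f x
      = |T.Del| • ∫ p in simp2, f (tri (T.P 0) (T.P 1 - T.P 0) (T.P 2 - T.P 0) p) := by
  rw [T.table_eq_image]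
  exact integral_tri (T.P 0) T.Del_ne f

/-- The Jacobian identity on a triangle. -/
theorem jac_simp {A B C : ℂ} (hnd : cdet (B - A) (C - A) ≠ 0) {h : ℂ → ℂ}
    (hh : ContDiff ℝ 2 h) {c₁ c₂ c₃ : ℂ}
    (h1 : ∀ t ∈ Icc (0 : ℝ) 1, ∃ r : ℝ, h (A + t • (B - A)) = r * c₁)
    (h2 : ∀ t ∈ Icc (0 : ℝ) 1, ∃ r : ℝ, h (A + t • (C - A)) = r * c₂)
    (h3 : ∀ t ∈ Icc (0 : ℝ) 1, ∃ r : ℝ, h (B + t • (C - B)) = r * c₃) :
    ∫ p in simp2, (‖dz h (tri A (B - A) (C - A) p)‖ ^ 2
      - ‖dzb h (tri A (B - A) (C - A) p)‖ ^ 2) = 0 := by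
  set u := B - A with hu
  set v := C - A with hv
  set T := tri A u v with hT
  have hTc : Continuous T := continuous_tri A u v
  have hh1 : ContDiff ℝ 1 h := hh.of_le one_le_two
  have hD : Differentiable ℝ h := hh.differentiable two_ne_zero
  have hfd : Continuous (fderiv ℝ h) := hh.continuous_fderiv two_ne_zero
  have hfd1 : ContDiff ℝ 1 (fderiv ℝ h) := hh.fderiv_right (m := 1) (by norm_num)
  have hfd2 : Continuous (fderiv ℝ (fderiv ℝ h)) := hfd1.continuous_fderiv one_ne_zero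
  have hsymm : ∀ z a b, fderiv ℝ (fderiv ℝ h) z a b = fderiv ℝ (fderiv ℝ h) z b a := by
    intro z a b
    exact second_derivative_symmetric (f := h) (f' := fderiv ℝ h)
      (fun y => (hD y).hasFDerivAt) ((hfd1.differentiable one_ne_zero z).hasFDerivAt) a b
  let F : ℝ × ℝ → ℂ := fun p => conj (h (T p)) * fderiv ℝ h (T p) v
  let G : ℝ × ℝ → ℂ := fun p => conj (h (T p)) * fderiv ℝ h (T p) u
  let Fs : ℝ × ℝ → ℂ := fun p => conj (fderiv ℝ h (T p) u) * fderiv ℝ h (T p) v
    + conj (h (T p)) * fderiv ℝ (fderiv ℝ h) (T p) u v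
  let Gt : ℝ × ℝ → ℂ := fun p => conj (fderiv ℝ h (T p) v) * fderiv ℝ h (T p) u
    + conj (h (T p)) * fderiv ℝ (fderiv ℝ h) (T p) v u
  have hFc : Continuous F := (Complex.continuous_conj.comp (hh.continuous.comp hTc)).mul
    ((hfd.comp hTc).clm_apply continuous_const)
  have hGc : Continuous G := (Complex.continuous_conj.comp (hh.continuous.comp hTc)).mul
    ((hfd.comp hTc).clm_apply continuous_const)
  have hFsc : Continuous Fs :=
    ((Complex.continuous_conj.comp ((hfd.comp hTc).clm_apply continuous_const)).mul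
      ((hfd.comp hTc).clm_apply continuous_const)).add
    ((Complex.continuous_conj.comp (hh.continuous.comp hTc)).mul
      (((hfd2.comp hTc).clm_apply continuous_const).clm_apply continuous_const))
  have hGtc : Continuous Gt :=
    ((Complex.continuous_conj.comp ((hfd.comp hTc).clm_apply continuous_const)).mul
      ((hfd.comp hTc).clm_apply continuous_const)).add
    ((Complex.continuous_conj.comp (hh.continuous.comp hTc)).mul
      (((hfd2.comp hTc).clm_apply continuous_const).clm_apply continuous_const))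
  have hTs : ∀ s t : ℝ, HasDerivAt (fun s => T (s, t)) u s := by
    intro s t
    have h1 : HasDerivAt (fun s : ℝ => A + (s • u + t • v)) u s := by
      simpa using (((hasDerivAt_id s).smul_const u).add_const (t • v)).const_add A
    exact h1
  have hTt : ∀ s t : ℝ, HasDerivAt (fun t => T (s, t)) v t := by
    intro s t
    have h1 : HasDerivAt (fun t : ℝ => A + (s • u + t • v)) v t := by
      simpa only [Complex.real_smul, hasDerivAt_const_add_iff, id_eq, one_smul] using     (((hasDerivAt_id t).smul_const v).const_add (s • u)).const_add A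
    exact h1
  have hhs : ∀ s t : ℝ, HasDerivAt (fun s => h (T (s, t))) (fderiv ℝ h (T (s, t)) u) s :=
    fun s t => (hD _).hasFDerivAt.comp_hasDerivAt s (hTs s t)
  have hht : ∀ s t : ℝ, HasDerivAt (fun t => h (T (s, t))) (fderiv ℝ h (T (s, t)) v) t :=
    fun s t => (hD _).hasFDerivAt.comp_hasDerivAt t (hTt s t)
  have hds : ∀ (s t : ℝ) (w : ℂ), HasDerivAt (fun s => fderiv ℝ h (T (s, t)) w)
      (fderiv ℝ (fderiv ℝ h) (T (s, t)) u w) s := by
    intro s t w
    have h1 := (hfd1.differentiable one_ne_zero (T (s, t))).hasFDerivAt.comp_hasDerivAt s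
      (hTs s t)
    exact h1.clm_apply (hasDerivAt_const s w) |>.congr_deriv (by simp)
  have hdt : ∀ (s t : ℝ) (w : ℂ), HasDerivAt (fun t => fderiv ℝ h (T (s, t)) w)
      (fderiv ℝ (fderiv ℝ h) (T (s, t)) v w) t := by
    intro s t w
    have h1 := (hfd1.differentiable one_ne_zero (T (s, t))).hasFDerivAt.comp_hasDerivAt t
      (hTt s t)
    exact h1.clm_apply (hasDerivAt_const t w) |>.congr_deriv (by simp only [Function.comp_apply, map_zero, add_zero])
  have hcs : ∀ s t : ℝ, HasDerivAt (fun s => conj (h (T (s, t))))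
      (conj (fderiv ℝ h (T (s, t)) u)) s := fun s t => (hhs s t).star
  have hct : ∀ s t : ℝ, HasDerivAt (fun t => conj (h (T (s, t))))
      (conj (fderiv ℝ h (T (s, t)) v)) t := fun s t => (hht s t).star
  have hgreen := green_simp2 (E := ℂ) (F := F) (G := G) (Fs := Fs) (Gt := Gt) hFsc hGtc
    (fun s t => (hcs s t).mul (hds s t v)) (fun s t => (hct s t).mul (hdt s t u)) hFc hGc
  have hpt : ∀ p, Fs p - Gt p
      = ((2 * cr u v * (‖dz h (T p)‖ ^ 2 - ‖dzb h (T p)‖ ^ 2) : ℝ) : ℂ) * Complex.I := by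
    intro p
    rw [← jac_point h (T p) u v]
    simp only [Fs, Gt]
    rw [hsymm (T p) u v]
    ring
  have hside1 : (∫ t in (0 : ℝ)..1, F (0, t)).im = 0 := by
    have := side_real hh1 A v c₂ h2
    have hTe : ∀ t : ℝ, T (0, t) = A + t • v := by
      intro t
      simp [hT, tri]
    simpa only [F, hTe] using this
  have hside2 : (∫ s in (0 : ℝ)..1, G (s, 0)).im = 0 := by
    have := side_real hh1 A u c₁ h1
    have hTe : ∀ t : ℝ, T (t, 0) = A + t • u := by
      intro t
      simp [hT, tri]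
    simpa only [G, hTe] using this
  have hside3 : (∫ t in (0 : ℝ)..1, (F (1 - t, t) - G (1 - t, t))).im = 0 := by
    have := side_real hh1 B (C - B) c₃ h3
    have hTe : ∀ t : ℝ, T (1 - t, t) = B + t • (C - B) := by
      intro t
      simp only [hT, tri, Complex.real_smul]
      rw [hu, hv]
      push_cast
      ring
    have hw : C - B = v - u := by rw [hu, hv]; ring
    have hFG : ∀ t : ℝ, F (1 - t, t) - G (1 - t, t)
        = conj (h (B + t • (C - B))) * fderiv ℝ h (B + t • (C - B)) (C - B) := by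
      intro t
      have e : fderiv ℝ h (B + t • (C - B)) (C - B)
          = fderiv ℝ h (B + t • (C - B)) v - fderiv ℝ h (B + t • (C - B)) u := by
        rw [← map_sub (fderiv ℝ h (B + t • (C - B))) v u, ← hw]
      simp only [F, G, hTe]
      rw [e]
      ring
    simpa only [hFG] using this
  have hlhs : ∫ p in simp2, (Fs p - Gt p)
      = ((2 * cr u v * ∫ p in simp2, (‖dz h (T p)‖ ^ 2 - ‖dzb h (T p)‖ ^ 2) : ℝ) : ℂ)
        * Complex.I := by
    simp only [hpt]
    rw [integral_mul_const, integral_complex_ofReal, integral_const_mul]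
  have him := congrArg Complex.im hgreen
  rw [hlhs, Complex.add_im, Complex.sub_im, hside1, hside2, hside3, Complex.im_ofReal_mul,
    Complex.I_im] at him
  have h4 : 2 * cr u v ≠ 0 := mul_ne_zero two_ne_zero hnd
  have h5 : 2 * cr u v * ∫ p in simp2, (‖dz h (T p)‖ ^ 2 - ‖dzb h (T p)‖ ^ 2) = 0 := by
    linarith
  rcases mul_eq_zero.1 h5 with h6 | h6
  · exact absurd h6 h4
  · exact h6

theorem mem_seg {A B : ℂ} {t : ℝ} (ht : t ∈ Icc (0 : ℝ) 1) : A + t • (B - A) ∈ segment ℝ A B := by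
  rw [segment_eq_image']
  exact ⟨t, ht, rfl⟩

/-- energy identity -/
theorem green2 (w : ℂ → ℂ) (hw : ContDiff ℝ 2 w)
    (hb : ∀ i, ∃ ω : ℂ, ∀ y ∈ segment ℝ (T.P (i + 1)) (T.P (i + 2)),
      w y = ω * (starRingEnd ℂ) (w y)) :
    ∫ x in T.table, (‖dz w x‖ ^ 2 - ‖dzb w x‖ ^ 2) = 0 := by
  have hb' : ∀ i, ∃ c : ℂ, ∀ y ∈ segment ℝ (T.P (i + 1)) (T.P (i + 2)), ∃ r : ℝ, w y = r * c := by
    intro i
    obtain ⟨ω, hω⟩ := hb i
    obtain ⟨c, hc⟩ := exists_line ω
    exact ⟨c, fun y hy => hc (w y) (hω y hy)⟩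
  obtain ⟨c0, h0⟩ := hb' 0
  obtain ⟨c1, h1⟩ := hb' 1
  obtain ⟨c2, h2⟩ := hb' 2
  have e0 : segment ℝ (T.P (0 + 1)) (T.P (0 + 2)) = segment ℝ (T.P 1) (T.P 2) := rfl
  have e1 : segment ℝ (T.P (1 + 1)) (T.P (1 + 2)) = segment ℝ (T.P 2) (T.P 0) := rfl
  have e2 : segment ℝ (T.P (2 + 1)) (T.P (2 + 2)) = segment ℝ (T.P 0) (T.P 1) := rfl
  rw [e0] at h0
  rw [e1, segment_symm] at h1
  rw [e2] at h2
  rw [integral_table, jac_simp T.Del_ne hw (fun t ht => h2 _ (mem_seg ht))
    (fun t ht => h1 _ (mem_seg ht)) (fun t ht => h0 _ (mem_seg ht)), smul_zero]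

theorem div_simp (A u v : ℂ) {p q : ℂ → ℝ} (hp : ContDiff ℝ 1 p) (hq : ContDiff ℝ 1 q) :
    cr u v * ∫ z in simp2, (fderiv ℝ p (tri A u v z) 1 + fderiv ℝ q (tri A u v z) Complex.I)
      = (∫ t in (0 : ℝ)..1, cr ((p ((A + u) + t • (v - u)) : ℂ)
            + q ((A + u) + t • (v - u)) * Complex.I) (v - u))
        - (∫ t in (0 : ℝ)..1, cr ((p (A + t • v) : ℂ) + q (A + t • v) * Complex.I) v)
        + ∫ t in (0 : ℝ)..1, cr ((p (A + t • u) : ℂ) + q (A + t • u) * Complex.I) u := by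
  set T := tri A u v with hT
  have hTc : Continuous T := continuous_tri A u v
  have hDp : Differentiable ℝ p := hp.differentiable one_ne_zero
  have hDq : Differentiable ℝ q := hq.differentiable one_ne_zero
  have hfp : Continuous (fderiv ℝ p) := hp.continuous_fderiv one_ne_zero
  have hfq : Continuous (fderiv ℝ q) := hq.continuous_fderiv one_ne_zero
  have hcr : ∀ (a b : ℝ) (c : ℂ), cr ((a : ℂ) + b * Complex.I) c = a * c.im - b * c.re := by
    intro a b c
    unfold cr
    simp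
  simp only [hcr]
  let F : ℝ × ℝ → ℝ := fun z => p (T z) * v.im - q (T z) * v.re
  let G : ℝ × ℝ → ℝ := fun z => p (T z) * u.im - q (T z) * u.re
  let Fs : ℝ × ℝ → ℝ := fun z => fderiv ℝ p (T z) u * v.im - fderiv ℝ q (T z) u * v.re
  let Gt : ℝ × ℝ → ℝ := fun z => fderiv ℝ p (T z) v * u.im - fderiv ℝ q (T z) v * u.re
  have hFc : Continuous F := ((hp.continuous.comp hTc).mul continuous_const).sub
    ((hq.continuous.comp hTc).mul continuous_const)
  have hGc : Continuous G := ((hp.continuous.comp hTc).mul continuous_const).sub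
    ((hq.continuous.comp hTc).mul continuous_const)
  have hFsc : Continuous Fs :=
    (((hfp.comp hTc).clm_apply continuous_const).mul continuous_const).sub
      (((hfq.comp hTc).clm_apply continuous_const).mul continuous_const)
  have hGtc : Continuous Gt :=
    (((hfp.comp hTc).clm_apply continuous_const).mul continuous_const).sub
      (((hfq.comp hTc).clm_apply continuous_const).mul continuous_const)
  have hTs : ∀ s t : ℝ, HasDerivAt (fun s => T (s, t)) u s := by
    intro s t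
    have h1 : HasDerivAt (fun s : ℝ => A + (s • u + t • v)) u s := by
      simpa using (((hasDerivAt_id s).smul_const u).add_const (t • v)).const_add A
    exact h1
  have hTt : ∀ s t : ℝ, HasDerivAt (fun t => T (s, t)) v t := by
    intro s t
    have h1 : HasDerivAt (fun t : ℝ => A + (s • u + t • v)) v t := by
      simpa using (((hasDerivAt_id t).smul_const v).const_add (s • u)).const_add A
    exact h1
  have hps : ∀ s t : ℝ, HasDerivAt (fun s => p (T (s, t))) (fderiv ℝ p (T (s, t)) u) s :=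
    fun s t => (hDp _).hasFDerivAt.comp_hasDerivAt s (hTs s t)
  have hpt : ∀ s t : ℝ, HasDerivAt (fun t => p (T (s, t))) (fderiv ℝ p (T (s, t)) v) t :=
    fun s t => (hDp _).hasFDerivAt.comp_hasDerivAt t (hTt s t)
  have hqs : ∀ s t : ℝ, HasDerivAt (fun s => q (T (s, t))) (fderiv ℝ q (T (s, t)) u) s :=
    fun s t => (hDq _).hasFDerivAt.comp_hasDerivAt s (hTs s t)
  have hqt : ∀ s t : ℝ, HasDerivAt (fun t => q (T (s, t))) (fderiv ℝ q (T (s, t)) v) t :=
    fun s t => (hDq _).hasFDerivAt.comp_hasDerivAt t (hTt s t)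
  have hgreen := green_simp2 (E := ℝ) (F := F) (G := G) (Fs := Fs) (Gt := Gt) hFsc hGtc
    (fun s t => ((hps s t).mul_const v.im).sub ((hqs s t).mul_const v.re))
    (fun s t => ((hpt s t).mul_const u.im).sub ((hqt s t).mul_const u.re)) hFc hGc
  have hpt' : ∀ z, Fs z - Gt z
      = cr u v * (fderiv ℝ p (T z) 1 + fderiv ℝ q (T z) Complex.I) := by
    intro z
    simp only [Fs, Gt]
    rw [fderiv_real_eq p (T z) u, fderiv_real_eq p (T z) v, fderiv_real_eq q (T z) u,
      fderiv_real_eq q (T z) v]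
    unfold cr
    ring
  simp only [hpt'] at hgreen
  rw [integral_const_mul] at hgreen
  rw [hgreen]
  have hTe1 : ∀ t : ℝ, T (1 - t, t) = (A + u) + t • (v - u) := by
    intro t
    simp only [hT, tri, Complex.real_smul]
    push_cast
    ring
  have hTe2 : ∀ t : ℝ, T (0, t) = A + t • v := by
    intro t
    simp [hT, tri]
  have hTe3 : ∀ t : ℝ, T (t, 0) = A + t • u := by
    intro t
    simp [hT, tri]
  simp only [F, G, hTe1, hTe2, hTe3]
  congr 2
  apply intervalIntegral.integral_congr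
  intro t _
  simp only [Complex.sub_im, Complex.sub_re]
  ring

/-- The divergence theorem on the triangle. -/
theorem div_thm (p q : ℂ → ℝ) (hp : ContDiff ℝ 1 p) (hq : ContDiff ℝ 1 q) :
    ∫ x in T.table, (fderiv ℝ p x 1 + fderiv ℝ q x Complex.I) =
      (SignType.sign T.Del : ℝ) * ∑ i, ∫ t in (0:ℝ)..1,
        cr ((p (T.P (i + 1) + t • T.d i) : ℂ) + q (T.P (i + 1) + t • T.d i) * Complex.I) (T.d i) := by
  have h1 := div_simp (T.P 0) (T.P 1 - T.P 0) (T.P 2 - T.P 0) hp hq
  have e1 : T.P 0 + (T.P 1 - T.P 0) = T.P 1 := by ring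
  have e2 : T.P 2 - T.P 0 - (T.P 1 - T.P 0) = T.d 0 := by rw [d_zero]; ring
  rw [e1, e2] at h1
  have h2 : ∫ t in (0 : ℝ)..1, cr ((p (T.P 2 + t • T.d 1) : ℂ)
        + q (T.P 2 + t • T.d 1) * Complex.I) (T.d 1)
      = - ∫ t in (0 : ℝ)..1, cr ((p (T.P 0 + t • (T.P 2 - T.P 0)) : ℂ)
        + q (T.P 0 + t • (T.P 2 - T.P 0)) * Complex.I) (T.P 2 - T.P 0) := by
    have h3 := intervalIntegral.integral_comp_sub_left (a := 0) (b := 1)
      (fun t : ℝ => cr ((p (T.P 2 + t • T.d 1) : ℂ)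
        + q (T.P 2 + t • T.d 1) * Complex.I) (T.d 1)) 1
    rw [sub_zero, sub_self] at h3
    rw [← h3, ← intervalIntegral.integral_neg]
    apply intervalIntegral.integral_congr
    intro t _
    have e3 : T.P 2 + (1 - t) • T.d 1 = T.P 0 + t • (T.P 2 - T.P 0) := by
      rw [d_one]
      simp only [Complex.real_smul]
      push_cast
      ring
    have e4 : T.d 1 = -(T.P 2 - T.P 0) := by rw [d_one]; ring
    simp only
    rw [e3, e4]
    unfold cr
    simp only [Fin.isValue, Complex.real_smul, Complex.add_re, Complex.ofReal_re, Complex.mul_re, Complex.I_re, mul_zero, Complex.ofReal_im, Complex.I_im, mul_one, sub_self, add_zero, neg_sub, Complex.sub_im, Complex.add_im, Complex.mul_im, zero_add, Complex.sub_re]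
    ring
  rw [integral_table, Fin.sum_univ_three, smul_eq_mul]
  have i0 : (0 : Fin 3) + 1 = 1 := rfl
  have i1 : (1 : Fin 3) + 1 = 2 := rfl
  have i2 : (2 : Fin 3) + 1 = 0 := rfl
  rw [i0, i1, i2, h2, d_two]
  have h4 : |T.Del| = (SignType.sign T.Del : ℝ) * T.Del := (sign_mul_self T.Del).symm
  have h5 : T.Del = cr (T.P 1 - T.P 0) (T.P 2 - T.P 0) := rfl
  rw [h4, mul_assoc]
  congr 1

theorem cr_eq_zero_of_refl {a d : ℂ} (hd : d ≠ 0) (h : a = d / conj d * conj a) : cr a d = 0 := by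
  have hc : conj d ≠ 0 := by simpa using hd
  have h1 : a * conj d = d * conj a := by
    conv_lhs => rw [h]
    field_simp
  have h2 := congrArg Complex.im h1
  simp only [Complex.mul_im, Complex.conj_im, mul_neg, Complex.conj_re] at h2
  unfold cr
  linarith only [h2]

/-- first consequence: `Re ∫ ∂_z h = 0` -/
theorem green1 (h : ℂ → ℂ) (hh : ContDiff ℝ 1 h)
    (hb : ∀ i, ∀ y ∈ segment ℝ (T.P (i + 1)) (T.P (i + 2)),
      h y = T.d i / (starRingEnd ℂ) (T.d i) * (starRingEnd ℂ) (h y)) :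
    (∫ x in T.table, dz h x).re = 0 := by
  have hp : ContDiff ℝ 1 (fun z => (h z).re) := Complex.reCLM.contDiff.comp hh
  have hq : ContDiff ℝ 1 (fun z => (h z).im) := Complex.imCLM.contDiff.comp hh
  have hfd : Continuous (fderiv ℝ h) := hh.continuous_fderiv one_ne_zero
  have hdz : Continuous (dz h) := by
    unfold dz
    exact (((hfd.clm_apply continuous_const)).sub
      (continuous_const.mul (hfd.clm_apply continuous_const))).div_const _
  have hint : IntegrableOn (dz h) T.table := by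
    rw [T.table_eq_image]
    exact integrableOn_tri hdz
  have hre : (∫ x in T.table, dz h x).re = ∫ x in T.table, (dz h x).re := by
    have := integral_re hint
    simpa only [RCLike.re_to_complex] using this.symm
  have hD : Differentiable ℝ h := hh.differentiable one_ne_zero
  have hpt : ∀ x, (dz h x).re
      = (1 / 2) * (fderiv ℝ (fun z => (h z).re) x 1 + fderiv ℝ (fun z => (h z).im) x Complex.I) := by
    intro x
    have h1 : fderiv ℝ (fun z => (h z).re) x = Complex.reCLM.comp (fderiv ℝ h x) :=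
      (Complex.reCLM.hasFDerivAt.comp x (hD x).hasFDerivAt).fderiv
    have h2 : fderiv ℝ (fun z => (h z).im) x = Complex.imCLM.comp (fderiv ℝ h x) :=
      (Complex.imCLM.hasFDerivAt.comp x (hD x).hasFDerivAt).fderiv
    rw [h1, h2]
    unfold dz
    simp only [Complex.div_ofNat_re, Complex.sub_re, Complex.mul_re, Complex.I_re, zero_mul, Complex.I_im, one_mul, zero_sub, sub_neg_eq_add, one_div, ContinuousLinearMap.comp_apply, Complex.reCLM_apply, Complex.imCLM_apply]
    ring
  rw [hre]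
  simp only [hpt]
  rw [integral_const_mul, div_thm T _ _ hp hq]
  have hz : ∀ i : Fin 3, ∫ t in (0:ℝ)..1,
      cr (((h (T.P (i + 1) + t • T.d i)).re : ℂ)
        + (h (T.P (i + 1) + t • T.d i)).im * Complex.I) (T.d i) = 0 := by
    intro i
    have h1 : ∀ t ∈ uIcc (0 : ℝ) 1, cr (((h (T.P (i + 1) + t • T.d i)).re : ℂ)
        + (h (T.P (i + 1) + t • T.d i)).im * Complex.I) (T.d i) = (fun _ => (0 : ℝ)) t := by
      intro t ht
      rw [uIcc_of_le zero_le_one] at ht
      rw [Complex.re_add_im]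
      exact cr_eq_zero_of_refl (T.d_ne i) (hb i _ (mem_seg ht))
    rw [intervalIntegral.integral_congr h1]
    simp
  simp only [hz, Finset.sum_const_zero, mul_zero]

end Triangle

end Vale.Agent.P099
end
end

section

section

open Filter Topology

namespace Vale.Agent.P099

variable {H : Type*} [NormedAddCommGroup H] [InnerProductSpace ℂ H]

/-- a sequence with bounded sums of squares tends to zero along `k + N` -/
lemma hil_tendsto_zero (A : ℤ → H) (a : ℝ)
    (hA : ∀ s : Finset ℤ, ∑ k ∈ s, ‖A k‖ ^ 2 ≤ a ^ 2) (k : ℤ) :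
    Tendsto (fun N : ℕ => ‖A (k + N)‖) atTop (𝓝 0) := by
  have hs : Summable (fun k : ℤ => ‖A k‖ ^ 2) :=
    summable_of_sum_le (fun k => by positivity) hA
  have h0 : Tendsto (fun k : ℤ => ‖A k‖ ^ 2) cofinite (𝓝 0) := hs.tendsto_cofinite_zero
  have hinj : Function.Injective (fun N : ℕ => k + (N : ℤ)) := by
    intro x y hxy
    have : (x : ℤ) = y := by simpa only [Nat.cast_inj, add_right_inj] using hxy
    exact_mod_cast this
  have h1 : Tendsto (fun N : ℕ => ‖A (k + N)‖ ^ 2) atTop (𝓝 0) := by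
    have := h0.comp hinj.tendsto_cofinite
    rwa [Nat.cofinite_eq_atTop] at this
  have h2 := h1.sqrt
  simpa only [Real.sqrt_sq (norm_nonneg _), Real.sqrt_zero] using h2

/-- Cauchy-Schwarz for finite sums, in the form used here -/
lemma hil_cs (s : Finset ℤ) (x y : ℤ → ℝ) (hx : ∀ k, 0 ≤ x k) (hy : ∀ k, 0 ≤ y k) (p q : ℝ)
    (hp : 0 ≤ p) (hq : 0 ≤ q) (h1 : ∑ k ∈ s, x k ^ 2 ≤ p ^ 2) (h2 : ∑ k ∈ s, y k ^ 2 ≤ q ^ 2) :
    ∑ k ∈ s, x k * y k ≤ p * q := by
  have h := Finset.sum_mul_sq_le_sq_mul_sq s x y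
  have h3 : (∑ k ∈ s, x k * y k) ^ 2 ≤ (p * q) ^ 2 := by
    calc (∑ k ∈ s, x k * y k) ^ 2 ≤ (∑ k ∈ s, x k ^ 2) * ∑ k ∈ s, y k ^ 2 := h
      _ ≤ p ^ 2 * q ^ 2 := by
          apply mul_le_mul h1 h2 (Finset.sum_nonneg fun k _ => by (clear * -; positivity)) (by positivity)
      _ = (p * q) ^ 2 := by ring
  exact abs_le_of_sq_le_sq' h3 (by positivity) |>.2

/-- The abstract energy argument. -/
theorem hilbert_energy (A B V g : ℤ → H)
    (hAB : ∀ k, ‖A k‖ = ‖B k‖)
    (hsum : ∀ k, A (k - 1) + B (k + 1) = V k + g k)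
    (hskew : ∀ k, (inner ℂ (A (k - 1)) (V k)).re = (inner ℂ (V (k - 1)) (B k)).re)
    (a v e : ℝ) (ha : 0 ≤ a) (hv : 0 ≤ v) (he : 0 ≤ e)
    (hA : ∀ s : Finset ℤ, ∑ k ∈ s, ‖A k‖ ^ 2 ≤ a ^ 2)
    (hV : ∀ s : Finset ℤ, ∑ k ∈ s, ‖V k‖ ^ 2 ≤ v ^ 2)
    (hg : ∀ s : Finset ℤ, ∑ k ∈ s, ‖g k‖ ^ 2 ≤ e ^ 2)
    (k : ℤ) (n : ℕ) (hn : |k| ≤ n) :
    ‖A (k - 1) - B (k + 1)‖ ^ 2 ≤ ‖V (n + 1)‖ ^ 2 + ‖V (-n - 1)‖ ^ 2 +
      100 * (n + 1) * (e * a + e * v + e ^ 2) := by
  classical
  -- real inner products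
  set b : ℤ → ℝ := fun k => (inner ℂ (A (k - 1)) (V k)).re with hb
  set σ : ℤ → ℝ := fun k => (inner ℂ (g k) (V k)).re with hσ
  set δ : ℤ → ℝ := fun k => (inner ℂ (g k) (B (k + 1) - A (k - 1))).re with hδ
  set y : ℤ → ℝ := fun k => ‖A (k - 1) - B (k + 1)‖ ^ 2 with hy
  set D : ℤ → ℝ := fun k => ‖A k‖ ^ 2 + ‖A (k - 1)‖ ^ 2 - b k with hD
  have hsym : ∀ x z : H, (inner ℂ x z).re = (inner ℂ z x).re := fun x z =>
    inner_re_symm (𝕜 := ℂ) x z
  -- (i)
  have h1 : ∀ k, b k + b (k + 1) = ‖V k‖ ^ 2 + σ k := by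
    intro k
    have e1 : b (k + 1) = (inner ℂ (B (k + 1)) (V k)).re := by
      have := hskew (k + 1)
      simp only [add_sub_cancel_right] at this
      simp only [hb, add_sub_cancel_right]
      rw [this, hsym]
    have e2 : (inner ℂ (A (k - 1) + B (k + 1)) (V k)).re = (inner ℂ (V k + g k) (V k)).re := by
      rw [hsum k]
    rw [inner_add_left, inner_add_left, Complex.add_re, Complex.add_re] at e2
    have e3 : (inner ℂ (V k) (V k)).re = ‖V k‖ ^ 2 := by
      rw [inner_self_eq_norm_sq_to_K]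
      norm_cast
    rw [e1]
    simp only [hb, hσ]
    linarith only [e2, e3]
  -- (ii)
  have h2 : ∀ k, D (k + 1) = D k + δ k := by
    intro k
    have e1 : ‖B (k + 1)‖ ^ 2 - ‖A (k - 1)‖ ^ 2 =
        (inner ℂ (A (k - 1) + B (k + 1)) (B (k + 1) - A (k - 1))).re := by
      rw [inner_add_left, inner_sub_right, inner_sub_right]
      simp only [Complex.add_re, Complex.sub_re]
      rw [hsym (A (k - 1)) (B (k + 1))]
      have e3 : (inner ℂ (B (k + 1)) (B (k + 1))).re = ‖B (k + 1)‖ ^ 2 := by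
        rw [inner_self_eq_norm_sq_to_K]; norm_cast
      have e4 : (inner ℂ (A (k - 1)) (A (k - 1))).re = ‖A (k - 1)‖ ^ 2 := by
        rw [inner_self_eq_norm_sq_to_K]; norm_cast
      rw [e3, e4]; ring
    rw [hsum k, inner_add_left, Complex.add_re] at e1
    have e2 : (inner ℂ (V k) (B (k + 1) - A (k - 1))).re = b (k + 1) - b k := by
      rw [inner_sub_right, Complex.sub_re]
      have := hskew (k + 1)
      simp only [add_sub_cancel_right] at this
      simp only [hb, add_sub_cancel_right]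
      rw [this, hsym (V k) (A (k - 1))]
    rw [e2] at e1
    have e5 : ‖A (k + 1)‖ ^ 2 = ‖B (k + 1)‖ ^ 2 := by rw [hAB]
    simp only [hD, hδ, add_sub_cancel_right]
    linarith only [e1, e5]
  -- (iii)
  have h3 : ∀ k, y k ≤ 2 * (‖A (k - 1)‖ ^ 2 + ‖A (k + 1)‖ ^ 2) - b k - b (k + 1) - σ k := by
    intro k
    have e1 := parallelogram_law_with_norm ℂ (A (k - 1)) (B (k + 1))
    have e2 : ‖A (k - 1) + B (k + 1)‖ * ‖A (k - 1) + B (k + 1)‖ ≥ ‖V k‖ ^ 2 + 2 * σ k := by
      rw [hsum k]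
      have e3 : ‖V k + g k‖ * ‖V k + g k‖ = ‖V k‖ * ‖V k‖ + 2 * (inner ℂ (V k) (g k)).re +
          ‖g k‖ * ‖g k‖ := by
        have := norm_add_mul_self (𝕜 := ℂ) (V k) (g k)
        simpa only [RCLike.re_to_complex] using this
      rw [e3]
      simp only [hσ]
      rw [hsym (V k) (g k)]
      nlinarith only []
    have e4 : ‖A (k + 1)‖ = ‖B (k + 1)‖ := hAB _
    have e5 := h1 k
    simp only [hy]
    rw [e4]
    linarith
  -- bounds on the errors
  have hσb : ∀ s : Finset ℤ, ∑ k ∈ s, |σ k| ≤ e * v := by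
    intro s
    calc ∑ k ∈ s, |σ k| ≤ ∑ k ∈ s, ‖g k‖ * ‖V k‖ := by
          apply Finset.sum_le_sum
          intro k _
          exact (Complex.abs_re_le_norm _).trans (norm_inner_le_norm _ _)
      _ ≤ e * v := hil_cs s _ _ (fun _ => norm_nonneg _) (fun _ => norm_nonneg _) e v he hv
          (hg s) (hV s)
  have hshift : ∀ (c : ℤ) (s : Finset ℤ), ∑ k ∈ s, ‖A (k + c)‖ ^ 2 ≤ a ^ 2 := by
    intro c s
    have := hA (s.map (Equiv.addRight c).toEmbedding)
    rwa [Finset.sum_map] at this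
  have hδb : ∀ s : Finset ℤ, ∑ k ∈ s, |δ k| ≤ 2 * (e * a) := by
    intro s
    calc ∑ k ∈ s, |δ k| ≤ ∑ k ∈ s, (‖g k‖ * ‖A (k + 1)‖ + ‖g k‖ * ‖A (k + -1)‖) := by
          apply Finset.sum_le_sum
          intro k _
          calc |δ k| ≤ ‖inner ℂ (g k) (B (k + 1) - A (k - 1))‖ := Complex.abs_re_le_norm _
            _ ≤ ‖g k‖ * ‖B (k + 1) - A (k - 1)‖ := norm_inner_le_norm _ _
            _ ≤ ‖g k‖ * (‖B (k + 1)‖ + ‖A (k - 1)‖) := by
                gcongr
                exact norm_sub_le _ _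
            _ = ‖g k‖ * ‖A (k + 1)‖ + ‖g k‖ * ‖A (k + -1)‖ := by
                rw [hAB (k + 1)]
                ring_nf
      _ = ∑ k ∈ s, ‖g k‖ * ‖A (k + 1)‖ + ∑ k ∈ s, ‖g k‖ * ‖A (k + -1)‖ :=
          Finset.sum_add_distrib
      _ ≤ e * a + e * a := by
          apply add_le_add
          · exact hil_cs s _ _ (fun _ => norm_nonneg _) (fun _ => norm_nonneg _) e a he ha
              (hg s) (hshift 1 s)
          · exact hil_cs s _ _ (fun _ => norm_nonneg _) (fun _ => norm_nonneg _) e a he ha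
              (hg s) (hshift (-1) s)
      _ = 2 * (e * a) := by ring
  have hσ1 : ∀ k, |σ k| ≤ e * v := fun k => by
    simpa only [Finset.sum_singleton] using hσb { k }
  -- telescoping of D
  have hDN : ∀ (k : ℤ) (N : ℕ), D (k + N) = D k + ∑ j ∈ Finset.range N, δ (k + j) := by
    intro k N
    induction N with
    | zero => simp
    | succ N ih =>
      rw [Finset.sum_range_succ, ← add_assoc, ← ih]
      have := h2 (k + N)
      push_cast
      rw [← add_assoc]
      exact this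
  have hDlim : ∀ k : ℤ, Tendsto (fun N : ℕ => D (k + N)) atTop (𝓝 0) := by
    intro k
    have t1 := hil_tendsto_zero A a hA k
    have t2 := hil_tendsto_zero A a hA (k - 1)
    have t3 := hil_tendsto_zero V v hV k
    have t4 : Tendsto (fun N : ℕ => b (k + N)) atTop (𝓝 0) := by
      refine squeeze_zero_norm (a := fun N : ℕ => ‖A (k - 1 + N)‖ * ‖V (k + N)‖) ?_ ?_
      · intro N
        calc ‖b (k + N)‖ ≤ ‖inner ℂ (A (k + N - 1)) (V (k + N))‖ := Complex.abs_re_le_norm _
          _ ≤ ‖A (k + N - 1)‖ * ‖V (k + N)‖ := norm_inner_le_norm _ _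
          _ = ‖A (k - 1 + N)‖ * ‖V (k + N)‖ := by
              rw [show k + (N : ℤ) - 1 = k - 1 + N by ring]
      · simpa only [mul_zero] using t2.mul t3
    have t5 := ((t1.pow 2).add (t2.pow 2)).sub t4
    simp only [ne_eq, OfNat.ofNat_ne_zero, not_false_eq_true, zero_pow, add_zero, sub_zero] at t5
    refine t5.congr ?_
    intro N
    simp only [hD]
    rw [show k + (N : ℤ) - 1 = k - 1 + N by ring]
  have hDb : ∀ k, |D k| ≤ 2 * (e * a) := by
    intro k
    have t : Tendsto (fun N : ℕ => |D (k + N) - D k|) atTop (𝓝 |0 - D k|) :=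
      ((hDlim k).sub_const _).abs
    have hle : |0 - D k| ≤ 2 * (e * a) := by
      refine le_of_tendsto t (Eventually.of_forall ?_)
      intro N
      rw [hDN k N, add_sub_cancel_left]
      calc |∑ j ∈ Finset.range N, δ (k + j)| ≤ ∑ j ∈ Finset.range N, |δ (k + j)| :=
            Finset.abs_sum_le_sum_abs _ _
        _ = ∑ j ∈ (Finset.range N).map ⟨fun j : ℕ => k + (j : ℤ), by
              intro x y hxy
              have : (x : ℤ) = y := by simpa using hxy
              exact_mod_cast this⟩, |δ j| := by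
            rw [Finset.sum_map]; rfl
        _ ≤ 2 * (e * a) := hδb _
    simpa only [ge_iff_le, zero_sub, abs_neg] using hle
  -- lower and upper bounds for b
  have hblow : ∀ k, -(2 * (e * a)) ≤ b k := by
    intro k
    have := (abs_le.1 (hDb k)).2
    simp only [hD] at this
    nlinarith only [this]
  have hbup1 : ∀ k, b k ≤ ‖V k‖ ^ 2 + e * v + 2 * (e * a) := by
    intro k
    have e1 := h1 k
    have e2 := hblow (k + 1)
    have e3 := (abs_le.1 (hσ1 k)).2
    linarith only [e1, e2, e3]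
  have hbup2 : ∀ k, b (k + 1) ≤ ‖V k‖ ^ 2 + e * v + 2 * (e * a) := by
    intro k
    have e1 := h1 k
    have e2 := hblow k
    have e3 := (abs_le.1 (hσ1 k)).2
    linarith only [e1, e2, e3]
  -- one step
  have hstep : ∀ k, y k + y (k + 1) ≤
      (b k - b (k + 1)) - (b (k + 1) - b (k + 1 + 1)) + (8 * (e * a) + 2 * (e * v)) := by
    intro k
    have e1 := h3 k
    have e2 := h3 (k + 1)
    simp only [add_sub_cancel_right] at e2
    have e3 := (abs_le.1 (hDb k)).2
    have e4 := (abs_le.1 (hDb (k + 1 + 1))).2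
    have e5 := (abs_le.1 (hσ1 k)).1
    have e6 := (abs_le.1 (hσ1 (k + 1))).1
    simp only [hD, add_sub_cancel_right] at e3 e4
    linarith only [e1, e2, e5, e6, e3, e4]
  have hynn : ∀ k, 0 ≤ y k := fun k => by simp only [hy]; (clear * -; positivity)
  -- summation
  have hsumm : ∀ (m : ℤ) (N : ℕ), ∑ j ∈ Finset.range N, (y (m + j) + y (m + j + 1)) ≤
      (b m - b (m + 1)) - (b (m + N) - b (m + N + 1)) + N * (8 * (e * a) + 2 * (e * v)) := by
    intro m N
    induction N with
    | zero => simp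
    | succ N ih =>
      rw [Finset.sum_range_succ]
      have := hstep (m + N)
      have e1 : m + ((N + 1 : ℕ) : ℤ) = m + N + 1 := by push_cast; ring
      rw [e1]
      push_cast
      linarith only [this, ih]
  have hfin := hsumm (-n) (2 * n + 1)
  have hterm : y k ≤ ∑ j ∈ Finset.range (2 * n + 1), (y (-n + j) + y (-n + j + 1)) := by
    have hk := abs_le.1 hn
    have hmem : (k + n).toNat ∈ Finset.range (2 * n + 1) := by
      rw [Finset.mem_range]
      omega
    have e1 : y k ≤ y (-n + ((k + n).toNat : ℤ)) + y (-n + ((k + n).toNat : ℤ) + 1) := by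
      have : (-n : ℤ) + ((k + n).toNat : ℤ) = k := by (clear * - hk; omega)
      rw [this]
      linarith only [hynn (k + 1)]
    exact e1.trans (Finset.single_le_sum (f := fun j : ℕ => y (-n + j) + y (-n + j + 1))
      (fun j _ => add_nonneg (hynn _) (hynn _)) hmem)
  have e1 : b (-n) ≤ ‖V (-n - 1)‖ ^ 2 + e * v + 2 * (e * a) := by
    have := hbup2 (-n - 1)
    simpa only [ge_iff_le, sub_add_cancel] using this
  have e2 := hblow (-n + 1)
  have e3 : (-n : ℤ) + ((2 * n + 1 : ℕ) : ℤ) = n + 1 := by push_cast; ring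
  rw [e3] at hfin
  have e4 := hblow (n + 1)
  have e5 : b (n + 1 + 1) ≤ ‖V (n + 1)‖ ^ 2 + e * v + 2 * (e * a) := hbup2 (n + 1)
  have hea : 0 ≤ e * a := by (clear * - he ha; positivity)
  have hev : 0 ≤ e * v := by (clear * - he hv; positivity)
  have hnn : (0 : ℝ) ≤ n := by (clear * -; positivity)
  have hfin' := hterm.trans hfin
  push_cast at hfin'
  have : y k = ‖A (k - 1) - B (k + 1)‖ ^ 2 := rfl
  rw [← this]
  linarith only [mul_nonneg (sub_nonneg.2 hev) (sub_nonneg.2 hnn), mul_nonneg (sub_nonneg.2 hea) (sub_nonneg.2 hnn), mul_nonneg (sq_nonneg (e : ℝ)) (sub_nonneg.2 hnn), hfin', hev, hea, e5, e4, e2, e1, sq_nonneg (e : ℝ)]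

end Vale.Agent.P099
end
end

section

section

open MeasureTheory Set Filter Topology

namespace Vale.Agent.P099

variable {Ω : Type} [MeasurableSpace Ω]

/-- bounded measurable functions of (position, (direction, parameter)) -/
def Bdd (f : ℂ → ℂ × Ω → ℝ) : Prop :=
  Measurable (fun p : ℂ × (ℂ × Ω) => f p.1 p.2) ∧ ∃ C : ℝ, ∀ y ω, |f y ω| ≤ C

/-- bounded measurable functions, with bounded support in the position -/
def BddSupp (f : ℂ → ℂ × Ω → ℝ) : Prop :=
  Bdd f ∧ ∃ r : ℝ, ∀ y ω, r ≤ ‖y‖ → f y ω = 0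

/-- mollification in the position variable -/
noncomputable def mol (ε : ℝ) (f : ℂ → ℂ × Ω → ℝ) (x : ℂ) (ω : ℂ × Ω) : ℝ :=
  ∫ y, rho ε (x - y) * f y ω

/-- `∂_z` of the mollification -/
noncomputable def grd (ε : ℝ) (f : ℂ → ℂ × Ω → ℝ) (x : ℂ) (ω : ℂ × Ω) : ℂ :=
  ∫ y, kap ε (x - y) * (f y ω : ℂ)

/-- the derivative of the mollification in the direction of motion -/
noncomputable def Xd (ε : ℝ) (f : ℂ → ℂ × Ω → ℝ) (x : ℂ) (ω : ℂ × Ω) : ℝ :=
  2 * (ω.1 * grd ε f x ω).re

/-- Fourier modes in the direction -/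
noncomputable def md (k : ℤ) (F : ℂ → ℂ × Ω → ℂ) (x : ℂ) (q : Ω) : ℂ :=
  ∫ u, F x (u, q) * u ^ (-k) ∂nu

namespace Triangle

variable (T : Triangle) (m : Measure Ω)

/-- squared `L²` norm over the phase space -/
noncomputable def nrm (F : ℂ → ℂ × Ω → ℂ) : ℝ :=
  ∫ x in T.table, ∫ ω, ‖F x ω‖ ^ 2 ∂(nu.prod m)

/-- squared `L²` norm over table times parameter -/
noncomputable def nrmq (F : ℂ → Ω → ℂ) : ℝ := ∫ x in T.table, ∫ q, ‖F x q‖ ^ 2 ∂m

/-- extension by reflection in the three sides -/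
noncomputable def ext (f : ℂ → ℂ × Ω → ℝ) (y : ℂ) (ω : ℂ × Ω) : ℝ :=
  T.table.indicator (fun y => f y ω) y +
    ∑ i, (T.R i ⁻¹' T.table).indicator (fun y => f (T.R i y) (T.refl i ω.1, ω.2)) y

/-- the mollification satisfies the reflection boundary condition -/
def Sym (ε : ℝ) (f : ℂ → ℂ × Ω → ℝ) : Prop :=
  ∀ i, ∀ y ∈ segment ℝ (T.P (i + 1)) (T.P (i + 2)), ∀ ω : ℂ × Ω,
    mol ε f y (T.refl i ω.1, ω.2) = mol ε f y ω

/-- `V` is the derivative of `U` along free flights. -/
def FreeDer (U V : ℂ → ℂ × Ω → ℝ) : Prop :=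
  ∀ t : ℝ, 0 < t → ∀ᵐ p ∂((volume.restrict T.table).prod (nu.prod m)),
    p.1 + t • p.2.1 ∈ T.table →
      U (p.1 + t • p.2.1) p.2 - U p.1 p.2 = ∫ s in (0:ℝ)..t, V (p.1 + s • p.2.1) p.2

/-- `V` is the derivative of `U` along motions with one collision. -/
def BounceDer (U V : ℂ → ℂ × Ω → ℝ) : Prop :=
  ∀ t : ℝ, 0 < t → ∀ i, ∀ᵐ p ∂((volume.restrict T.table).prod (nu.prod m)),
    T.E i (p.1, p.2.1) → T.hitT i (p.1, p.2.1) < t → T.R i (p.1 + t • p.2.1) ∈ T.table →
      U (T.R i (p.1 + t • p.2.1)) (T.refl i p.2.1, p.2.2) - U p.1 p.2 =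
        (∫ s in (0:ℝ)..(T.hitT i (p.1, p.2.1)), V (p.1 + s • p.2.1) p.2) +
        ∫ s in (T.hitT i (p.1, p.2.1))..t, V (T.R i (p.1 + s • p.2.1)) (T.refl i p.2.1, p.2.2)

end Triangle

end Vale.Agent.P099
end
end

section

section

open MeasureTheory Set Filter Topology

namespace Vale.Agent.P099

variable {Ω : Type} [MeasurableSpace Ω]

set_option linter.unusedSectionVars false

/-! ### bounded measurable functions -/

/-- jointly measurable and bounded -/
def BM (F : ℂ → ℂ × Ω → ℂ) : Prop :=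
  Measurable (fun p : ℂ × (ℂ × Ω) => F p.1 p.2) ∧ ∃ C : ℝ, ∀ x ω, ‖F x ω‖ ≤ C

/-- jointly measurable and bounded -/
def BMq (F : ℂ → Ω → ℂ) : Prop :=
  Measurable (fun p : ℂ × Ω => F p.1 p.2) ∧ ∃ C : ℝ, ∀ x q, ‖F x q‖ ≤ C

lemma BM.meas_u {F : ℂ → ℂ × Ω → ℂ} (hF : BM F) (x : ℂ) (q : Ω) :
    Measurable (fun u : ℂ => F x (u, q)) :=
  hF.1.comp (by fun_prop : Measurable fun u : ℂ => (x, (u, q)))

lemma BM.meas_ω {F : ℂ → ℂ × Ω → ℂ} (hF : BM F) (x : ℂ) :
    Measurable (fun ω : ℂ × Ω => F x ω) :=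
  hF.1.comp (by fun_prop : Measurable fun ω : ℂ × Ω => (x, ω))

lemma BMq.meas_x {F : ℂ → Ω → ℂ} (hF : BMq F) (q : Ω) :
    Measurable (fun x : ℂ => F x q) :=
  hF.1.comp (by fun_prop : Measurable fun x : ℂ => (x, q))

lemma BMq.meas_q {F : ℂ → Ω → ℂ} (hF : BMq F) (x : ℂ) :
    Measurable (fun q : Ω => F x q) :=
  hF.1.comp (by fun_prop : Measurable fun q : Ω => (x, q))

/-- convolution in the position variable with a complex kernel -/
noncomputable def cv (κ : ℂ → ℂ) (f : ℂ → ℂ × Ω → ℝ) (x : ℂ) (ω : ℂ × Ω) : ℂ :=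
  ∫ y, κ (x - y) * (f y ω : ℂ)

lemma bm_cv {κ : ℂ → ℂ} (hκ : Continuous κ) (hκc : HasCompactSupport κ)
    {f : ℂ → ℂ × Ω → ℝ} (hf : Bdd f) : BM (cv κ f) := by
  obtain ⟨hm, C, hC⟩ := hf
  refine ⟨?_, C * ∫ y, ‖κ y‖, ?_⟩
  · have h1 : StronglyMeasurable (fun p : (ℂ × (ℂ × Ω)) × ℂ =>
        κ (p.1.1 - p.2) * (f p.2 p.1.2 : ℂ)) := by
      apply Measurable.stronglyMeasurable
      apply Measurable.mul
      · exact hκ.measurable.comp (by fun_prop)
      · apply Complex.measurable_ofReal.comp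
        exact hm.comp (by fun_prop : Measurable fun p : (ℂ × (ℂ × Ω)) × ℂ => (p.2, p.1.2))
    exact (h1.integral_prod_right (ν := volume)).measurable
  · intro x ω
    have hi : Integrable (fun y => ‖κ y‖) := (hκ.integrable_of_hasCompactSupport hκc).norm
    have hC0 : 0 ≤ C := (abs_nonneg _).trans (hC x ω)
    calc ‖cv κ f x ω‖ ≤ ∫ y, ‖κ (x - y) * (f y ω : ℂ)‖ := norm_integral_le_integral_norm _
      _ ≤ ∫ y, C * ‖κ (x - y)‖ := by
          apply integral_mono_of_nonneg
          · exact Eventually.of_forall fun y => norm_nonneg _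
          · exact (hi.comp_sub_left x).const_mul C
          · refine Eventually.of_forall fun y => ?_
            simp only [norm_mul, Complex.norm_real, Real.norm_eq_abs]
            rw [mul_comm]
            exact mul_le_mul_of_nonneg_right (hC y ω) (norm_nonneg _)
      _ = C * ∫ y, ‖κ y‖ := by
          rw [integral_const_mul]
          congr 1
          exact integral_sub_left_eq_self (fun y => ‖κ y‖) volume x

lemma norm_zpow_ae (k : ℤ) : ∀ᵐ u ∂nu, ‖u ^ (-k)‖ = 1 := by
  filter_upwards [ae_norm] with u hu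
  rw [norm_zpow, hu, one_zpow]

lemma measurable_zpow' (k : ℤ) : Measurable (fun u : ℂ => u ^ (-k)) := by
  (clear * -; fun_prop)

lemma bm_md {F : ℂ → ℂ × Ω → ℂ} (hF : BM F) (k : ℤ) : BMq (md k F) := by
  obtain ⟨hm, C, hC⟩ := hF
  refine ⟨?_, C, ?_⟩
  · have h1 : StronglyMeasurable (fun p : (ℂ × Ω) × ℂ => F p.1.1 (p.2, p.1.2) * p.2 ^ (-k)) := by
      apply Measurable.stronglyMeasurable
      apply Measurable.mul
      · exact hm.comp (by fun_prop : Measurable fun p : (ℂ × Ω) × ℂ => (p.1.1, (p.2, p.1.2)))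
      · exact (measurable_zpow' k).comp measurable_snd
    exact (h1.integral_prod_right (ν := nu)).measurable
  · intro x q
    have h := norm_integral_le_of_norm_le_const (μ := nu) (f := fun u => F x (u, q) * u ^ (-k))
      (C := C) (by
        filter_upwards [norm_zpow_ae k] with u hu
        rw [norm_mul, hu, mul_one]
        exact hC _ _)
    calc ‖md k F x q‖ ≤ C * nu.real univ := h
      _ = C := by simp

/-! ### relations between convolutions and modes -/

lemma conj_cv (κ : ℂ → ℂ) (f : ℂ → ℂ × Ω → ℝ) (x : ℂ) (ω : ℂ × Ω) :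
    (starRingEnd ℂ) (cv κ f x ω) = cv (fun z => (starRingEnd ℂ) (κ z)) f x ω := by
  unfold cv
  rw [← integral_conj]
  congr 1
  ext y
  simp

lemma mol_eq_cv (ε : ℝ) (f : ℂ → ℂ × Ω → ℝ) (x : ℂ) (ω : ℂ × Ω) :
    (mol ε f x ω : ℂ) = cv (fun z => (rho ε z : ℂ)) f x ω := by
  unfold mol cv
  rw [← integral_complex_ofReal]
  congr 1
  ext y
  simp

lemma conj_zpow_ae (k : ℤ) : ∀ᵐ u ∂nu, (starRingEnd ℂ) (u ^ (-k)) = u ^ (- -k) := by
  filter_upwards [ae_norm] with u hu
  have h1 : (starRingEnd ℂ) u = u⁻¹ := by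
    rw [Complex.inv_def, Complex.normSq_eq_norm_sq, hu]
    simp
  rw [map_zpow₀, h1, inv_zpow']

lemma conj_md (k : ℤ) (F : ℂ → ℂ × Ω → ℂ) (x : ℂ) (q : Ω) :
    (starRingEnd ℂ) (md k F x q) = md (-k) (fun x ω => (starRingEnd ℂ) (F x ω)) x q := by
  unfold md
  rw [← integral_conj]
  apply integral_congr_ae
  filter_upwards [conj_zpow_ae k] with u hu
  rw [map_mul, hu]

/-- modes of a convolution -/
lemma md_cv {κ : ℂ → ℂ} (hκ : Continuous κ) (hκc : HasCompactSupport κ)
    {f : ℂ → ℂ × Ω → ℝ} (hf : Bdd f) (k : ℤ) (x : ℂ) (q : Ω) :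
    md k (cv κ f) x q = conv κ (fun y => md k (fun y ω => (f y ω : ℂ)) y q) x := by
  obtain ⟨hm, C, hC⟩ := hf
  have hκi : Integrable (fun y => κ (x - y)) :=
    (hκ.integrable_of_hasCompactSupport hκc).comp_sub_left x
  have hint : Integrable (Function.uncurry fun (u y : ℂ) =>
      κ (x - y) * (f y (u, q) : ℂ) * u ^ (-k)) (nu.prod volume) := by
    have hdom : Integrable (fun p : ℂ × ℂ => (C : ℝ) * ‖κ (x - p.2)‖) (nu.prod volume) := by
      have := (integrable_const (C : ℝ) (μ := nu)).mul_prod hκi.norm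
      exact this
    refine hdom.mono' ?_ ?_
    · apply Measurable.aestronglyMeasurable
      apply Measurable.mul
      · apply Measurable.mul
        · exact hκ.measurable.comp (by fun_prop)
        · apply Complex.measurable_ofReal.comp
          exact hm.comp (by fun_prop : Measurable fun p : ℂ × ℂ => (p.2, (p.1, q)))
      · exact (measurable_zpow' k).comp measurable_fst
    · have h1 : ∀ᵐ p ∂(nu.prod (volume : Measure ℂ)), ‖p.1 ^ (-k)‖ = 1 :=
        Measure.quasiMeasurePreserving_fst.ae (norm_zpow_ae k)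
      filter_upwards [h1] with p hp
      simp only [Function.uncurry, norm_mul, Complex.norm_real, Real.norm_eq_abs]
      rw [hp, mul_one, mul_comm]
      exact mul_le_mul_of_nonneg_right (hC _ _) (norm_nonneg _)
  unfold md cv conv
  calc ∫ u, (∫ y, κ (x - y) * (f y (u, q) : ℂ)) * u ^ (-k) ∂nu
      = ∫ u, (∫ y, κ (x - y) * (f y (u, q) : ℂ) * u ^ (-k)) ∂nu := by
        congr 1
        ext u
        rw [integral_mul_const]
    _ = ∫ y, (∫ u, κ (x - y) * (f y (u, q) : ℂ) * u ^ (-k) ∂nu) := integral_integral_swap hint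
    _ = ∫ y, κ (x - y) * ∫ u, (f y (u, q) : ℂ) * u ^ (-k) ∂nu := by
        congr 1
        ext y
        rw [← integral_const_mul]
        congr 1
        ext u
        ring

lemma bm_ofReal {f : ℂ → ℂ × Ω → ℝ} (hf : Bdd f) : BM (fun y ω => (f y ω : ℂ)) := by
  obtain ⟨hm, C, hC⟩ := hf
  exact ⟨Complex.measurable_ofReal.comp hm, C, fun x ω => by
    rw [Complex.norm_real, Real.norm_eq_abs]; exact hC x ω⟩

lemma locInt_md {f : ℂ → ℂ × Ω → ℝ} (hf : Bdd f) (k : ℤ) (q : Ω) :
    LocallyIntegrable (fun y => md k (fun y ω => (f y ω : ℂ)) y q) := by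
  obtain ⟨hm, C, hC⟩ := bm_md (bm_ofReal hf) k
  have h1 : Measurable (fun y => md k (fun y ω => (f y ω : ℂ)) y q) :=
    hm.comp (by fun_prop : Measurable fun y : ℂ => (y, q))
  intro x
  refine ⟨Metric.ball x 1, Metric.ball_mem_nhds x one_pos, ?_⟩
  refine Measure.integrableOn_of_bounded (M := C) measure_ball_lt_top.ne
    h1.aestronglyMeasurable (Eventually.of_forall fun y => hC y q)

section smooth

variable {ε : ℝ} (hε : 0 < ε) {f : ℂ → ℂ × Ω → ℝ} (hf : Bdd f)

lemma continuous_rhoC (ε : ℝ) : Continuous (fun z => (rho ε z : ℂ)) :=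
  Complex.continuous_ofReal.comp (rho_contDiff ε).continuous

include hε in
lemma hcs_rhoC : HasCompactSupport (fun z => (rho ε z : ℂ)) :=
  (hasCompactSupport_rho hε).comp_left (g := fun r : ℝ => (r : ℂ)) Complex.ofReal_zero

include hε in
lemma hcs_kap : HasCompactSupport (kap ε) := by
  apply HasCompactSupport.of_support_subset_isCompact (isCompact_closedBall (0 : ℂ) ε)
  intro z hz
  rw [mem_closedBall_zero_iff]
  by_contra h
  push Not at h
  exact hz (kap_eq_zero hε h.le)

include hε in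
lemma hcs_conj_kap : HasCompactSupport (fun z => (starRingEnd ℂ) (kap ε z)) :=
  (hcs_kap hε).comp_left (g := fun z : ℂ => (starRingEnd ℂ) z) (map_zero _)

lemma continuous_conj_kap (ε : ℝ) : Continuous (fun z => (starRingEnd ℂ) (kap ε z)) :=
  Complex.continuous_conj.comp (continuous_kap ε)

include hε hf in
lemma md_mol_contDiff (k : ℤ) (q : Ω) :
    ContDiff ℝ (⊤ : ℕ∞) (fun x => md k (fun x ω => (mol ε f x ω : ℂ)) x q) := by
  have h : (fun x => md k (fun x ω => (mol ε f x ω : ℂ)) x q) =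
      conv (fun z => (rho ε z : ℂ)) (fun y => md k (fun y ω => (f y ω : ℂ)) y q) := by
    ext x
    rw [← md_cv (continuous_rhoC ε) (hcs_rhoC hε) hf k x q]
    simp only [mol_eq_cv]
  rw [h]
  exact contDiff_conv hε (locInt_md hf k q)

include hε hf in
lemma dz_md_mol (k : ℤ) (q : Ω) (x : ℂ) :
    dz (fun x => md k (fun x ω => (mol ε f x ω : ℂ)) x q) x = md k (grd ε f) x q := by
  have h : (fun x => md k (fun x ω => (mol ε f x ω : ℂ)) x q) =
      conv (fun z => (rho ε z : ℂ)) (fun y => md k (fun y ω => (f y ω : ℂ)) y q) := by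
    ext x
    rw [← md_cv (continuous_rhoC ε) (hcs_rhoC hε) hf k x q]
    simp only [mol_eq_cv]
  rw [h, dz_conv hε (locInt_md hf k q), ← md_cv (continuous_kap ε) (hcs_kap hε) hf k x q]
  rfl

include hε hf in
lemma dzb_md_mol (k : ℤ) (q : Ω) (x : ℂ) :
    dzb (fun x => md k (fun x ω => (mol ε f x ω : ℂ)) x q) x =
      md k (fun x ω => (starRingEnd ℂ) (grd ε f x ω)) x q := by
  have h : (fun x => md k (fun x ω => (mol ε f x ω : ℂ)) x q) =
      conv (fun z => (rho ε z : ℂ)) (fun y => md k (fun y ω => (f y ω : ℂ)) y q) := by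
    ext x
    rw [← md_cv (continuous_rhoC ε) (hcs_rhoC hε) hf k x q]
    simp only [mol_eq_cv]
  rw [h, dzb_conv hε (locInt_md hf k q),
    ← md_cv (continuous_conj_kap ε) (hcs_conj_kap hε) hf k x q]
  congr 1
  ext x ω
  exact (conj_cv (kap ε) f x ω).symm

end smooth

namespace Triangle

variable (T : Triangle) (m : Measure Ω)

/-- boundary condition for the modes -/
lemma md_bdry {ε : ℝ} {f : ℂ → ℂ × Ω → ℝ} (hε : 0 < ε) (hf : Bdd f) (hfs : T.Sym ε f) (k : ℤ) (q : Ω)
    (i : Fin 3) (y : ℂ) (hy : y ∈ segment ℝ (T.P (i + 1)) (T.P (i + 2))) :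
    md k (fun x ω => (mol ε f x ω : ℂ)) y q =
      (T.d i / (starRingEnd ℂ) (T.d i)) ^ (-k) *
        (starRingEnd ℂ) (md k (fun x ω => (mol ε f x ω : ℂ)) y q) := by
  have hmeas : Measurable (fun u : ℂ => (mol ε f y (u, q) : ℂ) * u ^ (-k)) := by
    have h2 := (bm_cv (continuous_rhoC ε) (hcs_rhoC hε) hf).meas_u y q
    simp only [← mol_eq_cv] at h2
    exact h2.mul (measurable_zpow' k)
  have hmp := T.measurePreserving_refl i
  calc md k (fun x ω => (mol ε f x ω : ℂ)) y q
      = ∫ u, (mol ε f y (u, q) : ℂ) * u ^ (-k) ∂(nu.map (T.refl i)) := by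
        rw [hmp.map_eq]; rfl
    _ = ∫ u, (mol ε f y (T.refl i u, q) : ℂ) * (T.refl i u) ^ (-k) ∂nu :=
        integral_map hmp.measurable.aemeasurable hmeas.aestronglyMeasurable
    _ = ∫ u, (T.d i / (starRingEnd ℂ) (T.d i)) ^ (-k) *
          (starRingEnd ℂ) ((mol ε f y (u, q) : ℂ) * u ^ (-k)) ∂nu := by
        congr 1
        ext u
        have h1 := hfs i y hy (u, q)
        simp only at h1
        rw [h1, T.refl_eq i u, mul_zpow, map_mul, map_zpow₀, Complex.conj_ofReal]
        ring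
    _ = (T.d i / (starRingEnd ℂ) (T.d i)) ^ (-k) *
        (starRingEnd ℂ) (md k (fun x ω => (mol ε f x ω : ℂ)) y q) := by
        rw [integral_const_mul, integral_conj]
        rfl

end Triangle

/-! ### the Hilbert space -/

section L2

variable (T : Triangle) (m : Measure Ω) [IsProbabilityMeasure m]

instance finT : IsFiniteMeasure (volume.restrict T.table) :=
  ⟨by simpa using T.volume_table_lt_top⟩

/-- table times parameter -/
noncomputable abbrev lm : Measure (ℂ × Ω) := (volume.restrict T.table).prod m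

lemma BMq.memLp {F : ℂ → Ω → ℂ} (hF : BMq F) :
    MemLp (fun p : ℂ × Ω => F p.1 p.2) 2 (lm T m) := by
  obtain ⟨hm, C, hC⟩ := hF
  exact MemLp.of_bound hm.aestronglyMeasurable C (Eventually.of_forall fun p => hC _ _)

/-- class in `L²` -/
noncomputable def cls {F : ℂ → Ω → ℂ} (hF : BMq F) : Lp ℂ 2 (lm T m) :=
  (hF.memLp T m).toLp

lemma BMq.mul {F G : ℂ → Ω → ℂ} (hF : BMq F) (hG : BMq G) : BMq (fun x q => F x q * G x q) := by
  obtain ⟨hm, C, hC⟩ := hF
  obtain ⟨hm', C', hC'⟩ := hG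
  refine ⟨hm.mul hm', C * C', fun x q => ?_⟩
  rw [norm_mul]
  exact mul_le_mul (hC x q) (hC' x q) (norm_nonneg _) ((norm_nonneg _).trans (hC x q))

lemma BMq.add {F G : ℂ → Ω → ℂ} (hF : BMq F) (hG : BMq G) : BMq (fun x q => F x q + G x q) := by
  obtain ⟨hm, C, hC⟩ := hF
  obtain ⟨hm', C', hC'⟩ := hG
  exact ⟨hm.add hm', C + C', fun x q => (norm_add_le _ _).trans (add_le_add (hC x q) (hC' x q))⟩

lemma BMq.sub {F G : ℂ → Ω → ℂ} (hF : BMq F) (hG : BMq G) : BMq (fun x q => F x q - G x q) := by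
  obtain ⟨hm, C, hC⟩ := hF
  obtain ⟨hm', C', hC'⟩ := hG
  exact ⟨hm.sub hm', C + C', fun x q => (norm_sub_le _ _).trans (add_le_add (hC x q) (hC' x q))⟩

lemma BMq.conj {F : ℂ → Ω → ℂ} (hF : BMq F) : BMq (fun x q => (starRingEnd ℂ) (F x q)) := by
  obtain ⟨hm, C, hC⟩ := hF
  exact ⟨Complex.continuous_conj.measurable.comp hm, C, fun x q => by
    rw [RCLike.norm_conj]; exact hC x q⟩

lemma BMq.integrable {F : ℂ → Ω → ℂ} (hF : BMq F) :
    Integrable (fun p : ℂ × Ω => F p.1 p.2) (lm T m) := by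
  obtain ⟨hm, C, hC⟩ := hF
  exact Integrable.of_bound hm.aestronglyMeasurable C (Eventually.of_forall fun p => hC _ _)

lemma BMq.integrable_q {F : ℂ → Ω → ℂ} (hF : BMq F) (x : ℂ) :
    Integrable (fun q : Ω => F x q) m := by
  have h := hF.meas_q x
  obtain ⟨_, C, hC⟩ := hF
  exact Integrable.of_bound h.aestronglyMeasurable C (Eventually.of_forall fun p => hC _ _)

lemma BMq.integrable_x {F : ℂ → Ω → ℂ} (hF : BMq F) (q : Ω) :
    Integrable (fun x : ℂ => F x q) (volume.restrict T.table) := by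
  have h := hF.meas_x q
  obtain ⟨_, C, hC⟩ := hF
  exact Integrable.of_bound h.aestronglyMeasurable C (Eventually.of_forall fun p => hC _ _)

lemma BMq.integrable_sq {F : ℂ → Ω → ℂ} (hF : BMq F) :
    Integrable (fun p : ℂ × Ω => ‖F p.1 p.2‖ ^ 2) (lm T m) := by
  obtain ⟨hm, C, hC⟩ := hF
  refine Integrable.of_bound (hm.norm.pow_const 2).aestronglyMeasurable (C ^ 2)
    (Eventually.of_forall fun p => ?_)
  rw [norm_pow, norm_norm]
  exact pow_le_pow_left₀ (norm_nonneg _) (hC _ _) 2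

lemma BMq.integrable_sq_q {F : ℂ → Ω → ℂ} (hF : BMq F) (x : ℂ) :
    Integrable (fun q : Ω => ‖F x q‖ ^ 2) m := by
  have h := hF.meas_q x
  obtain ⟨_, C, hC⟩ := hF
  refine Integrable.of_bound (h.norm.pow_const 2).aestronglyMeasurable (C ^ 2)
    (Eventually.of_forall fun p => ?_)
  rw [norm_pow, norm_norm]
  exact pow_le_pow_left₀ (norm_nonneg _) (hC _ _) 2

lemma BMq.integrable_sq_x {F : ℂ → Ω → ℂ} (hF : BMq F) (q : Ω) :
    Integrable (fun x : ℂ => ‖F x q‖ ^ 2) (volume.restrict T.table) := by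
  have h := hF.meas_x q
  obtain ⟨_, C, hC⟩ := hF
  refine Integrable.of_bound (h.norm.pow_const 2).aestronglyMeasurable (C ^ 2)
    (Eventually.of_forall fun p => ?_)
  rw [norm_pow, norm_norm]
  exact pow_le_pow_left₀ (norm_nonneg _) (hC _ _) 2

lemma inner_cls {F G : ℂ → Ω → ℂ} (hF : BMq F) (hG : BMq G) :
    inner ℂ (cls T m hF) (cls T m hG) =
      ∫ p, (starRingEnd ℂ) (F p.1 p.2) * G p.1 p.2 ∂(lm T m) := by
  rw [MeasureTheory.L2.inner_def]
  apply integral_congr_ae
  filter_upwards [(hF.memLp T m).coeFn_toLp, (hG.memLp T m).coeFn_toLp] with p h1 h2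
  unfold cls
  rw [h1, h2, RCLike.inner_apply']

lemma nrmq_eq_integral {F : ℂ → Ω → ℂ} (hF : BMq F) :
    T.nrmq m F = ∫ p, ‖F p.1 p.2‖ ^ 2 ∂(lm T m) :=
  (integral_prod _ (hF.integrable_sq T m)).symm

lemma norm_cls_sq {F : ℂ → Ω → ℂ} (hF : BMq F) : ‖cls T m hF‖ ^ 2 = T.nrmq m F := by
  have h1 := inner_self_eq_norm_sq_to_K (𝕜 := ℂ) (cls T m hF)
  rw [inner_cls] at h1
  rw [nrmq_eq_integral T m hF]
  have h2 : ∫ p, (starRingEnd ℂ) (F p.1 p.2) * F p.1 p.2 ∂(lm T m) =
      ((∫ p, ‖F p.1 p.2‖ ^ 2 ∂(lm T m) : ℝ) : ℂ) := by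
    rw [← integral_complex_ofReal]
    congr 1
    ext p
    rw [Complex.conj_mul']
    norm_cast
  rw [h2] at h1
  apply Complex.ofReal_injective
  rw [h1]
  simp only [Complex.ofReal_pow, Complex.coe_algebraMap]

lemma cls_add {F G : ℂ → Ω → ℂ} (hF : BMq F) (hG : BMq G) :
    cls T m (hF.add hG) = cls T m hF + cls T m hG := by
  exact MemLp.toLp_add _ _

lemma cls_sub {F G : ℂ → Ω → ℂ} (hF : BMq F) (hG : BMq G) :
    cls T m (hF.sub hG) = cls T m hF - cls T m hG := by
  exact MemLp.toLp_sub _ _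

lemma cls_congr {F G : ℂ → Ω → ℂ} (hF : BMq F) (hG : BMq G) (h : ∀ x q, F x q = G x q) :
    cls T m hF = cls T m hG := by
  have : F = G := by ext x q; exact h x q
  subst this
  rfl

/-- Bessel's inequality -/
lemma bessel_md {F : ℂ → ℂ × Ω → ℂ} (hF : BM F) (s : Finset ℤ) :
    ∑ k ∈ s, T.nrmq m (md k F) ≤ T.nrm m F := by
  have e1 : ∑ k ∈ s, T.nrmq m (md k F) =
      ∫ x in T.table, ∫ q, ∑ k ∈ s, ‖md k F x q‖ ^ 2 ∂m := by
    unfold Triangle.nrmq
    rw [← integral_finsetSum]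
    · congr 1
      ext x
      rw [integral_finsetSum]
      intro k _
      exact (bm_md hF k).integrable_sq_q m x
    · intro k _
      exact ((bm_md hF k).integrable_sq T m).integral_prod_left
  rw [e1]
  unfold Triangle.nrm
  obtain ⟨hm, C, hC⟩ := hF
  have hF : BM F := ⟨hm, C, hC⟩
  have hi : Integrable (fun p : ℂ × (ℂ × Ω) => ‖F p.1 p.2‖ ^ 2)
      ((volume.restrict T.table).prod (nu.prod m)) := by
    refine Integrable.of_bound (hm.norm.pow_const 2).aestronglyMeasurable (C ^ 2)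
      (Eventually.of_forall fun p => ?_)
    rw [norm_pow, norm_norm]
    exact pow_le_pow_left₀ (norm_nonneg _) (hC _ _) 2
  apply integral_mono
  · have : Integrable (fun p : ℂ × Ω => ∑ k ∈ s, ‖md k F p.1 p.2‖ ^ 2) (lm T m) :=
      integrable_finsetSum _ fun k _ => (bm_md hF k).integrable_sq T m
    exact this.integral_prod_left
  · exact hi.integral_prod_left
  · intro x
    have hix : Integrable (fun ω : ℂ × Ω => ‖F x ω‖ ^ 2) (nu.prod m) := by
      refine Integrable.of_bound ((hF.meas_ω x).norm.pow_const 2).aestronglyMeasurable (C ^ 2)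
        (Eventually.of_forall fun p => ?_)
      rw [norm_pow, norm_norm]
      exact pow_le_pow_left₀ (norm_nonneg _) (hC _ _) 2
    simp only
    rw [integral_prod_symm _ hix]
    apply integral_mono
    · exact integrable_finsetSum _ fun k _ => (bm_md hF k).integrable_sq_q m x
    · exact hix.integral_prod_right
    · intro q
      have hL : MemLp (fun u => F x (u, q)) 2 nu :=
        MemLp.of_bound (hF.meas_u x q).aestronglyMeasurable C
          (Eventually.of_forall fun p => hC _ _)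
      exact bessel _ hL s

end L2

/-! ### the identities -/

section identities

variable (T : Triangle) (m : Measure Ω) [IsProbabilityMeasure m]

lemma bm_mol {ε : ℝ} (hε : 0 < ε) {f : ℂ → ℂ × Ω → ℝ} (hf : Bdd f) :
    BM (fun x ω => (mol ε f x ω : ℂ)) := by
  simp only [mol_eq_cv]
  exact bm_cv (continuous_rhoC ε) (hcs_rhoC hε) hf

lemma bm_grd {ε : ℝ} (hε : 0 < ε) {f : ℂ → ℂ × Ω → ℝ} (hf : Bdd f) : BM (grd ε f) :=
  bm_cv (continuous_kap ε) (hcs_kap hε) hf

lemma bm_cgrd {ε : ℝ} (hε : 0 < ε) {f : ℂ → ℂ × Ω → ℝ} (hf : Bdd f) :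
    BM (fun x ω => (starRingEnd ℂ) (grd ε f x ω)) := by
  have h : (fun x ω => (starRingEnd ℂ) (grd ε f x ω)) = cv (fun z => (starRingEnd ℂ) (kap ε z)) f := by
    ext x ω
    exact conj_cv (kap ε) f x ω
  rw [h]
  exact bm_cv (continuous_conj_kap ε) (hcs_conj_kap hε) hf

lemma nrmq_grd_eq {ε : ℝ} (hε : 0 < ε) {f : ℂ → ℂ × Ω → ℝ} (hf : Bdd f) (hfs : T.Sym ε f)
    (k : ℤ) : T.nrmq m (md k (grd ε f)) =
      T.nrmq m (md k (fun x ω => (starRingEnd ℂ) (grd ε f x ω))) := by
  have hA := bm_md (bm_grd hε hf) k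
  have hB := bm_md (bm_cgrd hε hf) k
  rw [nrmq_eq_integral T m hA, nrmq_eq_integral T m hB,
    integral_prod_symm _ (hA.integrable_sq T m), integral_prod_symm _ (hB.integrable_sq T m)]
  congr 1
  ext q
  simp only
  rw [← sub_eq_zero, ← integral_sub (hA.integrable_sq_x T q) (hB.integrable_sq_x T q)]
  have hw := md_mol_contDiff hε hf k q
  have h := T.green2 (fun x => md k (fun x ω => (mol ε f x ω : ℂ)) x q)
    (contDiff_infty.1 hw 2)
    (fun i => ⟨_, fun y hy => T.md_bdry hε hf hfs k q i y hy⟩)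
  simp only [dz_md_mol hε hf k q, dzb_md_mol hε hf k q] at h
  exact h

lemma dz_mul_conj {w w' : ℂ → ℂ} {x : ℂ} (hw : DifferentiableAt ℝ w x)
    (hw' : DifferentiableAt ℝ w' x) :
    dz (fun x => w x * (starRingEnd ℂ) (w' x)) x =
      dz w x * (starRingEnd ℂ) (w' x) + w x * (starRingEnd ℂ) (dzb w' x) := by
  have h1 : HasFDerivAt (fun x => (starRingEnd ℂ) (w' x))
      ((Complex.conjCLE.toContinuousLinearMap).comp (fderiv ℝ w' x)) x :=
    (Complex.conjCLE.toContinuousLinearMap).hasFDerivAt.comp x hw'.hasFDerivAt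
  have h2 : HasFDerivAt (fun x => w x * (starRingEnd ℂ) (w' x))
      (w x • (Complex.conjCLE.toContinuousLinearMap).comp (fderiv ℝ w' x) +
        (starRingEnd ℂ) (w' x) • fderiv ℝ w x) x := hw.hasFDerivAt.mul h1
  unfold dz dzb
  rw [h2.fderiv]
  simp only [add_apply, smul_apply, smul_eq_mul,
    ContinuousLinearMap.comp_apply, map_div₀, map_add, map_mul, Complex.conj_I]
  have h3 : ∀ z : ℂ, (Complex.conjCLE.toContinuousLinearMap : ℂ →L[ℝ] ℂ) z = (starRingEnd ℂ) z :=
    fun z => rfl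
  simp only [h3]
  have h4 : (starRingEnd ℂ) (2 : ℂ) = 2 := map_ofNat _ 2
  rw [h4]
  ring

/-- modes of convolutions as integrals over a product -/
lemma md_cv_prod {κ : ℂ → ℂ} (hκ : Continuous κ) (hκc : HasCompactSupport κ)
    {f : ℂ → ℂ × Ω → ℝ} (hf : Bdd f) (k : ℤ) (x : ℂ) (q : Ω) :
    md k (cv κ f) x q =
      ∫ z, (κ (x - z.2) * z.1 ^ (-k)) * (f z.2 (z.1, q) : ℂ) ∂(nu.prod volume) := by
  obtain ⟨hm, C, hC⟩ := hf
  have hκi : Integrable (fun y => κ (x - y)) :=
    (hκ.integrable_of_hasCompactSupport hκc).comp_sub_left x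
  have hint : Integrable (fun z : ℂ × ℂ =>
      (κ (x - z.2) * z.1 ^ (-k)) * (f z.2 (z.1, q) : ℂ)) (nu.prod volume) := by
    have hdom : Integrable (fun p : ℂ × ℂ => (C : ℝ) * ‖κ (x - p.2)‖) (nu.prod volume) := by
      have := (integrable_const (C : ℝ) (μ := nu)).mul_prod hκi.norm
      exact this
    refine hdom.mono' ?_ ?_
    · apply Measurable.aestronglyMeasurable
      apply Measurable.mul
      · apply Measurable.mul
        · exact hκ.measurable.comp (by fun_prop)
        · exact (measurable_zpow' k).comp measurable_fst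
      · apply Complex.measurable_ofReal.comp
        exact hm.comp (by fun_prop : Measurable fun p : ℂ × ℂ => (p.2, (p.1, q)))
    · have h1 : ∀ᵐ p ∂(nu.prod (volume : Measure ℂ)), ‖p.1 ^ (-k)‖ = 1 :=
        Measure.quasiMeasurePreserving_fst.ae (norm_zpow_ae k)
      filter_upwards [h1] with p hp
      simp only [norm_mul, Complex.norm_real, Real.norm_eq_abs]
      rw [hp, mul_one, mul_comm]
      exact mul_le_mul_of_nonneg_right (hC _ _) (norm_nonneg _)
  rw [integral_prod _ hint]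
  unfold md cv
  congr 1
  ext u
  rw [← integral_mul_const]
  congr 1
  ext y
  simp only
  ring

/-- products of modes of convolutions -/
lemma md_cv_mul {κ κ' : ℂ → ℂ} (hκ : Continuous κ) (hκc : HasCompactSupport κ)
    (hκ' : Continuous κ') (hκc' : HasCompactSupport κ')
    {f h : ℂ → ℂ × Ω → ℝ} (hf : Bdd f) (hh : Bdd h) (j j' : ℤ) (x : ℂ) :
    ∫ q, md j (cv κ f) x q * md j' (cv κ' h) x q ∂m =
      ∫ z, (κ (x - z.1.2) * z.1.1 ^ (-j)) * (κ' (x - z.2.2) * z.2.1 ^ (-j')) *
        ((∫ q, f z.1.2 (z.1.1, q) * h z.2.2 (z.2.1, q) ∂m : ℝ) : ℂ)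
        ∂((nu.prod volume).prod (nu.prod volume)) := by
  obtain ⟨hm, C, hC⟩ := hf
  obtain ⟨hm', C', hC'⟩ := hh
  have hf : Bdd f := ⟨hm, C, hC⟩
  have hh : Bdd h := ⟨hm', C', hC'⟩
  set P : Measure (ℂ × ℂ) := nu.prod volume with hP
  set a : ℂ × ℂ → ℂ := fun z => κ (x - z.2) * z.1 ^ (-j) with ha
  set a' : ℂ × ℂ → ℂ := fun z => κ' (x - z.2) * z.1 ^ (-j') with ha'
  have hai : ∀ {κ : ℂ → ℂ}, Continuous κ → HasCompactSupport κ → ∀ j : ℤ,
      Integrable (fun z : ℂ × ℂ => κ (x - z.2) * z.1 ^ (-j)) P := by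
    intro κ hκ hκc j
    have hκi : Integrable (fun y => κ (x - y)) :=
      (hκ.integrable_of_hasCompactSupport hκc).comp_sub_left x
    have hdom : Integrable (fun p : ℂ × ℂ => (1 : ℝ) * ‖κ (x - p.2)‖) P :=
      (integrable_const (1 : ℝ) (μ := nu)).mul_prod hκi.norm
    refine hdom.mono' ?_ ?_
    · apply Measurable.aestronglyMeasurable
      apply Measurable.mul
      · exact hκ.measurable.comp (by fun_prop)
      · exact (measurable_zpow' j).comp measurable_fst
    · have h1 : ∀ᵐ p ∂P, ‖p.1 ^ (-j)‖ = 1 :=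
        Measure.quasiMeasurePreserving_fst.ae (norm_zpow_ae j)
      filter_upwards [h1] with p hp
      simp only [norm_mul]
      rw [hp, mul_one, one_mul]
  have h1 : ∀ q, md j (cv κ f) x q * md j' (cv κ' h) x q =
      ∫ z, (a z.1 * (f z.1.2 (z.1.1, q) : ℂ)) * (a' z.2 * (h z.2.2 (z.2.1, q) : ℂ)) ∂(P.prod P) := by
    intro q
    rw [md_cv_prod hκ hκc hf, md_cv_prod hκ' hκc' hh]
    exact (integral_prod_mul (μ := P) (ν := P) (fun z => a z * (f z.2 (z.1, q) : ℂ))
      (fun z => a' z * (h z.2 (z.1, q) : ℂ))).symm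
  have hdom : Integrable (fun p : Ω × ((ℂ × ℂ) × (ℂ × ℂ)) =>
      (C * C') * (‖a p.2.1‖ * ‖a' p.2.2‖)) (m.prod (P.prod P)) := by
    have e1 := (hai hκ hκc j).norm.mul_prod (hai hκ' hκc' j').norm
    exact (integrable_const (C * C') (μ := m)).mul_prod e1
  have hint : Integrable (Function.uncurry fun (q : Ω) (z : (ℂ × ℂ) × (ℂ × ℂ)) =>
      (a z.1 * (f z.1.2 (z.1.1, q) : ℂ)) * (a' z.2 * (h z.2.2 (z.2.1, q) : ℂ)))
      (m.prod (P.prod P)) := by
    refine hdom.mono' ?_ ?_
    · apply Measurable.aestronglyMeasurable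
      have m1 : Measurable a := by
        apply Measurable.mul
        · exact hκ.measurable.comp (by fun_prop)
        · exact (measurable_zpow' j).comp measurable_fst
      have m2 : Measurable a' := by
        apply Measurable.mul
        · exact hκ'.measurable.comp (by fun_prop)
        · exact (measurable_zpow' j').comp measurable_fst
      apply Measurable.mul
      · apply Measurable.mul
        · exact m1.comp (by fun_prop)
        · apply Complex.measurable_ofReal.comp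
          exact hm.comp (by fun_prop : Measurable fun p : Ω × ((ℂ × ℂ) × (ℂ × ℂ)) =>
            (p.2.1.2, (p.2.1.1, p.1)))
      · apply Measurable.mul
        · exact m2.comp (by fun_prop)
        · apply Complex.measurable_ofReal.comp
          exact hm'.comp (by fun_prop : Measurable fun p : Ω × ((ℂ × ℂ) × (ℂ × ℂ)) =>
            (p.2.2.2, (p.2.2.1, p.1)))
    · refine Eventually.of_forall fun p => ?_
      simp only [Function.uncurry, norm_mul, Complex.norm_real, Real.norm_eq_abs]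
      have b1 := hC p.2.1.2 (p.2.1.1, p.1)
      have b2 := hC' p.2.2.2 (p.2.2.1, p.1)
      have hC0 : 0 ≤ C := (abs_nonneg _).trans b1
      calc ‖a p.2.1‖ * |f p.2.1.2 (p.2.1.1, p.1)| * (‖a' p.2.2‖ * |h p.2.2.2 (p.2.2.1, p.1)|)
          = (|f p.2.1.2 (p.2.1.1, p.1)| * |h p.2.2.2 (p.2.2.1, p.1)|) *
            (‖a p.2.1‖ * ‖a' p.2.2‖) := by ring
        _ ≤ (C * C') * (‖a p.2.1‖ * ‖a' p.2.2‖) := by
            apply mul_le_mul_of_nonneg_right _ (by (clear * -; positivity))
            exact mul_le_mul b1 b2 (abs_nonneg _) hC0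
  calc ∫ q, md j (cv κ f) x q * md j' (cv κ' h) x q ∂m
      = ∫ q, (∫ z, (a z.1 * (f z.1.2 (z.1.1, q) : ℂ)) *
          (a' z.2 * (h z.2.2 (z.2.1, q) : ℂ)) ∂(P.prod P)) ∂m := by
        congr 1
        ext q
        exact h1 q
    _ = ∫ z, (∫ q, (a z.1 * (f z.1.2 (z.1.1, q) : ℂ)) *
          (a' z.2 * (h z.2.2 (z.2.1, q) : ℂ)) ∂m) ∂(P.prod P) := integral_integral_swap hint
    _ = _ := by
        congr 1
        ext z
        rw [← integral_complex_ofReal, ← integral_const_mul]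
        congr 1
        ext q
        push_cast
        ring

lemma skew_md {κ κ' : ℂ → ℂ} (hκ : Continuous κ) (hκc : HasCompactSupport κ)
    (hκ' : Continuous κ') (hκc' : HasCompactSupport κ')
    {f h : ℂ → ℂ × Ω → ℝ} (hf : Bdd f) (hh : Bdd h)
    (hskew : ∀ y y' u u', ∫ q, h y (u, q) * f y' (u', q) ∂m =
      - ∫ q, f y (u, q) * h y' (u', q) ∂m) (j j' : ℤ) (x : ℂ) :
    ∫ q, md j (cv κ f) x q * md j' (cv κ' h) x q ∂m =
      - ∫ q, md j (cv κ h) x q * md j' (cv κ' f) x q ∂m := by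
  rw [md_cv_mul m hκ hκc hκ' hκc' hf hh, md_cv_mul m hκ hκc hκ' hκc' hh hf, ← integral_neg]
  congr 1
  ext z
  rw [hskew]
  push_cast
  ring

end identities

/-! ### the final assembly -/

section final

variable (T : Triangle) (m : Measure Ω) [IsProbabilityMeasure m]

lemma re_conj_mul_swap (a b : ℂ) : ((starRingEnd ℂ) a * b).re = (a * (starRingEnd ℂ) b).re := by
  simp [Complex.mul_re]

lemma re_integral_lm {F : ℂ → Ω → ℂ} (hF : BMq F) :
    (∫ p, F p.1 p.2 ∂(lm T m)).re = ∫ p, (F p.1 p.2).re ∂(lm T m) :=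
  (Complex.reCLM.integral_comp_comm (hF.integrable T m)).symm

lemma re_inner_cls {F G : ℂ → Ω → ℂ} (hF : BMq F) (hG : BMq G) :
    (inner ℂ (cls T m hF) (cls T m hG)).re =
      (∫ p, F p.1 p.2 * (starRingEnd ℂ) (G p.1 p.2) ∂(lm T m)).re := by
  rw [inner_cls, re_integral_lm T m (hF.conj.mul hG), re_integral_lm T m (hF.mul hG.conj)]
  congr 1
  ext p
  exact re_conj_mul_swap _ _

lemma skew_id {ε : ℝ} (hε : 0 < ε) {f h : ℂ → ℂ × Ω → ℝ} (hf : Bdd f) (hh : Bdd h)
    (hfs : T.Sym ε f) (hhs : T.Sym ε h)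
    (hskew : ∀ y y' u u', ∫ q, h y (u, q) * f y' (u', q) ∂m =
      - ∫ q, f y (u, q) * h y' (u', q) ∂m) (k : ℤ) :
    (inner ℂ (cls T m (bm_md (bm_grd hε hf) (k - 1))) (cls T m (bm_md (bm_mol hε hh) k))).re =
      (inner ℂ (cls T m (bm_md (bm_mol hε hh) (k - 1)))
        (cls T m (bm_md (bm_cgrd hε hf) k))).re := by
  rw [re_inner_cls, re_inner_cls]
  -- the three functions
  have hT1 : BMq (fun x q => md (k - 1) (grd ε f) x q *
      (starRingEnd ℂ) (md k (fun x ω => (mol ε h x ω : ℂ)) x q)) :=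
    (bm_md (bm_grd hε hf) (k - 1)).mul (bm_md (bm_mol hε hh) k).conj
  have hT2 : BMq (fun x q => md (k - 1) (fun x ω => (mol ε f x ω : ℂ)) x q *
      (starRingEnd ℂ) (md k (fun x ω => (starRingEnd ℂ) (grd ε h x ω)) x q)) :=
    (bm_md (bm_mol hε hf) (k - 1)).mul (bm_md (bm_cgrd hε hh) k).conj
  have hT3 : BMq (fun x q => md (k - 1) (fun x ω => (mol ε h x ω : ℂ)) x q *
      (starRingEnd ℂ) (md k (fun x ω => (starRingEnd ℂ) (grd ε f x ω)) x q)) :=
    (bm_md (bm_mol hε hh) (k - 1)).mul (bm_md (bm_cgrd hε hf) k).conj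
  -- Green's formula
  have hgreen : ∀ q, (∫ x in T.table, (md (k - 1) (grd ε f) x q *
      (starRingEnd ℂ) (md k (fun x ω => (mol ε h x ω : ℂ)) x q) +
      md (k - 1) (fun x ω => (mol ε f x ω : ℂ)) x q *
      (starRingEnd ℂ) (md k (fun x ω => (starRingEnd ℂ) (grd ε h x ω)) x q))).re = 0 := by
    intro q
    have hw := md_mol_contDiff hε hf (k - 1) q
    have hw' := md_mol_contDiff hε hh k q
    have hcd : ContDiff ℝ 1 (fun x => md (k - 1) (fun x ω => (mol ε f x ω : ℂ)) x q *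
        (starRingEnd ℂ) (md k (fun x ω => (mol ε h x ω : ℂ)) x q)) := by
      apply ContDiff.mul (contDiff_infty.1 hw 1)
      exact (Complex.conjCLE.toContinuousLinearMap).contDiff.comp (contDiff_infty.1 hw' 1)
    have hgr := T.green1 _ hcd (by
      intro i y hy
      have b1 := T.md_bdry hε hf hfs (k - 1) q i y hy
      have b2 := T.md_bdry hε hh hhs k q i y hy
      set c : ℂ := T.d i / (starRingEnd ℂ) (T.d i) with hc
      have hd : T.d i ≠ 0 := T.d_ne i
      have hd' : (starRingEnd ℂ) (T.d i) ≠ 0 := by simpa using hd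
      have hc0 : c ≠ 0 := div_ne_zero hd hd'
      have hcc : (starRingEnd ℂ) c = c⁻¹ := by
        rw [hc, map_div₀, Complex.conj_conj, inv_div]
      have b3 : (starRingEnd ℂ) (md k (fun x ω => (mol ε h x ω : ℂ)) y q) =
          c ^ k * md k (fun x ω => (mol ε h x ω : ℂ)) y q := by
        conv_lhs => rw [b2]
        rw [map_mul, map_zpow₀, hcc, Complex.conj_conj, inv_zpow', neg_neg]
      rw [map_mul, Complex.conj_conj]
      conv_lhs => rw [b1, b3]
      have e1 : c ^ (-(k - 1)) * c ^ k = c := by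
        rw [← zpow_add₀ hc0]
        have : -(k - 1) + k = 1 := by ring
        rw [this, zpow_one]
      calc c ^ (-(k - 1)) * (starRingEnd ℂ) (md (k - 1) (fun x ω => (mol ε f x ω : ℂ)) y q) *
            (c ^ k * md k (fun x ω => (mol ε h x ω : ℂ)) y q)
          = (c ^ (-(k - 1)) * c ^ k) *
            ((starRingEnd ℂ) (md (k - 1) (fun x ω => (mol ε f x ω : ℂ)) y q) *
              md k (fun x ω => (mol ε h x ω : ℂ)) y q) := by ring
        _ = _ := by rw [e1])
    have hdz : ∀ x, dz (fun x => md (k - 1) (fun x ω => (mol ε f x ω : ℂ)) x q *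
        (starRingEnd ℂ) (md k (fun x ω => (mol ε h x ω : ℂ)) x q)) x =
        md (k - 1) (grd ε f) x q *
      (starRingEnd ℂ) (md k (fun x ω => (mol ε h x ω : ℂ)) x q) +
      md (k - 1) (fun x ω => (mol ε f x ω : ℂ)) x q *
      (starRingEnd ℂ) (md k (fun x ω => (starRingEnd ℂ) (grd ε h x ω)) x q) := by
      intro x
      rw [dz_mul_conj ((contDiff_infty.1 hw 1).differentiable one_ne_zero x)
        ((contDiff_infty.1 hw' 1).differentiable one_ne_zero x),
        dz_md_mol hε hf (k - 1) q x, dzb_md_mol hε hh k q x]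
    simp only [hdz] at hgr
    exact hgr
  have h12 : (∫ p, (md (k - 1) (grd ε f) p.1 p.2 *
      (starRingEnd ℂ) (md k (fun x ω => (mol ε h x ω : ℂ)) p.1 p.2) +
      md (k - 1) (fun x ω => (mol ε f x ω : ℂ)) p.1 p.2 *
      (starRingEnd ℂ) (md k (fun x ω => (starRingEnd ℂ) (grd ε h x ω)) p.1 p.2))
        ∂(lm T m)).re = 0 := by
    have hT12 := hT1.add hT2
    have hint := hT12.integrable T m
    have h0 := congrArg Complex.re (integral_prod_symm _ hint)
    have h1 : (∫ q, (∫ x in T.table, (md (k - 1) (grd ε f) x q *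
      (starRingEnd ℂ) (md k (fun x ω => (mol ε h x ω : ℂ)) x q) +
      md (k - 1) (fun x ω => (mol ε f x ω : ℂ)) x q *
      (starRingEnd ℂ) (md k (fun x ω => (starRingEnd ℂ) (grd ε h x ω)) x q))) ∂m).re =
      ∫ q, (∫ x in T.table, (md (k - 1) (grd ε f) x q *
      (starRingEnd ℂ) (md k (fun x ω => (mol ε h x ω : ℂ)) x q) +
      md (k - 1) (fun x ω => (mol ε f x ω : ℂ)) x q *
      (starRingEnd ℂ) (md k (fun x ω => (starRingEnd ℂ) (grd ε h x ω)) x q))).re ∂m :=
      (Complex.reCLM.integral_comp_comm hint.integral_prod_right).symm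
    refine h0.trans (h1.trans ?_)
    simp only [hgreen, integral_zero]
  have h3 : ∫ p, md (k - 1) (fun x ω => (mol ε f x ω : ℂ)) p.1 p.2 *
      (starRingEnd ℂ) (md k (fun x ω => (starRingEnd ℂ) (grd ε h x ω)) p.1 p.2) ∂(lm T m) =
      - ∫ p, md (k - 1) (fun x ω => (mol ε h x ω : ℂ)) p.1 p.2 *
      (starRingEnd ℂ) (md k (fun x ω => (starRingEnd ℂ) (grd ε f x ω)) p.1 p.2) ∂(lm T m) := by
    have e2 := integral_prod _ (hT2.integrable T m)
    have e3 := integral_prod _ (hT3.integrable T m)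
    rw [show (∫ p, md (k - 1) (fun x ω => (mol ε f x ω : ℂ)) p.1 p.2 *
      (starRingEnd ℂ) (md k (fun x ω => (starRingEnd ℂ) (grd ε h x ω)) p.1 p.2) ∂(lm T m)) = _
      from e2, show (∫ p, md (k - 1) (fun x ω => (mol ε h x ω : ℂ)) p.1 p.2 *
      (starRingEnd ℂ) (md k (fun x ω => (starRingEnd ℂ) (grd ε f x ω)) p.1 p.2) ∂(lm T m)) = _
      from e3, ← integral_neg]
    congr 1
    ext x
    have hs := skew_md m (continuous_rhoC ε) (hcs_rhoC hε) (continuous_kap ε) (hcs_kap hε)
      hf hh hskew (k - 1) (-k) x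
    have c1 : ∀ (f' : ℂ → ℂ × Ω → ℝ) q,
        (starRingEnd ℂ) (md k (fun x ω => (starRingEnd ℂ) (grd ε f' x ω)) x q) =
        md (-k) (cv (kap ε) f') x q := by
      intro f' q
      rw [conj_md]
      simp only [Complex.conj_conj]
      rfl
    simp only [c1, mol_eq_cv]
    exact hs
  rw [integral_add (hT1.integrable T m) (hT2.integrable T m), Complex.add_re, h3,
    Complex.neg_re] at h12
  linarith only [h12]

lemma md_congr {F G : ℂ → ℂ × Ω → ℂ} (k : ℤ) (x : ℂ) (q : Ω)
    (h : ∀ᵐ u ∂nu, F x (u, q) = G x (u, q)) : md k F x q = md k G x q := by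
  unfold md
  apply integral_congr_ae
  filter_upwards [h] with u hu
  rw [hu]

lemma BM.integrable_md {F : ℂ → ℂ × Ω → ℂ} (hF : BM F) (k : ℤ) (x : ℂ) (q : Ω) :
    Integrable (fun u => F x (u, q) * u ^ (-k)) nu := by
  have hm := hF.meas_u x q
  obtain ⟨_, C, hC⟩ := hF
  refine Integrable.of_bound (hm.mul (measurable_zpow' k)).aestronglyMeasurable C ?_
  filter_upwards [norm_zpow_ae k] with u hu
  rw [norm_mul, hu, mul_one]
  exact hC _ _

/-- the truncated error function -/
noncomputable def gt (ε : ℝ) (f h : ℂ → ℂ × Ω → ℝ) (x : ℂ) (ω : ℂ × Ω) : ℂ :=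
  ({u : ℂ | ‖u‖ = 1}.indicator (fun _ => (1 : ℂ)) ω.1) *
    (ω.1 * grd ε f x ω + (starRingEnd ℂ) ω.1 * (starRingEnd ℂ) (grd ε f x ω) - (mol ε h x ω : ℂ))

lemma gt_eq (ε : ℝ) (f h : ℂ → ℂ × Ω → ℝ) (x : ℂ) (ω : ℂ × Ω) (hω : ‖ω.1‖ = 1) :
    gt ε f h x ω = ((Xd ε f x ω - mol ε h x ω : ℝ) : ℂ) := by
  unfold gt Xd
  rw [indicator_of_mem (by exact hω), one_mul, ← map_mul, Complex.add_conj]
  push_cast
  ring

lemma bm_gt {ε : ℝ} (hε : 0 < ε) {f h : ℂ → ℂ × Ω → ℝ} (hf : Bdd f) (hh : Bdd h) :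
    BM (gt ε f h) := by
  obtain ⟨m1, C1, h1⟩ := bm_grd hε hf
  obtain ⟨m2, C2, h2⟩ := bm_mol hε hh
  have hS : MeasurableSet {u : ℂ | ‖u‖ = 1} := measurableSet_eq_fun measurable_norm measurable_const
  refine ⟨?_, C1 + C1 + C2, ?_⟩
  · have m3 : Measurable (fun p : ℂ × (ℂ × Ω) => p.2.1) := by fun_prop
    have m4 : Measurable (fun p : ℂ × (ℂ × Ω) =>
        ({u : ℂ | ‖u‖ = 1}.indicator (fun _ => (1 : ℂ)) p.2.1)) :=
      (measurable_const.indicator hS).comp m3
    exact m4.mul (((m3.mul m1).add ((Complex.continuous_conj.measurable.comp m3).mul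
      (Complex.continuous_conj.measurable.comp m1))).sub m2)
  · intro x ω
    unfold gt
    by_cases hω : ‖ω.1‖ = 1
    · rw [indicator_of_mem (by exact hω), one_mul]
      refine (norm_sub_le _ _).trans (add_le_add ((norm_add_le _ _).trans (add_le_add ?_ ?_)) ?_)
      · rw [norm_mul, hω, one_mul]; exact h1 x ω
      · rw [norm_mul, RCLike.norm_conj, RCLike.norm_conj, hω, one_mul]; exact h1 x ω
      · exact h2 x ω
    · rw [indicator_of_notMem (by exact hω), zero_mul, norm_zero]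
      have a1 := (norm_nonneg _).trans (h1 x ω)
      have a2 := (norm_nonneg _).trans (h2 x ω)
      linarith

lemma md_gt {ε : ℝ} (hε : 0 < ε) {f h : ℂ → ℂ × Ω → ℝ} (hf : Bdd f) (hh : Bdd h)
    (k : ℤ) (x : ℂ) (q : Ω) :
    md (k - 1) (grd ε f) x q + md (k + 1) (fun x ω => (starRingEnd ℂ) (grd ε f x ω)) x q =
      md k (fun x ω => (mol ε h x ω : ℂ)) x q + md k (gt ε f h) x q := by
  unfold md
  rw [← integral_add ((bm_grd hε hf).integrable_md (k - 1) x q)
    ((bm_cgrd hε hf).integrable_md (k + 1) x q),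
    ← integral_add ((bm_mol hε hh).integrable_md k x q) ((bm_gt hε hf hh).integrable_md k x q)]
  apply integral_congr_ae
  filter_upwards [ae_norm] with u hu
  have hu0 : u ≠ 0 := by
    intro h
    rw [h, norm_zero] at hu
    exact zero_ne_one hu
  have hconj : (starRingEnd ℂ) u = u⁻¹ := by
    rw [Complex.inv_def, Complex.normSq_eq_norm_sq, hu]
    simp
  have e1 : u ^ (-(k - 1)) = u * u ^ (-k) := by
    rw [show -(k - 1) = 1 + -k by ring, zpow_add₀ hu0, zpow_one]
  have e2 : u ^ (-(k + 1)) = u⁻¹ * u ^ (-k) := by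
    rw [show -(k + 1) = -1 + -k by ring, zpow_add₀ hu0, zpow_neg_one]
  unfold gt
  rw [indicator_of_mem (by exact hu), one_mul, hconj, e1, e2]
  ring

lemma nrm_gt {ε : ℝ} {f h : ℂ → ℂ × Ω → ℝ} :
    T.nrm m (gt ε f h) = T.nrm m (fun x ω => ((Xd ε f x ω - mol ε h x ω : ℝ) : ℂ)) := by
  unfold Triangle.nrm
  congr 1
  ext x
  apply integral_congr_ae
  have h1 : ∀ᵐ ω ∂(nu.prod m), ‖ω.1‖ = 1 := Measure.quasiMeasurePreserving_fst.ae ae_norm
  filter_upwards [h1] with ω hω
  rw [gt_eq ε f h x ω hω]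

end final

namespace Triangle

variable (T : Triangle) (m : Measure Ω)

/-- The energy estimate. -/
theorem energy [IsProbabilityMeasure m] {ε : ℝ} (hε : 0 < ε) (f h : ℂ → ℂ × Ω → ℝ)
    (hf : BddSupp f) (hh : BddSupp h) (hfs : T.Sym ε f) (hhs : T.Sym ε h)
    (hskew : ∀ y y' u u', ∫ q, h y (u, q) * f y' (u', q) ∂m =
      - ∫ q, f y (u, q) * h y' (u', q) ∂m)
    (a v e : ℝ) (ha : 0 ≤ a) (hv : 0 ≤ v) (he : 0 ≤ e)
    (hA : T.nrm m (grd ε f) ≤ a ^ 2)
    (hV : T.nrm m (fun x ω => (mol ε h x ω : ℂ)) ≤ v ^ 2)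
    (hE : T.nrm m (fun x ω => ((Xd ε f x ω - mol ε h x ω : ℝ) : ℂ)) ≤ e ^ 2)
    (k : ℤ) (n : ℕ) (hn : |k| ≤ n) :
    T.nrmq m (fun x q => md (k - 1) (grd ε f) x q -
        md (k + 1) (fun x ω => (starRingEnd ℂ) (grd ε f x ω)) x q) ≤
      T.nrmq m (md (n + 1) (fun x ω => (mol ε h x ω : ℂ))) +
      T.nrmq m (md (-n - 1) (fun x ω => (mol ε h x ω : ℂ))) +
      100 * (n + 1) * (e * a + e * v + e ^ 2) := by
  have hf := hf.1
  have hh := hh.1
  have hres := hilbert_energy
    (fun k => cls T m (bm_md (bm_grd hε hf) k))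
    (fun k => cls T m (bm_md (bm_cgrd hε hf) k))
    (fun k => cls T m (bm_md (bm_mol hε hh) k))
    (fun k => cls T m (bm_md (bm_gt hε hf hh) k))
    (by
      intro k
      have h1 := nrmq_grd_eq T m hε hf hfs k
      rw [← norm_cls_sq T m (bm_md (bm_grd hε hf) k),
        ← norm_cls_sq T m (bm_md (bm_cgrd hε hf) k)] at h1
      exact (pow_left_inj₀ (norm_nonneg _) (norm_nonneg _) two_ne_zero).1 h1)
    (by
      intro k
      rw [← cls_add, ← cls_add]
      apply cls_congr
      intro x q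
      exact md_gt hε hf hh k x q)
    (fun k => skew_id T m hε hf hh hfs hhs hskew k)
    a v e ha hv he
    (fun s => by
      simp only [norm_cls_sq]
      exact (bessel_md T m (bm_grd hε hf) s).trans hA)
    (fun s => by
      simp only [norm_cls_sq]
      exact (bessel_md T m (bm_mol hε hh) s).trans hV)
    (fun s => by
      simp only [norm_cls_sq]
      refine (bessel_md T m (bm_gt hε hf hh) s).trans ?_
      rw [nrm_gt]
      exact hE)
    k n hn
  simp only [← cls_sub, norm_cls_sq] at hres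
  exact hres

end Triangle

end Vale.Agent.P099
end
end

section

section

open MeasureTheory Set Filter Topology

namespace Vale.Agent.P099

/-- anisotropic length of the vector `v` with respect to the direction `u` -/
noncomputable def an (η : ℝ) (u v : ℂ) : ℝ := |cr v u| / η + η * |dt v u|

lemma an_nonneg {η : ℝ} (hη : 0 < η) (u v : ℂ) : 0 ≤ an η u v := by
  unfold an
  positivity

lemma an_add_le {η : ℝ} (hη : 0 < η) (u v w : ℂ) : an η u (v + w) ≤ an η u v + an η u w := by
  have h1 : cr (v + w) u = cr v u + cr w u := by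
    simp only [cr, Complex.add_re, Complex.add_im]; ring
  have h2 : dt (v + w) u = dt v u + dt w u := by
    simp only [dt, Complex.add_re, Complex.add_im]; ring
  unfold an
  rw [h1, h2]
  have h3 := abs_add_le (cr v u) (cr w u)
  have h4 := abs_add_le (dt v u) (dt w u)
  have h5 : |cr v u + cr w u| / η ≤ |cr v u| / η + |cr w u| / η := by
    rw [← add_div]
    (clear * - h3 hη; gcongr)
  linarith only [mul_nonneg (le_of_lt (sub_pos.2 hη)) (sub_nonneg.2 h4), h5]

lemma an_smul (η : ℝ) (u v : ℂ) (t : ℝ) : an η u (t • v) = |t| * an η u v := by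
  have h1 : cr (t • v) u = t * cr v u := by
    simp only [cr, Complex.real_smul, Complex.re_ofReal_mul, Complex.im_ofReal_mul]; ring
  have h2 : dt (t • v) u = t * dt v u := by
    simp only [dt, Complex.real_smul, Complex.re_ofReal_mul, Complex.im_ofReal_mul]; ring
  unfold an
  rw [h1, h2, abs_mul, abs_mul]
  ring

lemma an_neg (η : ℝ) (u v : ℂ) : an η u (-v) = an η u v := by
  have h := an_smul η u v (-1)
  simpa using h

lemma abs_cr_le {u : ℂ} (hu : ‖u‖ = 1) (v : ℂ) : |cr v u| ≤ ‖v‖ := by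
  rw [Triangle.cr_eq_im]
  calc |((starRingEnd ℂ) v * u).im| ≤ ‖(starRingEnd ℂ) v * u‖ := Complex.abs_im_le_norm _
    _ = ‖v‖ := by rw [norm_mul, hu, mul_one, RCLike.norm_conj]

lemma abs_dt_le {u : ℂ} (hu : ‖u‖ = 1) (v : ℂ) : |dt v u| ≤ ‖v‖ := by
  rw [Triangle.dt_eq_re]
  calc |((starRingEnd ℂ) v * u).re| ≤ ‖(starRingEnd ℂ) v * u‖ := Complex.abs_re_le_norm _
    _ = ‖v‖ := by rw [norm_mul, hu, mul_one, RCLike.norm_conj]

lemma an_le {η : ℝ} (hη : 0 < η) {u : ℂ} (hu : ‖u‖ = 1) (v : ℂ) :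
    an η u v ≤ ‖v‖ / η + η * ‖v‖ := by
  unfold an
  have h1 := abs_cr_le hu v
  have h2 := abs_dt_le hu v
  gcongr

/-- motion along the direction -/
lemma an_self {η : ℝ} {u : ℂ} (hu : ‖u‖ = 1) (t : ℝ) : an η u (t • u) = η * |t| := by
  rw [an_smul]
  have h1 : cr u u = 0 := by unfold cr; ring
  have h2 : dt u u = 1 := by
    rw [Triangle.dt_eq_re, ← Complex.normSq_eq_conj_mul_self, Complex.normSq_eq_norm_sq, hu]
    simp
  unfold an
  rw [h1, h2]
  simp only [abs_zero, zero_div, abs_one, mul_one, zero_add]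
  ring

lemma an_sub_comm (η : ℝ) (u v w : ℂ) : an η u (v - w) = an η u (w - v) := by
  rw [← an_neg, neg_sub]

lemma an_tri {η : ℝ} (hη : 0 < η) (u a b c : ℂ) :
    an η u (a - c) ≤ an η u (a - b) + an η u (b - c) := by
  have h := an_add_le hη u (a - b) (b - c)
  rwa [sub_add_sub_cancel] at h

namespace Triangle

variable (T : Triangle)

lemma an_refl (η : ℝ) (i : Fin 3) (u v : ℂ) : an η (T.refl i u) (T.refl i v) = an η u v := by
  unfold an
  rw [cr_refl, dt_refl, abs_neg]

lemma an_R (η : ℝ) (i : Fin 3) (u x y : ℂ) :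
    an η (T.refl i u) (T.R i x - T.R i y) = an η u (x - y) := by
  have h : T.R i x - T.R i y = T.refl i (x - y) := by
    have := T.R_add i y (x - y)
    rw [add_sub_cancel] at this
    rw [this]
    ring
  rw [h, an_refl]

/-- the segment from `x` to `z` leaves the table through the open side `i` -/
def Cross (i : Fin 3) (x z : ℂ) : Prop :=
  T.lam i z < 0 ∧ ∀ j, j ≠ i → 0 < T.lam i x * T.lam j z - T.lam j x * T.lam i z

/-- `z` is an (unfolded) vertex which is visible from `x` after unfolding along the word -/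
def Vis : List (Fin 3) → ℂ → ℂ → Prop
  | [], _, z => ∃ k, z = T.P k
  | i :: w, x, z => T.Cross i x z ∧ Vis w (T.R i x) (T.R i z)

/-- the anisotropic distance to the visible vertices -/
noncomputable def D (η : ℝ) (s : ℂ × ℂ) : ℝ :=
  sInf {r : ℝ | ∃ w z, T.Vis w s.1 z ∧ r = an η s.2 (z - s.1)}

lemma vis_nil (x z : ℂ) : T.Vis [] x z ↔ ∃ k, z = T.P k := Iff.rfl

lemma vis_cons (i : Fin 3) (w : List (Fin 3)) (x z : ℂ) :
    T.Vis (i :: w) x z ↔ T.Cross i x z ∧ T.Vis w (T.R i x) (T.R i z) := Iff.rfl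

/-! ### the bilinear forms -/

/-- the cross condition in barycentric coordinates -/
noncomputable def bb (i j : Fin 3) (x z : ℂ) : ℝ := T.lam i x * T.lam j z - T.lam j x * T.lam i z

lemma lam_seg (j : Fin 3) (x y : ℂ) (s : ℝ) :
    T.lam j (x + s • (y - x)) = (1 - s) * T.lam j x + s * T.lam j y := by
  have h1 := T.lam_add_smul j x (y - x) s
  have h2 := T.lam_add j x (y - x)
  rw [add_sub_cancel] at h2
  rw [h1, h2]
  ring

lemma R_seg (i : Fin 3) (x y : ℂ) (s : ℝ) :
    T.R i (x + s • (y - x)) = T.R i x + s • (T.R i y - T.R i x) := by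
  have h1 := T.R_add i x (s • (y - x))
  have h2 := T.R_add i x (y - x)
  rw [add_sub_cancel] at h2
  rw [h1, h2, T.refl_smul]
  simp

lemma lam_R_ne (i j : Fin 3) : ∃ κ : ℝ, ∀ x, T.lam j (T.R i x) = T.lam j x + κ * T.lam i x := by
  refine ⟨T.ell j (T.refl i (T.P i - T.P (i + 1))) - T.ell j (T.P i - T.P (i + 1)), fun x => ?_⟩
  have e1 : i + 1 + 1 = i + 2 := by revert i; decide
  have e2 : i + 1 + 2 = i := by revert i; decide
  have h1 := T.sub_P_eq (i + 1) x
  rw [e1, e2] at h1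
  have h2 : x = T.P (i + 1) + (x - T.P (i + 1)) := by ring
  have h3 : T.lam j x = T.lam j (T.P (i + 1)) + T.ell j (x - T.P (i + 1)) := by
    conv_lhs => rw [h2]
    rw [T.lam_add]
  have h4 : T.R i x = T.P (i + 1) + T.refl i (x - T.P (i + 1)) := rfl
  have h5 : T.lam j (T.R i x) = T.lam j (T.P (i + 1)) + T.ell j (T.refl i (x - T.P (i + 1))) := by
    rw [h4, T.lam_add]
  rw [h5, h3, h1, T.refl_add, T.refl_smul, T.refl_smul, T.ell_add, T.ell_add, T.ell_smul,
    T.ell_smul, T.ell_smul, T.ell_smul]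
  have h6 : T.refl i (T.P (i + 2) - T.P (i + 1)) = T.P (i + 2) - T.P (i + 1) := T.refl_d i
  rw [h6]
  ring

lemma bb_R (i j : Fin 3) (x z : ℂ) : T.bb i j (T.R i x) (T.R i z) = - T.bb i j x z := by
  obtain ⟨κ, hκ⟩ := T.lam_R_ne i j
  simp only [bb, hκ, T.lam_R]
  ring

lemma bb_swap (i j : Fin 3) (x z : ℂ) : T.bb i j x z = - T.bb j i x z := by
  simp only [bb]; ring

lemma bb_seg_left (i j : Fin 3) (x y z : ℂ) (s : ℝ) :
    T.bb i j (x + s • (y - x)) z = (1 - s) * T.bb i j x z + s * T.bb i j y z := by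
  simp only [bb, lam_seg]; ring

lemma bb_seg_self (i j : Fin 3) (x z : ℂ) (s : ℝ) :
    T.bb i j x (x + s • (z - x)) = s * T.bb i j x z := by
  simp only [bb, lam_seg]; ring

lemma cross_iff (i : Fin 3) (x z : ℂ) :
    T.Cross i x z ↔ T.lam i z < 0 ∧ ∀ j, j ≠ i → 0 < T.bb i j x z := Iff.rfl

lemma eq_of_lam {x y : ℂ} (h : ∀ m, T.lam m x = T.lam m y) : x = y := by
  rw [T.eq_sum_lam x, T.eq_sum_lam y, h 0, h 1, h 2]

/-- the third index -/
lemma third_cases {i j : Fin 3} (h : j ≠ i) : ∃ k, k ≠ i ∧ k ≠ j ∧ ∀ m, m = i ∨ m = j ∨ m = k := by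
  revert i j; decide

lemma exists_ne (i : Fin 3) : ∃ j, j ≠ i := by revert i; decide

/-- positivity of the next coordinate -/
lemma pos_next {i m : Fin 3} {x z : ℂ} (hx : 0 ≤ T.lam i x) (hz : T.lam i z < 0)
    (hb : ∀ j, j ≠ i → 0 ≤ T.bb i j x z) (hm : T.lam m (T.R i z) < 0) :
    0 ≤ T.lam m (T.R i x) := by
  have hmi : m ≠ i := by
    rintro rfl
    rw [T.lam_R] at hm
    linarith
  have h1 := T.bb_R i m x z
  have h2 := hb m hmi
  simp only [bb] at h1 h2
  rw [T.lam_R, T.lam_R] at h1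
  by_contra h3
  push Not at h3
  linarith only [mul_pos (sub_pos.2 h3) (sub_pos.2 hz), mul_nonneg (sub_nonneg.2 hx) (le_of_lt (sub_pos.2 hm)), h2, h1]

/-- the crossing condition is inherited by targets on the segment -/
lemma cross_of_seg {i : Fin 3} {x z : ℂ} {c : ℝ} {w : List (Fin 3)} (hx : 0 ≤ T.lam i x)
    (h : T.Cross i x z) (hc : 0 ≤ c) (hw : T.Vis w (T.R i x) (T.R i (x + c • (z - x))))
    (hh : ∀ m, w.head? = some m → T.lam m (T.R i z) < 0) :
    T.Cross i x (x + c • (z - x)) := by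
  set z' := x + c • (z - x) with hz'
  have hbb : ∀ j, T.bb i j x z' = c * T.bb i j x z := fun j => T.bb_seg_self i j x z c
  obtain ⟨hz, hb⟩ := (T.cross_iff i x z).1 h
  cases w with
  | nil =>
    obtain ⟨k, hk⟩ := hw
    have hk' : z' = T.R i (T.P k) := by rw [← hk, T.R_R]
    by_cases hki : k = i
    · subst hki
      have h1 : T.lam k z' = -1 := by
        rw [hk', T.lam_R, T.lam_P]; simp
      have hc0 : c ≠ 0 := by
        rintro rfl
        have : z' = x := by rw [hz']; simp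
        rw [this] at h1
        linarith
      have hcpos : 0 < c := lt_of_le_of_ne hc (Ne.symm hc0)
      refine (T.cross_iff _ _ _).2 ⟨by rw [h1]; norm_num, fun j hj => ?_⟩
      rw [hbb]
      exact mul_pos hcpos (hb j hj)
    · exfalso
      have h0 : T.lam i (T.P k) = 0 := by rw [T.lam_P, if_neg (Ne.symm hki)]
      have h1 : z' = T.P k := by rw [hk', T.R_of_lam_eq_zero h0]
      obtain ⟨j, hji, hjk, -⟩ := third_cases hki
      have h2 : T.lam j z' = 0 := by rw [h1, T.lam_P, if_neg hjk]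
      have h3 : T.lam i z' = 0 := by rw [h1, h0]
      have h4 := hbb j
      simp only [bb] at h4
      rw [h2, h3] at h4
      have h5 := hb j hji
      simp only [bb] at h5
      have hc0 : c = 0 := by
        by_contra hc0
        have : 0 < c * (T.lam i x * T.lam j z - T.lam j x * T.lam i z) :=
          mul_pos (lt_of_le_of_ne hc (Ne.symm hc0)) h5
        linarith only [h4, this]
      have h6 : z' = x := by rw [hz', hc0]; simp
      rw [← h6, h3, h2] at h5
      simp at h5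
  | cons m w' =>
    obtain ⟨hcm, -⟩ := hw
    obtain ⟨hm1, hm2⟩ := (T.cross_iff _ _ _).1 hcm
    have hmz : T.lam m (T.R i z) < 0 := hh m rfl
    have hmi : m ≠ i := by
      rintro rfl
      rw [T.lam_R] at hmz
      linarith
    have hc0 : c ≠ 0 := by
      rintro rfl
      have h1 : z' = x := by rw [hz']; simp
      obtain ⟨j, hj⟩ := exists_ne m
      have h2 := hm2 j hj
      rw [h1] at h2
      simp only [bb] at h2
      linarith only [h2]
    have hcpos : 0 < c := lt_of_le_of_ne hc (Ne.symm hc0)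
    have hX : 0 ≤ T.lam m (T.R i x) :=
      T.pos_next hx hz (fun j hj => (hb j hj).le) hmz
    refine (T.cross_iff _ _ _).2 ⟨?_, fun j hj => ?_⟩
    · have h1 := hm2 i (Ne.symm hmi)
      simp only [bb] at h1
      rw [T.lam_R, T.lam_R] at h1
      by_contra h2
      push Not at h2
      linarith only [mul_nonneg (sub_nonneg.2 hx) (le_of_lt (sub_pos.2 hm1)), mul_nonneg (sub_nonneg.2 hX) (sub_nonneg.2 h2), h1]
    · rw [hbb]
      exact mul_pos hcpos (hb j hj)

/-- the exit lemma -/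
lemma exit (w : List (Fin 3)) : ∀ x y z : ℂ, T.Vis w x z →
    (∀ i, w.head? = some i → 0 ≤ T.lam i x ∧ 0 ≤ T.lam i y) →
    T.Vis w y z ∨ ∃ (s c : ℝ) (w' : List (Fin 3)), 0 ≤ s ∧ s ≤ 1 ∧ 0 ≤ c ∧ c ≤ 1 ∧
      w'.length < w.length ∧ (∀ i, w'.head? = some i → w.head? = some i) ∧
      T.Vis w' (x + s • (y - x)) (x + s • (y - x) + c • (z - (x + s • (y - x)))) := by
  induction w with
  | nil =>
    intro x y z h _
    exact Or.inl h
  | cons i w ih =>
    intro x y z h hpos
    obtain ⟨hx, hy⟩ := hpos i rfl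
    obtain ⟨hcr, hv⟩ := h
    obtain ⟨hz, hb⟩ := (T.cross_iff _ _ _).1 hcr
    by_cases hcase : ∀ j, j ≠ i → 0 < T.bb i j y z
    · -- no exit at the first level
      have hcry : T.Cross i y z := (T.cross_iff _ _ _).2 ⟨hz, hcase⟩
      have hhead : ∀ m, w.head? = some m → T.lam m (T.R i z) < 0 := by
        intro m hm
        cases w with
        | nil => simp at hm
        | cons m' w' =>
          simp only [List.head?_cons, Option.some.injEq] at hm
          subst hm
          exact hv.1.1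
      have hpos' : ∀ m, w.head? = some m → 0 ≤ T.lam m (T.R i x) ∧ 0 ≤ T.lam m (T.R i y) := by
        intro m hm
        exact ⟨T.pos_next hx hz (fun j hj => (hb j hj).le) (hhead m hm),
          T.pos_next hy hz (fun j hj => (hcase j hj).le) (hhead m hm)⟩
      rcases ih _ _ _ hv hpos' with h1 | ⟨s, c, w', hs0, hs1, hc0, hc1, hlen, hhd, hvis⟩
      · exact Or.inl ⟨hcry, h1⟩
      · right
        set xs := x + s • (y - x) with hxs
        have hRxs : T.R i x + s • (T.R i y - T.R i x) = T.R i xs := by rw [hxs, T.R_seg]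
        rw [hRxs] at hvis
        rw [← T.R_seg] at hvis
        have hxsi : 0 ≤ T.lam i xs := by
          rw [hxs, lam_seg]
          have : 0 ≤ 1 - s := by linarith only [hs1]
          (clear * - hs1 hx hs0 hy; positivity)
        have hcrs : T.Cross i xs z := by
          refine (T.cross_iff _ _ _).2 ⟨hz, fun j hj => ?_⟩
          rw [hxs, bb_seg_left]
          have h1 := hb j hj
          have h2 := hcase j hj
          rcases eq_or_lt_of_le hs0 with h3 | h3
          · rw [← h3]; simpa using h1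
          · have : 0 ≤ 1 - s := by linarith only [hs1]
            have h4 := mul_pos h3 h2
            have h5 := mul_nonneg this h1.le
            linarith only [h4, h5]
        have hcr' : T.Cross i xs (xs + c • (z - xs)) :=
          T.cross_of_seg hxsi hcrs hc0 hvis (fun m hm => hhead m (hhd m hm))
        refine ⟨s, c, i :: w', hs0, hs1, hc0, hc1, ?_, ?_, hcr', hvis⟩
        · simpa only [List.length_cons, Order.lt_add_one_iff, Order.add_one_le_iff] using hlen
        · intro m hm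
          simpa using hm
    · -- exit at the first level
      right
      push Not at hcase
      obtain ⟨j1, hj1, hb1⟩ := hcase
      -- the exit time
      obtain ⟨s, j, hs0, hs1, hji, hsj, hall⟩ : ∃ (s : ℝ) (j : Fin 3), 0 ≤ s ∧ s ≤ 1 ∧ j ≠ i ∧
          (1 - s) * T.bb i j x z + s * T.bb i j y z = 0 ∧
          ∀ k, k ≠ i → 0 ≤ (1 - s) * T.bb i k x z + s * T.bb i k y z := by
        obtain ⟨j2, hj2, hj12, hcov⟩ := third_cases hj1
        have hf : ∀ j, j ≠ i → T.bb i j y z ≤ 0 →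
            ∃ s, 0 ≤ s ∧ s ≤ 1 ∧ (1 - s) * T.bb i j x z + s * T.bb i j y z = 0 := by
          intro j hj hle
          have h1 := hb j hj
          refine ⟨T.bb i j x z / (T.bb i j x z - T.bb i j y z), ?_, ?_, ?_⟩
          · apply div_nonneg h1.le; linarith only [hle, h1]
          · rw [div_le_one (by linarith)]; linarith
          · have : T.bb i j x z - T.bb i j y z ≠ 0 := by linarith
            field_simp
            ring
        obtain ⟨s1, hs10, hs11, hs1e⟩ := hf j1 hj1 hb1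
        by_cases hgood : 0 ≤ (1 - s1) * T.bb i j2 x z + s1 * T.bb i j2 y z
        · refine ⟨s1, j1, hs10, hs11, hj1, hs1e, fun k hk => ?_⟩
          rcases hcov k with rfl | rfl | rfl
          · exact absurd rfl hk
          · exact hs1e.ge
          · exact hgood
        · push Not at hgood
          have hb2 : T.bb i j2 y z ≤ 0 := by
            by_contra h2
            push Not at h2
            have h3 := hb j2 hj2
            have : 0 ≤ 1 - s1 := by linarith only [hs11]
            have h4 := mul_nonneg this h3.le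
            have h5 := mul_nonneg hs10 h2.le
            linarith
          obtain ⟨s2, hs20, hs21, hs2e⟩ := hf j2 hj2 hb2
          refine ⟨s2, j2, hs20, hs21, hj2, hs2e, fun k hk => ?_⟩
          rcases hcov k with rfl | rfl | rfl
          · exact absurd rfl hk
          · -- s2 < s1
            have hp1 := hb _ hj1
            have hp2 := hb _ hj2
            have hlt : s2 < s1 := by
              by_contra hle
              push Not at hle
              linarith only [mul_nonneg (sub_nonneg.2 hle) (le_of_lt (sub_pos.2 hp2)), mul_nonneg (sub_nonneg.2 hb2) (sub_nonneg.2 hle), hs2e, hgood]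
            linarith only [mul_pos (sub_pos.2 hlt) (sub_pos.2 hp1), mul_nonneg (sub_nonneg.2 hb1) (le_of_lt (sub_pos.2 hlt)), hs1e]
          · exact hs2e.ge
      obtain ⟨k, hki, hkj, hcov⟩ := third_cases hji
      set xs := x + s • (y - x) with hxs
      have hxsi : 0 ≤ T.lam i xs := by
        rw [hxs, lam_seg]
        have : 0 ≤ 1 - s := by linarith
        (clear * - hs1 hx hs0 hy; positivity)
      have hden : 0 < T.lam i xs - T.lam i z := by linarith only [hz, hxsi]
      have hbj : T.bb i j xs z = 0 := by rw [hxs, bb_seg_left]; exact hsj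
      set c := T.lam i xs / (T.lam i xs - T.lam i z) with hcdef
      have hc0 : 0 ≤ c := div_nonneg hxsi hden.le
      have hc1 : c ≤ 1 := by
        rw [hcdef, div_le_one hden]; linarith only [hz]
      refine ⟨s, c, [], hs0, hs1, hc0, hc1, by simp, by simp, k, ?_⟩
      set z' := xs + c • (z - xs) with hz'
      have hci : T.lam i z' = 0 := by
        rw [hz', lam_seg, hcdef]
        field_simp
        ring
      have hcj : T.lam j z' = 0 := by
        have hne := hden.ne'
        simp only [bb] at hbj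
        rw [hz', lam_seg, hcdef]
        field_simp
        linarith only [hbj]
      have hsum : ∑ m, T.lam m z' = 1 := by
        rw [Fin.sum_univ_three]
        exact T.sum_lam z'
      have hck : T.lam k z' = 1 := by
        rw [← hsum]
        symm
        apply Finset.sum_eq_single k
        · intro m _ hm
          rcases hcov m with rfl | rfl | rfl
          · exact hci
          · exact hcj
          · exact absurd rfl hm
        · intro h
          exact absurd (Finset.mem_univ k) h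
      apply T.eq_of_lam
      intro m
      rw [T.lam_P]
      rcases hcov m with rfl | rfl | rfl
      · rw [hci, if_neg (Ne.symm hki)]
      · rw [hcj, if_neg (Ne.symm hkj)]
      · rw [hck, if_pos rfl]

/-- the sweeping lemma -/
lemma sweep {η : ℝ} (hη : 0 < η) (u : ℂ) (n : ℕ) : ∀ (w : List (Fin 3)), w.length = n →
    ∀ x y z : ℂ, T.Vis w x z → (∀ i, w.head? = some i → 0 ≤ T.lam i x ∧ 0 ≤ T.lam i y) →
    ∃ w' z', T.Vis w' y z' ∧ (∀ i, w'.head? = some i → w.head? = some i) ∧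
      an η u (z' - y) ≤ an η u (z - x) + an η u (y - x) := by
  induction n using Nat.strong_induction_on with
  | _ n ih =>
    intro w hw x y z hv hpos
    rcases T.exit w x y z hv hpos with h | ⟨s, c, w', hs0, hs1, hc0, hc1, hlen, hhd, hvis⟩
    · refine ⟨w, z, h, fun i hi => hi, ?_⟩
      have := an_tri hη u z x y
      rw [an_sub_comm η u x y] at this
      exact this
    · set xs := x + s • (y - x) with hxs
      have h1 : xs - x = s • (y - x) := by rw [hxs]; ring
      have h2 : y - xs = (1 - s) • (y - x) := by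
        rw [hxs, sub_smul, one_smul]; ring
      have hpos' : ∀ i, w'.head? = some i → 0 ≤ T.lam i xs ∧ 0 ≤ T.lam i y := by
        intro i hi
        obtain ⟨ha, hb⟩ := hpos i (hhd i hi)
        refine ⟨?_, hb⟩
        rw [hxs, lam_seg]
        have : 0 ≤ 1 - s := by linarith only [hs1]
        (clear * - hs1 ha hs0 hb; positivity)
      obtain ⟨w'', z'', hv'', hhd'', hle⟩ := ih w'.length (by omega) w' rfl _ _ _ hvis hpos'
      refine ⟨w'', z'', hv'', fun i hi => hhd i (hhd'' i hi), hle.trans ?_⟩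
      rw [add_sub_cancel_left, an_smul, abs_of_nonneg hc0, h2, an_smul,
        abs_of_nonneg (by linarith only [hs1] : (0:ℝ) ≤ 1 - s)]
      have h3 : an η u (z - xs) ≤ an η u (z - x) + s * an η u (y - x) := by
        have := an_tri hη u z x xs
        rw [an_sub_comm η u x xs, h1, an_smul, abs_of_nonneg hs0] at this
        exact this
      have h4 := an_nonneg hη u (z - xs)
      linarith only [mul_nonneg (sub_nonneg.2 hc1) (sub_nonneg.2 h4), h3]

lemma bddBelow_D {η : ℝ} (hη : 0 < η) (s : ℂ × ℂ) :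
    BddBelow {r : ℝ | ∃ w z, T.Vis w s.1 z ∧ r = an η s.2 (z - s.1)} := by
  refine ⟨0, ?_⟩
  rintro r ⟨w, z, -, rfl⟩
  exact an_nonneg hη _ _

lemma nonempty_D (η : ℝ) (s : ℂ × ℂ) :
    {r : ℝ | ∃ w z, T.Vis w s.1 z ∧ r = an η s.2 (z - s.1)}.Nonempty :=
  ⟨_, [], T.P 0, ⟨0, rfl⟩, rfl⟩

lemma D_le_of_vis {η : ℝ} (hη : 0 < η) (s : ℂ × ℂ) {w : List (Fin 3)} {z : ℂ}
    (h : T.Vis w s.1 z) : T.D η s ≤ an η s.2 (z - s.1) :=
  csInf_le (T.bddBelow_D hη s) ⟨w, z, h, rfl⟩

lemma le_D {η : ℝ} (s : ℂ × ℂ) {c : ℝ}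
    (h : ∀ w z, T.Vis w s.1 z → c ≤ an η s.2 (z - s.1)) : c ≤ T.D η s := by
  apply le_csInf (T.nonempty_D η s)
  rintro r ⟨w, z, hv, rfl⟩
  exact h w z hv

lemma exists_vis_of_D_lt {η : ℝ} (s : ℂ × ℂ) {c : ℝ} (h : T.D η s < c) :
    ∃ w z, T.Vis w s.1 z ∧ an η s.2 (z - s.1) < c := by
  by_contra hcon
  push Not at hcon
  exact absurd h (not_lt.2 (T.le_D s hcon))

lemma D_nonneg {η : ℝ} (hη : 0 < η) (s : ℂ × ℂ) : 0 ≤ T.D η s :=
  T.le_D s fun _ _ _ => an_nonneg hη _ _

lemma D_le {η : ℝ} (hη : 0 < η) (s : ℂ × ℂ) (k : Fin 3) :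
    T.D η s ≤ an η s.2 (T.P k - s.1) :=
  T.D_le_of_vis hη s (w := []) ⟨k, rfl⟩

lemma D_le_add {η : ℝ} (hη : 0 < η) {x y : ℂ} (u : ℂ) (hx : x ∈ T.table) (hy : y ∈ T.table) :
    T.D η (y, u) ≤ T.D η (x, u) + an η u (y - x) := by
  rw [← sub_le_iff_le_add]
  apply T.le_D
  intro w z hv
  obtain ⟨w', z', hv', -, hle⟩ := T.sweep hη u w.length w rfl x y z hv
    (fun i _ => ⟨((T.mem_table_iff x).1 hx i).le, ((T.mem_table_iff y).1 hy i).le⟩)
  have h1 := T.D_le_of_vis hη (y, u) hv'
  simp only at h1 ⊢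
  linarith only [hle, h1]

lemma D_lip {η : ℝ} (hη : 0 < η) {x y : ℂ} (u : ℂ) (hx : x ∈ T.table) (hy : y ∈ T.table) :
    |T.D η (y, u) - T.D η (x, u)| ≤ an η u (y - x) := by
  have h1 := T.D_le_add hη u hx hy
  have h2 := T.D_le_add hη u hy hx
  rw [an_sub_comm η u x y] at h2
  rw [abs_le]
  constructor <;> linarith

/-- the crossing point of the segment with the side -/
lemma exists_cross_point {x x' : ℂ} {i : Fin 3} (hx : x ∈ T.table) (h : T.Cross i x x') :
    ∃ s : ℝ, 0 ≤ s ∧ s ≤ 1 ∧ T.lam i (x + s • (x' - x)) = 0 ∧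
      ∀ j, j ≠ i → 0 < T.lam j (x + s • (x' - x)) := by
  obtain ⟨h1, h2⟩ := (T.cross_iff _ _ _).1 h
  have hxi : 0 < T.lam i x := (T.mem_table_iff x).1 hx i
  have hden : 0 < T.lam i x - T.lam i x' := by linarith
  refine ⟨T.lam i x / (T.lam i x - T.lam i x'), div_nonneg hxi.le hden.le, ?_, ?_, fun j hj => ?_⟩
  · rw [div_le_one hden]; linarith
  · rw [lam_seg]
    have := hden.ne'
    field_simp
    ring
  · rw [lam_seg]
    have h3 := h2 j hj
    simp only [bb] at h3
    have h4 : (1 - T.lam i x / (T.lam i x - T.lam i x')) * T.lam j x +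
        T.lam i x / (T.lam i x - T.lam i x') * T.lam j x' =
        (T.lam i x * T.lam j x' - T.lam j x * T.lam i x') / (T.lam i x - T.lam i x') := by
      have := hden.ne'
      field_simp
      ring
    rw [h4]
    exact div_pos h3 hden

lemma D_cross_le {η : ℝ} (hη : 0 < η) {x y : ℂ} (u : ℂ) {i : Fin 3} (hx : x ∈ T.table)
    (hy : y ∈ T.table) (h : T.Cross i x (T.R i y)) :
    T.D η (y, T.refl i u) ≤ T.D η (x, u) + an η u (T.R i y - x) := by
  rw [← sub_le_iff_le_add]
  apply T.le_D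
  intro w z hv
  simp only at hv ⊢
  suffices hsuff : ∃ w' z', T.Vis w' y z' ∧
      an η (T.refl i u) (z' - y) ≤ an η u (z - x) + an η u (T.R i y - x) by
    obtain ⟨w', z', hv', hle⟩ := hsuff
    have h1 := T.D_le_of_vis hη (y, T.refl i u) hv'
    simp only at h1
    linarith
  have hx' := (T.mem_table_iff x).1 hx
  have hy' := (T.mem_table_iff y).1 hy
  by_cases hhead : w.head? = some i
  · -- the word starts with `i`
    cases w with
    | nil => simp at hhead
    | cons m w =>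
      simp only [List.head?_cons, Option.some.injEq] at hhead
      subst hhead
      obtain ⟨hcr, hv1⟩ := hv
      obtain ⟨w', z', hv', -, hle⟩ := T.sweep hη (T.refl m u) w.length w rfl (T.R m x) y
        (T.R m z) hv1 (by
          intro k hk
          refine ⟨?_, (hy' k).le⟩
          apply T.pos_next (hx' m).le hcr.1 (fun j hj => (hcr.2 j hj).le)
          cases w with
          | nil => simp at hk
          | cons m' w' =>
            simp only [List.head?_cons, Option.some.injEq] at hk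
            subst hk
            exact hv1.1.1)
      refine ⟨w', z', hv', hle.trans (le_of_eq ?_)⟩
      rw [T.an_R]
      congr 1
      have : y = T.R m (T.R m y) := (T.R_R m y).symm
      conv_lhs => rw [this]
      rw [T.an_R]
  · -- sweep to the side
    obtain ⟨s, hs0, hs1, hci, hcj⟩ := T.exists_cross_point hx h
    set c := x + s • (T.R i y - x) with hc
    have hcnn : ∀ j, 0 ≤ T.lam j c := by
      intro j
      by_cases hj : j = i
      · rw [hj, hci]
      · exact (hcj j hj).le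
    obtain ⟨w', z', hv', hhd', hle⟩ := T.sweep hη u w.length w rfl x c z hv
      (fun j _ => ⟨(hx' j).le, hcnn j⟩)
    have hRc : T.R i c = c := T.R_of_lam_eq_zero hci
    have hw'i : w'.head? ≠ some i := fun h1 => hhead (hhd' i h1)
    have hzi : 0 < T.lam i z' ∨ (∃ k, z' = T.P k ∧ k ≠ i) := by
      cases w' with
      | nil =>
        obtain ⟨k, hk⟩ := hv'
        by_cases hki : k = i
        · left
          rw [hk, hki, T.lam_P, if_pos rfl]
          norm_num
        · right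
          exact ⟨k, hk, hki⟩
      | cons m w'' =>
        left
        obtain ⟨⟨hm1, hm2⟩, -⟩ := hv'
        have hmi : m ≠ i := by
          rintro rfl
          exact hw'i rfl
        have h3 := hm2 i (Ne.symm hmi)
        rw [hci] at h3
        simp only [zero_mul, sub_zero] at h3
        exact (pos_iff_pos_of_mul_pos h3).1 (hcj m hmi)
    have hlen : an η u (c - x) + an η u (T.R i y - c) = an η u (T.R i y - x) := by
      have h1 : c - x = s • (T.R i y - x) := by rw [hc]; ring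
      have h2 : T.R i y - c = (1 - s) • (T.R i y - x) := by
        rw [hc, sub_smul, one_smul]; ring
      rw [h1, h2, an_smul, an_smul, abs_of_nonneg hs0,
        abs_of_nonneg (by linarith only [hs1] : (0:ℝ) ≤ 1 - s)]
      ring
    rcases hzi with hzi | ⟨k, hk, hki⟩
    · -- add the letter `i`
      have hv2 : T.Vis (i :: w') c (T.R i z') := by
        refine ⟨(T.cross_iff _ _ _).2 ⟨?_, fun j hj => ?_⟩, ?_⟩
        · rw [T.lam_R]; linarith only [hzi]
        · simp only [bb]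
          rw [hci, T.lam_R]
          have := mul_pos (hcj j hj) hzi
          linarith only [this]
        · rw [T.R_R, hRc]
          exact hv'
      obtain ⟨w'', z'', hv'', -, hle2⟩ := T.sweep hη (T.refl i u) (i :: w').length (i :: w') rfl
        c y (T.R i z') hv2 (fun j _ => ⟨hcnn j, (hy' j).le⟩)
      refine ⟨w'', z'', hv'', hle2.trans ?_⟩
      have e1 : an η (T.refl i u) (T.R i z' - c) = an η u (z' - c) := by
        conv_lhs => rw [← hRc]
        rw [T.an_R]
      have e2 : an η (T.refl i u) (y - c) = an η u (T.R i y - c) := by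
        conv_lhs => rw [← T.R_R i y, ← hRc]
        rw [T.an_R]
      rw [e1, e2]
      linarith only [hle, hlen]
    · -- the vertex lies on the side
      refine ⟨[], z', ⟨k, hk⟩, ?_⟩
      have h0 : T.lam i z' = 0 := by rw [hk, T.lam_P, if_neg (Ne.symm hki)]
      have e1 : an η (T.refl i u) (z' - y) = an η u (z' - T.R i y) := by
        conv_lhs => rw [← T.R_R i y, ← T.R_of_lam_eq_zero h0]
        rw [T.an_R]
      rw [e1]
      have h1 := an_tri hη u z' c (T.R i y)
      rw [an_sub_comm η u c (T.R i y)] at h1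
      linarith only [hle, hlen, h1]

lemma D_cross {η : ℝ} (hη : 0 < η) {x y : ℂ} (u : ℂ) {i : Fin 3} (hx : x ∈ T.table)
    (hy : y ∈ T.table) (h : T.Cross i x (T.R i y)) :
    |T.D η (y, T.refl i u) - T.D η (x, u)| ≤ an η u (T.R i y - x) := by
  have h1 := T.D_cross_le hη u hx hy h
  have hsym : T.Cross i y (T.R i x) := by
    obtain ⟨ha, hb⟩ := (T.cross_iff _ _ _).1 h
    refine (T.cross_iff _ _ _).2 ⟨?_, fun j hj => ?_⟩
    · rw [T.lam_R]
      have := (T.mem_table_iff x).1 hx i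
      linarith only [this]
    · have h2 := T.bb_R i j x (T.R i y)
      rw [T.R_R] at h2
      have h3 := hb j hj
      simp only [bb] at h2 h3 ⊢
      linarith
  have h2 := T.D_cross_le hη (T.refl i u) hy hx hsym
  rw [T.refl_refl] at h2
  have h3 : an η (T.refl i u) (T.R i x - y) = an η u (T.R i y - x) := by
    conv_lhs => rw [← T.R_R i y]
    rw [T.an_R, an_sub_comm]
  rw [h3] at h2
  rw [abs_le]
  constructor <;> linarith only [h1, h2]

/-! ### measurability -/

lemma continuous_lam (i : Fin 3) : Continuous (T.lam i) := by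
  unfold lam cr
  fun_prop

/-- the unfolded vertices -/
noncomputable def unf : List (Fin 3) → Fin 3 → ℂ
  | [], k => T.P k
  | i :: w, k => T.R i (unf w k)

lemma exists_unf (w : List (Fin 3)) : ∀ x z : ℂ, T.Vis w x z → ∃ k, z = T.unf w k := by
  induction w with
  | nil =>
    rintro x z ⟨k, hk⟩
    exact ⟨k, hk⟩
  | cons i w ih =>
    rintro x z ⟨-, hv⟩
    obtain ⟨k, hk⟩ := ih _ _ hv
    exact ⟨k, by rw [unf, ← hk, T.R_R]⟩

lemma measurableSet_vis (w : List (Fin 3)) : ∀ z : ℂ, MeasurableSet {x | T.Vis w x z} := by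
  induction w with
  | nil =>
    intro z
    by_cases h : ∃ k, z = T.P k
    · have : {x : ℂ | T.Vis [] x z} = univ := by
        ext x; simpa only [vis_nil, mem_ofPred_eq, mem_univ, iff_true] using h
      rw [this]
      exact MeasurableSet.univ
    · have : {x : ℂ | T.Vis [] x z} = ∅ := by
        ext x; simpa only [vis_nil, mem_ofPred_eq, mem_empty_iff_false, iff_false, not_exists] using h
      rw [this]
      exact MeasurableSet.empty
  | cons i w ih =>
    intro z
    have h1 : {x | T.Vis (i :: w) x z} =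
        ({x | T.lam i z < 0} ∩ ⋂ j, ⋂ (_ : j ≠ i),
          {x | 0 < T.lam i x * T.lam j z - T.lam j x * T.lam i z}) ∩
        (T.R i) ⁻¹' {x | T.Vis w x (T.R i z)} := by
      ext x
      simp only [vis_cons, Cross, mem_ofPred_eq, mem_inter_iff, mem_iInter, mem_preimage]
    rw [h1]
    apply MeasurableSet.inter
    · apply MeasurableSet.inter (MeasurableSet.const _)
      apply MeasurableSet.iInter
      intro j
      apply MeasurableSet.iInter
      intro _
      apply (isOpen_lt continuous_const _).measurableSet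
      exact ((T.continuous_lam i).mul continuous_const).sub
        ((T.continuous_lam j).mul continuous_const)
    · exact (T.continuous_R i).measurable (ih (T.R i z))

lemma measurable_an (η : ℝ) (z : ℂ) :
    Measurable fun s : ℂ × ℂ => an η s.2 (z - s.1) := by
  apply Continuous.measurable
  unfold an cr dt
  fun_prop

open Classical in
/-- the terms of the infimum -/
noncomputable def gterm (η : ℝ) (p : List (Fin 3) × Fin 3) (s : ℂ × ℂ) : ℝ :=
  if T.Vis p.1 s.1 (T.unf p.1 p.2) then an η s.2 (T.unf p.1 p.2 - s.1) else an η s.2 (T.P 0 - s.1)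

lemma D_eq_iInf (η : ℝ) (s : ℂ × ℂ) : T.D η s = ⨅ p, T.gterm η p s := by
  unfold D iInf
  congr 1
  ext r
  simp only [mem_ofPred_eq, mem_range, Prod.exists]
  constructor
  · rintro ⟨w, z, hv, rfl⟩
    obtain ⟨k, hk⟩ := T.exists_unf w _ _ hv
    refine ⟨w, k, ?_⟩
    rw [gterm, if_pos (by simpa [← hk] using hv), hk]
  · rintro ⟨w, k, rfl⟩
    unfold gterm
    split_ifs with h
    · exact ⟨w, _, h, rfl⟩
    · exact ⟨[], T.P 0, ⟨0, rfl⟩, rfl⟩

lemma measurable_D (η : ℝ) : Measurable (T.D η) := by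
  have : T.D η = fun s => ⨅ p, T.gterm η p s := by
    funext s
    exact T.D_eq_iInf η s
  rw [this]
  apply Measurable.iInf
  intro p
  unfold gterm
  apply Measurable.ite
  · exact measurable_fst (T.measurableSet_vis p.1 (T.unf p.1 p.2))
  · exact measurable_an η _
  · exact measurable_an η _

end Triangle

end Vale.Agent.P099
end
end

section

section

open MeasureTheory Set Filter Topology

namespace Vale.Agent.P099

set_option linter.unusedSectionVars false

variable {Ω : Type} [MeasurableSpace Ω]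

namespace Triangle

variable (T : Triangle)

/-! ### positions relative to the sides -/

lemma abs_lam_sub_le (i : Fin 3) (x y : ℂ) : |T.lam i y - T.lam i x| ≤ T.Lp * ‖y - x‖ := by
  have h := T.lam_add i x (y - x)
  rw [add_sub_cancel] at h
  rw [h, add_sub_cancel_left]
  exact T.abs_ell_le i (y - x)

/-- close to a point of the closed table, away from the vertices, only one side matters -/
def LocAt (i : Fin 3) (y : ℂ) : Prop :=
  (∀ j, j ≠ i → 0 < T.lam j y) ∧ (T.lam i y ≤ 0 → ∀ j, j ≠ i → 0 < T.lam j (T.R i y))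

lemma mem_segment_lam {i : Fin 3} {y : ℂ}
    (hy : y ∈ segment ℝ (T.P (i + 1)) (T.P (i + 2))) :
    T.lam i y = 0 ∧ ∀ j, 0 ≤ T.lam j y := by
  obtain ⟨a, b, ha, hb, hab, rfl⟩ := hy
  have h1 : ∀ j, T.lam j (a • T.P (i + 1) + b • T.P (i + 2)) =
      a * T.lam j (T.P (i + 1)) + b * T.lam j (T.P (i + 2)) := by
    intro j
    have h2 : a • T.P (i + 1) + b • T.P (i + 2) =
        T.P (i + 1) + b • (T.P (i + 2) - T.P (i + 1)) := by
      have : a = 1 - b := by linarith only [hab]
      rw [this, sub_smul, smul_sub, one_smul]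
      ring
    have h3 := T.lam_add j (T.P (i + 1)) (T.P (i + 2) - T.P (i + 1))
    rw [add_sub_cancel] at h3
    rw [h2, T.lam_add, T.ell_smul]
    have : a = 1 - b := by linarith
    rw [this]
    linear_combination (-b) * h3
  constructor
  · rw [h1, T.lam_P, T.lam_P]
    fin_cases i <;> simp
  · intro j
    rw [h1, T.lam_P, T.lam_P]
    split_ifs <;> simp <;> positivity

/-- (a) -/
lemma exists_locAt : ∃ κ : ℝ, 0 < κ ∧ ∀ r0 : ℝ, 0 < r0 → ∀ ε : ℝ, 0 < ε → ε ≤ κ * r0 →
    ∀ x : ℂ, (∀ i, 0 ≤ T.lam i x) → (∀ m, r0 / 2 ≤ ‖x - T.P m‖) →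
      ∃ i, ∀ y, ‖y - x‖ < 2 * ε → T.LocAt i y := by
  have hdm := T.dm_pos
  have hL := T.Lp_pos
  -- the constant c = 1 / (8 dm)
  refine ⟨(1 / (8 * T.dm)) / (2 * T.Lp), by positivity, ?_⟩
  intro r0 hr0 ε hε hεκ x hx hm
  set c : ℝ := 1 / (8 * T.dm) with hc
  have hc0 : 0 < c := by positivity
  have key : ∀ m : Fin 3, c * r0 < T.lam (m + 1) x ∨ c * r0 < T.lam (m + 2) x := by
    intro m
    by_contra hcon
    push Not at hcon
    obtain ⟨h1, h2⟩ := hcon
    have h3 := T.sub_P_eq m x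
    have hb1 : ‖T.P (m + 1) - T.P m‖ ≤ T.dm := by
      apply T.norm_sub_le_dm
      · intro i; rw [T.lam_P]; split_ifs <;> simp
      · intro i; rw [T.lam_P]; split_ifs <;> simp
    have hb2 : ‖T.P (m + 2) - T.P m‖ ≤ T.dm := by
      apply T.norm_sub_le_dm
      · intro i; rw [T.lam_P]; split_ifs <;> simp
      · intro i; rw [T.lam_P]; split_ifs <;> simp
    have h4 : ‖x - T.P m‖ ≤ c * r0 * T.dm + c * r0 * T.dm := by
      rw [h3]
      refine (norm_add_le _ _).trans ?_
      rw [norm_smul, norm_smul, Real.norm_of_nonneg (hx _), Real.norm_of_nonneg (hx _)]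
      gcongr
    have h5 : c * r0 * T.dm + c * r0 * T.dm = r0 / 4 := by
      rw [hc]; field_simp; ring
    have := hm m
    linarith only [this, h5, h4, hr0]
  have hmin : ∃ i : Fin 3, ∀ j, j ≠ i → c * r0 < T.lam j x := by
    have h0 := key 0
    have h1 := key 1
    have h2 := key 2
    simp only [Fin.isValue, zero_add] at h0
    have e1 : (1 : Fin 3) + 1 = 2 := rfl
    have e2 : (1 : Fin 3) + 2 = 0 := rfl
    have e3 : (2 : Fin 3) + 1 = 0 := rfl
    have e4 : (2 : Fin 3) + 2 = 1 := rfl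
    rw [e1, e2] at h1
    rw [e3, e4] at h2
    by_cases c0 : c * r0 < T.lam 0 x
    · by_cases c1 : c * r0 < T.lam 1 x
      · refine ⟨2, fun j hj => ?_⟩
        fin_cases j
        · exact c0
        · exact c1
        · exact absurd rfl hj
      · refine ⟨1, fun j hj => ?_⟩
        have c2 : c * r0 < T.lam 2 x := h0.resolve_left c1
        fin_cases j
        · exact c0
        · exact absurd rfl hj
        · exact c2
    · refine ⟨0, fun j hj => ?_⟩
      have c2 : c * r0 < T.lam 2 x := h1.resolve_right c0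
      have c1 : c * r0 < T.lam 1 x := h2.resolve_left c0
      fin_cases j
      · exact absurd rfl hj
      · exact c1
      · exact c2
  obtain ⟨i, hi⟩ := hmin
  refine ⟨i, fun y hy => ?_⟩
  have hLe : T.Lp * (2 * ε) ≤ c * r0 := by
    have h6 : T.Lp * (2 * (c / (2 * T.Lp) * r0)) = c * r0 := by
      field_simp
    rw [← h6]
    (clear * - hεκ hL; gcongr)
  have hpos : ∀ z : ℂ, ‖z - x‖ < 2 * ε → ∀ j, j ≠ i → 0 < T.lam j z := by
    intro z hz j hj
    have h7 := T.abs_lam_sub_le j x z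
    have h8 := hi j hj
    have h9 : T.Lp * ‖z - x‖ < T.Lp * (2 * ε) := by (clear * - hz hL; gcongr)
    have h10 := (abs_le.mp h7).1
    linarith only [hLe, h8, h9, h10]
  refine ⟨hpos y hy, fun hiy j hj => ?_⟩
  exact hpos (T.R i y) (lt_of_le_of_lt (T.norm_R_sub_le i (hx i) hiy) hy) j hj

/-! ### the extension near a point -/

variable {T}

lemma not_mem_table_of_nonpos {i : Fin 3} {y : ℂ} (h : T.lam i y ≤ 0) : y ∉ T.table := by
  intro hy
  have := (T.mem_table_iff y).mp hy i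
  linarith

lemma R_not_mem_table {i : Fin 3} {y : ℂ} (h : 0 ≤ T.lam i y) : T.R i y ∉ T.table := by
  apply not_mem_table_of_nonpos (i := i)
  rw [T.lam_R]
  linarith

lemma LocAt.mem_table {i : Fin 3} {y : ℂ} (h : T.LocAt i y) (hi : 0 < T.lam i y) :
    y ∈ T.table := by
  rw [T.mem_table_iff]
  intro j
  by_cases hj : j = i
  · rw [hj]; exact hi
  · exact h.1 j hj

lemma LocAt.R_mem_table {i : Fin 3} {y : ℂ} (h : T.LocAt i y) (hi : T.lam i y < 0) :
    T.R i y ∈ T.table := by
  rw [T.mem_table_iff]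
  intro j
  by_cases hj : j = i
  · rw [hj, T.lam_R]; linarith
  · exact h.2 hi.le j hj

lemma ext_of_pos {f : ℂ → ℂ × Ω → ℝ} {y : ℂ} (h : y ∈ T.table) (ω : ℂ × Ω) :
    T.ext f y ω = f y ω := by
  unfold ext
  rw [indicator_of_mem h, Finset.sum_eq_zero, add_zero]
  intro j _
  apply indicator_of_notMem
  exact R_not_mem_table ((T.mem_table_iff y).mp h j).le

lemma LocAt.ext_of_neg {f : ℂ → ℂ × Ω → ℝ} {i : Fin 3} {y : ℂ} (h : T.LocAt i y)
    (hi : T.lam i y < 0) (ω : ℂ × Ω) :
    T.ext f y ω = f (T.R i y) (T.refl i ω.1, ω.2) := by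
  unfold ext
  rw [indicator_of_notMem (not_mem_table_of_nonpos hi.le), zero_add,
    Finset.sum_eq_single i]
  · rw [indicator_of_mem]
    exact h.R_mem_table hi
  · intro j _ hj
    apply indicator_of_notMem
    exact R_not_mem_table (h.1 j hj).le
  · simp

lemma LocAt.ext_of_zero {f : ℂ → ℂ × Ω → ℝ} {i : Fin 3} {y : ℂ} (h : T.LocAt i y)
    (hi : T.lam i y = 0) (ω : ℂ × Ω) :
    T.ext f y ω = 0 := by
  unfold ext
  rw [indicator_of_notMem (not_mem_table_of_nonpos hi.le), zero_add, Finset.sum_eq_zero]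
  intro j _
  apply indicator_of_notMem
  by_cases hj : j = i
  · apply R_not_mem_table
    rw [hj, hi]
  · exact R_not_mem_table (h.1 j hj).le

variable (T)

lemma R_P {i m : Fin 3} (h : m ≠ i) : T.R i (T.P m) = T.P m := by
  apply T.R_of_lam_eq_zero
  rw [T.lam_P, if_neg h.symm]

/-- (b) -/
lemma ext_eq_zero_near {r0 : ℝ} (hr1 : T.Lp * r0 ≤ 1) {f : ℂ → ℂ × Ω → ℝ}
    (hf : ∀ m, ∀ x ∈ T.table, ‖x - T.P m‖ < r0 → ∀ ω, f x ω = 0) {m : Fin 3} {y : ℂ}
    (hy : ‖y - T.P m‖ < r0) (ω : ℂ × Ω) : T.ext f y ω = 0 := by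
  unfold ext
  have h1 : T.table.indicator (fun y => f y ω) y = 0 := by
    by_cases h : y ∈ T.table
    · rw [indicator_of_mem h]
      exact hf m y h hy ω
    · exact indicator_of_notMem h _
  rw [h1, zero_add]
  apply Finset.sum_eq_zero
  intro j _
  by_cases h : T.R j y ∈ T.table
  · rw [indicator_of_mem (by exact h)]
    by_cases hj : m = j
    · exfalso
      subst hj
      have h2 := (T.mem_table_iff _).mp h m
      rw [T.lam_R] at h2
      have h3 := T.abs_lam_sub_le m (T.P m) y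
      rw [T.lam_P, if_pos rfl] at h3
      have h4 : T.Lp * ‖y - T.P m‖ < T.Lp * r0 := by
        have := T.Lp_pos
        (clear * - hy this; gcongr)
      have h5 := (abs_le.mp h3).1
      linarith only [hr1, h2, h4, h5]
    · apply hf m _ h
      rw [← T.R_P hj, T.norm_R_sub_R]
      exact hy
  · exact indicator_of_notMem (s := T.R j ⁻¹' T.table) (by exact h) _

/-- symmetry of the extension under the reflection, near the side -/
lemma LocAt.ext_R {T : Triangle} {f : ℂ → ℂ × Ω → ℝ} {i : Fin 3} {z : ℂ} (h : T.LocAt i z)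
    (h' : T.LocAt i (T.R i z)) (ω : ℂ × Ω) :
    T.ext f (T.R i z) (T.refl i ω.1, ω.2) = T.ext f z ω := by
  rcases lt_trichotomy (T.lam i z) 0 with h0 | h0 | h0
  · rw [h.ext_of_neg h0, ext_of_pos (h.R_mem_table h0)]
  · rw [h.ext_of_zero h0, T.R_of_lam_eq_zero h0, h.ext_of_zero h0]
  · rw [ext_of_pos (h.mem_table h0), h'.ext_of_neg (by rw [T.lam_R]; linarith), T.R_R]
    simp only [T.refl_refl]

/-- (c) -/
lemma sym_ext : ∃ κ : ℝ, 0 < κ ∧ ∀ r0 : ℝ, 0 < r0 → T.Lp * r0 ≤ 1 → ∀ ε : ℝ, 0 < ε → ε ≤ κ * r0 →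
    ∀ f : ℂ → ℂ × Ω → ℝ, (∀ m, ∀ x ∈ T.table, ‖x - T.P m‖ < r0 → ∀ ω, f x ω = 0) →
    T.Sym ε (T.ext f) := by
  obtain ⟨κ, hκ, hloc⟩ := T.exists_locAt
  refine ⟨min κ (1 / 4), by positivity, ?_⟩
  intro r0 hr0 hr1 ε hε hεκ f hf i y hy ω
  have hεκ1 : ε ≤ κ * r0 := hεκ.trans (by gcongr; exact min_le_left _ _)
  have hεκ2 : ε ≤ 1 / 4 * r0 := hεκ.trans (by gcongr; exact min_le_right _ _)
  obtain ⟨hyi, hyj⟩ := T.mem_segment_lam hy
  have hRy : T.R i y = y := T.R_of_lam_eq_zero hyi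
  unfold mol
  rw [← (T.measurePreserving_R i).integral_comp
    (MeasurableEquiv.measurableEmbedding
      ⟨⟨T.R i, T.R i, T.R_R i, T.R_R i⟩, (T.continuous_R i).measurable, (T.continuous_R i).measurable⟩)]
  congr 1
  funext z
  have h1 : ‖y - T.R i z‖ = ‖y - z‖ := by
    conv_lhs => rw [← hRy]
    exact T.norm_R_sub_R i y z
  rw [rho_radial ε h1]
  by_cases hz : ε ≤ ‖y - z‖
  · rw [rho_eq_zero hε hz, zero_mul, zero_mul]
  · push Not at hz
    congr 1
    by_cases hm : ∀ m, r0 / 2 ≤ ‖y - T.P m‖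
    · obtain ⟨i', hi'⟩ := hloc r0 hr0 ε hε hεκ1 y hyj hm
      have hii : i' = i := by
        by_contra hne
        have := (hi' y (by simp; positivity)).1 i (Ne.symm hne)
        linarith only [hyi, this]
      subst hii
      apply LocAt.ext_R
      · apply hi'
        rw [norm_sub_rev]
        linarith only [hε, hz]
      · apply hi'
        rw [norm_sub_rev, h1]
        linarith only [hε, hz]
    · push Not at hm
      obtain ⟨m, hm⟩ := hm
      rw [T.ext_eq_zero_near hr1 hf (m := m), T.ext_eq_zero_near hr1 hf (m := m)]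
      · calc ‖z - T.P m‖ = ‖(y - T.P m) - (y - z)‖ := by congr 1; ring
          _ ≤ ‖y - T.P m‖ + ‖y - z‖ := norm_sub_le _ _
          _ < r0 := by linarith only [hm, hz, hεκ2, hε]
      · calc ‖T.R i z - T.P m‖ = ‖(y - T.P m) - (y - T.R i z)‖ := by congr 1; ring
          _ ≤ ‖y - T.P m‖ + ‖y - T.R i z‖ := norm_sub_le _ _
          _ < r0 := by rw [h1]; linarith only [hm, hz, hεκ2, hε]

/-! ### the same facts in another form -/

/-- inside the table the extension is the function -/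
lemma ext_of_mem (f : ℂ → ℂ × Ω → ℝ) {y : ℂ} (hy : y ∈ T.table) (ω : ℂ × Ω) :
    T.ext f y ω = f y ω := ext_of_pos hy ω

/-- in the mirror image, away from the other two sides -/
lemma ext_of_R (f : ℂ → ℂ × Ω → ℝ) {y : ℂ} {i : Fin 3} (hy : T.R i y ∈ T.table)
    (h : ∀ j, j ≠ i → 0 < T.lam j y) (ω : ℂ × Ω) :
    T.ext f y ω = f (T.R i y) (T.refl i ω.1, ω.2) := by
  have h1 := (T.mem_table_iff _).mp hy
  have h0 : T.lam i y < 0 := by
    have := h1 i
    rw [T.lam_R] at this
    linarith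
  exact LocAt.ext_of_neg (i := i) ⟨h, fun _ j _ => h1 j⟩ h0 ω

/-- Local structure: near a point of the closed table one only sees a vertex or at most one side. -/
lemma exists_loc : ∃ κ r1 : ℝ, 0 < κ ∧ κ ≤ 1 / 4 ∧ 0 < r1 ∧
    (∀ (f : ℂ → ℂ × Ω → ℝ) (r0 : ℝ), r0 < r1 →
      (∀ x ω, x ∈ T.table → (∃ k, ‖x - T.P k‖ < r0) → f x ω = 0) →
      ∀ y ω, (∃ k, ‖y - T.P k‖ < r0) → T.ext f y ω = 0) ∧
    (∀ (f : ℂ → ℂ × Ω → ℝ) (r0 ε : ℝ), 0 < r0 → r0 < r1 → 0 < ε → ε ≤ κ * r0 →
      (∀ x ω, x ∈ T.table → (∃ k, ‖x - T.P k‖ < r0) → f x ω = 0) → T.Sym ε (T.ext f)) ∧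
    ∀ r0 ε : ℝ, 0 < r0 → r0 < r1 → 0 < ε → ε ≤ κ * r0 → ∀ x, (∀ i, 0 ≤ T.lam i x) →
      (∃ k, ∀ y, ‖y - x‖ < 2 * ε → ‖y - T.P k‖ < r0) ∨
      (∃ i, ∀ y, ‖y - x‖ < 2 * ε → T.LocAt i y) := by
  obtain ⟨κ1, hκ1, hloc⟩ := T.exists_locAt
  obtain ⟨κ2, hκ2, hsym⟩ := T.sym_ext (Ω := Ω)
  have hL := T.Lp_pos
  refine ⟨min (1 / 4) (min κ1 κ2), 1 / T.Lp, by positivity, min_le_left _ _, by positivity,
    ?_, ?_, ?_⟩
  · intro f r0 hr0 hf y ω ⟨k, hk⟩
    apply T.ext_eq_zero_near (r0 := r0) _ (fun m x hx hxm ω => hf x ω hx ⟨m, hxm⟩) hk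
    rw [lt_div_iff₀ hL] at hr0
    linarith
  · intro f r0 ε hr0 hr1 hε hεκ hf
    apply hsym r0 hr0 _ ε hε _ f (fun m x hx hxm ω => hf x ω hx ⟨m, hxm⟩)
    · rw [lt_div_iff₀ hL] at hr1
      linarith only [hr1]
    · refine hεκ.trans ?_
      gcongr
      exact (min_le_right _ _).trans (min_le_right _ _)
  · intro r0 ε hr0 hr1 hε hεκ x hx
    have h1 : ε ≤ κ1 * r0 := by
      refine hεκ.trans ?_
      gcongr
      exact (min_le_right _ _).trans (min_le_left _ _)
    have h2 : ε ≤ 1 / 4 * r0 := by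
      refine hεκ.trans ?_
      gcongr
      exact min_le_left _ _
    by_cases hm : ∀ m, r0 / 2 ≤ ‖x - T.P m‖
    · exact Or.inr (hloc r0 hr0 ε hε h1 x hx hm)
    · push Not at hm
      obtain ⟨k, hk⟩ := hm
      refine Or.inl ⟨k, fun y hy => ?_⟩
      calc ‖y - T.P k‖ = ‖(y - x) + (x - T.P k)‖ := by congr 1; ring
        _ ≤ ‖y - x‖ + ‖x - T.P k‖ := norm_add_le _ _
        _ < r0 := by linarith only [hy, hk, h2]

/-! ### boundedness and measurability of the extension -/

lemma exists_table_bound : ∃ r : ℝ, 0 < r ∧ ∀ y ∈ T.table, ‖y‖ < r := by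
  refine ⟨T.dm + ‖T.P 0‖ + 1, by have := T.dm_pos; positivity, fun y hy => ?_⟩
  have h1 : ‖y - T.P 0‖ ≤ T.dm := by
    apply T.norm_sub_le_dm
    · intro i; exact ((T.mem_table_iff y).mp hy i).le
    · intro i; rw [T.lam_P]; split_ifs <;> simp
  have h2 : ‖y‖ ≤ ‖y - T.P 0‖ + ‖T.P 0‖ := by
    have := norm_add_le (y - T.P 0) (T.P 0)
    simpa only [Fin.isValue, ge_iff_le, sub_add_cancel] using this
  linarith

lemma exists_table_bound' : ∃ r : ℝ, 0 < r ∧ (∀ y ∈ T.table, ‖y‖ < r) ∧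
    ∀ i, ∀ y, T.R i y ∈ T.table → ‖y‖ < r := by
  obtain ⟨r, hr, hrt⟩ := T.exists_table_bound
  refine ⟨r + (r + ‖T.R 0 0‖ + ‖T.R 1 0‖ + ‖T.R 2 0‖), by positivity,
    fun y hy => by
      have := hrt y hy
      have h1 := norm_nonneg (T.R 0 0)
      have h2 := norm_nonneg (T.R 1 0)
      have h3 := norm_nonneg (T.R 2 0)
      linarith, fun i y hy => ?_⟩
  have h1 := hrt _ hy
  have h2 : ‖y‖ = ‖T.R i y - T.R i 0‖ := by rw [T.norm_R_sub_R, sub_zero]
  have h3 := norm_sub_le (T.R i y) (T.R i 0)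
  have h4 : ‖T.R i 0‖ ≤ ‖T.R 0 0‖ + ‖T.R 1 0‖ + ‖T.R 2 0‖ := by
    have a := norm_nonneg (T.R 0 0)
    have b := norm_nonneg (T.R 1 0)
    have c := norm_nonneg (T.R 2 0)
    fin_cases i <;> simp <;> linarith only [a, b, c]
  linarith only [hr, h1, h2, h3, h4]

lemma measurable_ext {f : ℂ → ℂ × Ω → ℝ}
    (hf : Measurable (fun p : ℂ × (ℂ × Ω) => f p.1 p.2)) :
    Measurable (fun p : ℂ × (ℂ × Ω) => T.ext f p.1 p.2) := by
  have hmt : MeasurableSet T.table := T.isOpen_table.measurableSet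
  have h1 : Measurable (fun p : ℂ × (ℂ × Ω) => T.table.indicator (fun y => f y p.2) p.1) := by
    have : (fun p : ℂ × (ℂ × Ω) => T.table.indicator (fun y => f y p.2) p.1) =
        (Prod.fst ⁻¹' T.table).indicator (fun p : ℂ × (ℂ × Ω) => f p.1 p.2) := by
      funext p
      simp only [indicator, mem_preimage]
      rfl
    rw [this]
    exact hf.indicator (measurable_fst hmt)
  have h2 : ∀ i, Measurable (fun p : ℂ × (ℂ × Ω) =>
      (T.R i ⁻¹' T.table).indicator (fun y => f (T.R i y) (T.refl i p.2.1, p.2.2)) p.1) := by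
    intro i
    have hR : Measurable (T.R i) := (T.continuous_R i).measurable
    have hr : Measurable (T.refl i) := (T.continuous_refl i).measurable
    have : (fun p : ℂ × (ℂ × Ω) =>
      (T.R i ⁻¹' T.table).indicator (fun y => f (T.R i y) (T.refl i p.2.1, p.2.2)) p.1) =
        (Prod.fst ⁻¹' (T.R i ⁻¹' T.table)).indicator
          (fun p : ℂ × (ℂ × Ω) => f (T.R i p.1) (T.refl i p.2.1, p.2.2)) := by
      funext p
      simp only [indicator, mem_preimage]
      rfl
    rw [this]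
    apply Measurable.indicator
    · have h3 : Measurable (fun p : ℂ × (ℂ × Ω) =>
          ((T.R i p.1, (T.refl i p.2.1, p.2.2)) : ℂ × (ℂ × Ω))) := by
        refine (hR.comp measurable_fst).prodMk ?_
        exact (hr.comp (measurable_fst.comp measurable_snd)).prodMk
          (measurable_snd.comp measurable_snd)
      exact hf.comp h3
    · exact measurable_fst (hR hmt)
  unfold ext
  exact h1.add (Finset.measurable_sum _ fun i _ => h2 i)

/-- (d) -/
lemma bddSupp_ext {f : ℂ → ℂ × Ω → ℝ} (hf : Bdd f) : BddSupp (T.ext f) := by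
  obtain ⟨hm, C, hC⟩ := hf
  obtain ⟨r, hr, hr1, hr2⟩ := T.exists_table_bound'
  refine ⟨⟨T.measurable_ext hm, 4 * |C|, fun y ω => ?_⟩, r, fun y ω hy => ?_⟩
  · unfold ext
    have h1 : |T.table.indicator (fun y => f y ω) y| ≤ |C| := by
      unfold indicator
      split_ifs
      · exact (hC y ω).trans (le_abs_self C)
      · simp
    have h2 : ∀ i, |(T.R i ⁻¹' T.table).indicator (fun y => f (T.R i y) (T.refl i ω.1, ω.2)) y| ≤ |C| := by
      intro i
      unfold indicator
      split_ifs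
      · exact (hC _ _).trans (le_abs_self C)
      · simp
    calc _ ≤ |T.table.indicator (fun y => f y ω) y| +
        |∑ i, (T.R i ⁻¹' T.table).indicator (fun y => f (T.R i y) (T.refl i ω.1, ω.2)) y| :=
          abs_add_le _ _
      _ ≤ |C| + ∑ i, |(T.R i ⁻¹' T.table).indicator (fun y => f (T.R i y) (T.refl i ω.1, ω.2)) y| := by
          gcongr
          exact Finset.abs_sum_le_sum_abs _ _
      _ ≤ |C| + ∑ _i : Fin 3, |C| := by
          have := Finset.sum_le_sum (s := Finset.univ) (fun i _ => h2 i)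
          linarith only [this]
      _ = 4 * |C| := by simp; ring
  · unfold ext
    rw [indicator_of_notMem, Finset.sum_eq_zero, add_zero]
    · intro i _
      apply indicator_of_notMem
      intro h
      have := hr2 i y h
      linarith
    · intro h
      have := hr1 y h
      linarith

end Triangle

end Vale.Agent.P099
end
end

section

section

open MeasureTheory Set Filter Topology

set_option linter.unusedSectionVars false

namespace Vale.Agent.P099

variable {Ω : Type} [MeasurableSpace Ω]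

/-- convolution of a complex kernel with a function of position and parameter -/
noncomputable def kcv (κ : ℂ → ℂ) (f : ℂ → ℂ × Ω → ℝ) (x : ℂ) (ω : ℂ × Ω) : ℂ :=
  ∫ y, κ (x - y) * (f y ω : ℂ)

lemma grd_eq_kcv (ε : ℝ) (f : ℂ → ℂ × Ω → ℝ) : grd ε f = kcv (kap ε) f := rfl

lemma mol_eq_kcv (ε : ℝ) (f : ℂ → ℂ × Ω → ℝ) (x : ℂ) (ω : ℂ × Ω) :
    ((mol ε f x ω : ℝ) : ℂ) = kcv (fun z => (rho ε z : ℂ)) f x ω := by
  unfold mol kcv
  rw [← integral_complex_ofReal]
  refine integral_congr_ae (Eventually.of_forall fun y => ?_)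
  push_cast
  rfl

lemma measurable_kcv {κ : ℂ → ℂ} (hκ : Continuous κ) {f : ℂ → ℂ × Ω → ℝ} (hf : Bdd f) :
    Measurable (fun p : ℂ × (ℂ × Ω) => kcv κ f p.1 p.2) := by
  have h1 : StronglyMeasurable (Function.uncurry fun (p : ℂ × (ℂ × Ω)) (y : ℂ) =>
      κ (p.1 - y) * (f y p.2 : ℂ)) := by
    apply Measurable.stronglyMeasurable
    apply Measurable.mul
    · exact hκ.measurable.comp ((measurable_fst.comp measurable_fst).sub measurable_snd)
    · exact Complex.measurable_ofReal.comp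
        (hf.1.comp (measurable_snd.prodMk (measurable_snd.comp measurable_fst)))
  exact h1.integral_prod_right.measurable

lemma measurable_mol (ε : ℝ) {f : ℂ → ℂ × Ω → ℝ} (hf : Bdd f) :
    Measurable (fun p : ℂ × (ℂ × Ω) => mol ε f p.1 p.2) := by
  have h1 := measurable_kcv (κ := fun z => (rho ε z : ℂ))
    (Complex.continuous_ofReal.comp (rho_contDiff ε).continuous) hf
  have h2 := Complex.measurable_re.comp h1
  have h3 : (Complex.re ∘ fun p : ℂ × (ℂ × Ω) => kcv (fun z => (rho ε z : ℂ)) f p.1 p.2) =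
      fun p : ℂ × (ℂ × Ω) => mol ε f p.1 p.2 := by
    funext p
    simp only [Function.comp_apply]
    rw [← mol_eq_kcv, Complex.ofReal_re]
  rwa [h3] at h2

/-- Cauchy-Schwarz with a weight. -/
lemma weighted_cs {k g : ℂ → ℝ} (hk : Integrable k) (hk0 : ∀ y, 0 ≤ k y)
    (hg : Measurable g) {C : ℝ} (hC : ∀ y, |g y| ≤ C) :
    (∫ y, k y * g y) ^ 2 ≤ (∫ y, k y) * ∫ y, k y * g y ^ 2 := by
  have hkg : Integrable fun y => k y * g y := by
    refine hk.mul_bdd (c := C) hg.aestronglyMeasurable (Eventually.of_forall fun y => ?_)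
    rw [Real.norm_eq_abs]
    exact hC y
  have hkg2 : Integrable fun y => k y * g y ^ 2 := by
    refine hk.mul_bdd (c := C ^ 2) (hg.pow_const 2).aestronglyMeasurable
      (Eventually.of_forall fun y => ?_)
    rw [Real.norm_eq_abs, abs_pow]
    exact pow_le_pow_left₀ (abs_nonneg _) (hC y) 2
  set K := ∫ y, k y with hK
  set B := ∫ y, k y * g y with hB
  set A := ∫ y, k y * g y ^ 2 with hA
  have hK0 : 0 ≤ K := integral_nonneg hk0
  have hA0 : 0 ≤ A := integral_nonneg fun y => mul_nonneg (hk0 y) (sq_nonneg _)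
  have hquad : ∀ t : ℝ, 0 ≤ A - 2 * t * B + t ^ 2 * K := by
    intro t
    have h1 : ∫ y, k y * (g y - t) ^ 2 = A - 2 * t * B + t ^ 2 * K := by
      have h2 : ∀ y, k y * (g y - t) ^ 2 = (k y * g y ^ 2 - (2 * t) * (k y * g y)) + t ^ 2 * k y := by
        intro y
        ring
      have e1 := integral_add (hkg2.sub (hkg.const_mul (2 * t))) (hk.const_mul (t ^ 2))
      have e2 := integral_sub hkg2 (hkg.const_mul (2 * t))
      simp only [Pi.sub_apply] at e1
      simp_rw [h2]
      rw [e1, e2, integral_const_mul, integral_const_mul]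
    rw [← h1]
    exact integral_nonneg fun y => mul_nonneg (hk0 y) (sq_nonneg _)
  rcases hK0.eq_or_lt with h0 | h0
  · -- K = 0
    have hB0 : B = 0 := by
      by_contra hne
      have h1 := hquad ((A + 1) / (2 * B))
      rw [← h0, mul_zero, add_zero] at h1
      have h2 : 2 * ((A + 1) / (2 * B)) * B = A + 1 := by (clear * - hne hA0; field_simp)
      rw [h2] at h1
      linarith only [h1]
    rw [hB0, ← h0]
    simp
  · have h1 := hquad (B / K)
    have h2 : A - 2 * (B / K) * B + (B / K) ^ 2 * K = A - B ^ 2 / K := by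
      field_simp
      ring
    rw [h2] at h1
    have h3 : B ^ 2 / K ≤ A := by linarith only [h1]
    rw [div_le_iff₀ h0] at h3
    linarith only [h3]

lemma norm_kcv_sq_le {κ : ℂ → ℂ} (hκ : Continuous κ) (hκc : HasCompactSupport κ)
    {f : ℂ → ℂ × Ω → ℝ} (hf : Bdd f) (x : ℂ) (ω : ℂ × Ω) :
    ‖kcv κ f x ω‖ ^ 2 ≤ (∫ z, ‖κ z‖) * ∫ y, ‖κ (x - y)‖ * f y ω ^ 2 := by
  obtain ⟨hm, C, hC⟩ := hf
  have hkint : Integrable fun z => ‖κ z‖ :=
    (hκ.integrable_of_hasCompactSupport hκc).norm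
  have hkx : Integrable fun y => ‖κ (x - y)‖ := hkint.comp_sub_left x
  have hg : Measurable fun y => |f y ω| := by
    exact (hm.comp (measurable_id.prodMk measurable_const)).abs
  have h1 := weighted_cs hkx (fun y => norm_nonneg _) hg (C := C) (fun y => by
    rw [abs_abs]
    exact hC y ω)
  have h2 : ∫ y, ‖κ (x - y)‖ = ∫ z, ‖κ z‖ :=
    integral_sub_left_eq_self (fun z => ‖κ z‖) volume x
  rw [h2] at h1
  simp only [sq_abs] at h1
  refine le_trans ?_ h1
  apply pow_le_pow_left₀ (norm_nonneg _)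
  calc ‖kcv κ f x ω‖ ≤ ∫ y, ‖κ (x - y) * (f y ω : ℂ)‖ := norm_integral_le_integral_norm _
    _ = ∫ y, ‖κ (x - y)‖ * |f y ω| := by
        refine integral_congr_ae (Eventually.of_forall fun y => ?_)
        simp only [norm_mul, Complex.norm_real, Real.norm_eq_abs]

lemma norm_kcv_le {κ : ℂ → ℂ} (hκ : Continuous κ) (hκc : HasCompactSupport κ)
    {f : ℂ → ℂ × Ω → ℝ} {C : ℝ} (hC : ∀ y ω, |f y ω| ≤ C) (x : ℂ) (ω : ℂ × Ω) :
    ‖kcv κ f x ω‖ ≤ (∫ z, ‖κ z‖) * C := by
  have hkint : Integrable fun z => ‖κ z‖ :=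
    (hκ.integrable_of_hasCompactSupport hκc).norm
  have hkx : Integrable fun y => ‖κ (x - y)‖ := hkint.comp_sub_left x
  have h2 : ∫ y, ‖κ (x - y)‖ = ∫ z, ‖κ z‖ :=
    integral_sub_left_eq_self (fun z => ‖κ z‖) volume x
  calc ‖kcv κ f x ω‖ ≤ ∫ y, ‖κ (x - y) * (f y ω : ℂ)‖ := norm_integral_le_integral_norm _
    _ ≤ ∫ y, ‖κ (x - y)‖ * C := by
        refine integral_mono_of_nonneg (Eventually.of_forall fun y => norm_nonneg _)
          (hkx.mul_const C) (Eventually.of_forall fun y => ?_)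
        simp only [norm_mul, Complex.norm_real, Real.norm_eq_abs]
        exact mul_le_mul_of_nonneg_left (hC y ω) (norm_nonneg _)
    _ = (∫ z, ‖κ z‖) * C := by rw [integral_mul_const, h2]

lemma abs_mol_le {ε : ℝ} (hε : 0 < ε) {f : ℂ → ℂ × Ω → ℝ} {C : ℝ} (hC : ∀ y ω, |f y ω| ≤ C)
    (x : ℂ) (ω : ℂ × Ω) : |mol ε f x ω| ≤ C := by
  have h1 := norm_kcv_le (κ := fun z => (rho ε z : ℂ))
    (Complex.continuous_ofReal.comp (rho_contDiff ε).continuous)
    (((hasCompactSupport_rho hε).comp_left Complex.ofReal_zero :)) hC x ω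
  rw [← mol_eq_kcv, Complex.norm_real, Real.norm_eq_abs] at h1
  have h2 : ∫ z, ‖((rho ε z : ℝ) : ℂ)‖ = 1 := by
    rw [← integral_rho hε]
    refine integral_congr_ae (Eventually.of_forall fun z => ?_)
    simp only [Complex.norm_real, Real.norm_eq_abs]
    exact abs_of_nonneg (rho_nonneg ε z)
  rwa [h2, one_mul] at h1

namespace Triangle

variable (T : Triangle) (m : Measure Ω)

/-- the phase space measure, not normalized in the position -/
noncomputable def muT : Measure (ℂ × (ℂ × Ω)) := (volume.restrict T.table).prod (nu.prod m)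

instance : IsFiniteMeasure (volume.restrict T.table) :=
  ⟨by rw [Measure.restrict_apply_univ]; exact T.volume_table_lt_top⟩

instance [IsProbabilityMeasure m] : IsFiniteMeasure (T.muT m) := by
  unfold muT
  infer_instance

lemma nrm_eq_prod [IsProbabilityMeasure m] {F : ℂ → ℂ × Ω → ℂ}
    (hF : Measurable fun p : ℂ × (ℂ × Ω) => F p.1 p.2) {C : ℝ} (hC : ∀ x ω, ‖F x ω‖ ≤ C) :
    T.nrm m F = ∫ p, ‖F p.1 p.2‖ ^ 2 ∂(T.muT m) := by
  unfold nrm muT
  rw [integral_prod]
  refine Integrable.of_bound (hF.norm.pow_const 2).aestronglyMeasurable (C ^ 2)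
    (Eventually.of_forall fun p => ?_)
  rw [Real.norm_eq_abs, abs_pow, abs_of_nonneg (norm_nonneg _)]
  exact pow_le_pow_left₀ (norm_nonneg _) (hC _ _) 2

lemma nrm_nonneg (F : ℂ → ℂ × Ω → ℂ) : 0 ≤ T.nrm m F := by
  unfold nrm
  exact integral_nonneg fun x => integral_nonneg fun ω => sq_nonneg _

lemma integrable_sq [IsProbabilityMeasure m] {F : ℂ → ℂ × Ω → ℂ}
    (hF : Measurable fun p : ℂ × (ℂ × Ω) => F p.1 p.2) {C : ℝ} (hC : ∀ x ω, ‖F x ω‖ ≤ C) :
    Integrable (fun p : ℂ × (ℂ × Ω) => ‖F p.1 p.2‖ ^ 2) (T.muT m) := by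
  refine Integrable.of_bound (hF.norm.pow_const 2).aestronglyMeasurable (C ^ 2)
    (Eventually.of_forall fun p => ?_)
  rw [Real.norm_eq_abs, abs_pow, abs_of_nonneg (norm_nonneg _)]
  exact pow_le_pow_left₀ (norm_nonneg _) (hC _ _) 2

/-- monotonicity of the squared norm -/
lemma nrm_mono [IsProbabilityMeasure m] {F G : ℂ → ℂ × Ω → ℂ}
    (hF : Measurable fun p : ℂ × (ℂ × Ω) => F p.1 p.2)
    (hG : Measurable fun p : ℂ × (ℂ × Ω) => G p.1 p.2) {C D : ℝ} (hC : ∀ x ω, ‖F x ω‖ ≤ C)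
    (hD : ∀ x ω, ‖G x ω‖ ≤ D)
    (h : ∀ᵐ p ∂(T.muT m), ‖F p.1 p.2‖ ≤ ‖G p.1 p.2‖) : T.nrm m F ≤ T.nrm m G := by
  rw [T.nrm_eq_prod m hF hC, T.nrm_eq_prod m hG hD]
  refine integral_mono_ae (T.integrable_sq m hF hC) (T.integrable_sq m hG hD) ?_
  filter_upwards [h] with p hp
  exact pow_le_pow_left₀ (norm_nonneg _) hp 2

lemma nrm_congr [IsProbabilityMeasure m] {F G : ℂ → ℂ × Ω → ℂ}
    (h : ∀ x ∈ T.table, ∀ ω, ‖F x ω‖ = ‖G x ω‖) : T.nrm m F = T.nrm m G := by
  unfold nrm
  refine setIntegral_congr_fun T.isOpen_table.measurableSet fun x hx => ?_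
  refine integral_congr_ae (Eventually.of_forall fun ω => ?_)
  simp only
  rw [h x hx ω]

lemma nrm_add_le [IsProbabilityMeasure m] {F G : ℂ → ℂ × Ω → ℂ}
    (hF : Measurable fun p : ℂ × (ℂ × Ω) => F p.1 p.2)
    (hG : Measurable fun p : ℂ × (ℂ × Ω) => G p.1 p.2) {C D : ℝ} (hC : ∀ x ω, ‖F x ω‖ ≤ C)
    (hD : ∀ x ω, ‖G x ω‖ ≤ D) :
    T.nrm m (fun x ω => F x ω + G x ω) ≤ 2 * T.nrm m F + 2 * T.nrm m G := by
  rw [T.nrm_eq_prod m hF hC, T.nrm_eq_prod m hG hD,
    T.nrm_eq_prod m (F := fun x ω => F x ω + G x ω) (hF.add hG) (C := C + D)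
      (fun x ω => (norm_add_le _ _).trans (add_le_add (hC x ω) (hD x ω)))]
  rw [← integral_const_mul, ← integral_const_mul, ← integral_add
    ((T.integrable_sq m hF hC).const_mul 2) ((T.integrable_sq m hG hD).const_mul 2)]
  refine integral_mono (T.integrable_sq m (F := fun x ω => F x ω + G x ω) (hF.add hG) (C := C + D)
      (fun x ω => (norm_add_le _ _).trans (add_le_add (hC x ω) (hD x ω))))
    (((T.integrable_sq m hF hC).const_mul 2).add ((T.integrable_sq m hG hD).const_mul 2)) ?_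
  intro p
  have h1 := norm_add_le (F p.1 p.2) (G p.1 p.2)
  have h2 : ‖F p.1 p.2 + G p.1 p.2‖ ^ 2 ≤ (‖F p.1 p.2‖ + ‖G p.1 p.2‖) ^ 2 :=
    pow_le_pow_left₀ (norm_nonneg _) h1 2
  change ‖F p.1 p.2 + G p.1 p.2‖ ^ 2 ≤ 2 * ‖F p.1 p.2‖ ^ 2 + 2 * ‖G p.1 p.2‖ ^ 2
  linarith only [sq_nonneg (‖F p.1 p.2‖ - ‖G p.1 p.2‖), h2]

/-- Young's inequality for a compactly supported kernel. -/
lemma nrm_kcv_le [IsProbabilityMeasure m] {κ : ℂ → ℂ} (hκ : Continuous κ)
    (hκc : HasCompactSupport κ) {f : ℂ → ℂ × Ω → ℝ} (hf : BddSupp f) :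
    T.nrm m (kcv κ f) ≤ (∫ z, ‖κ z‖) ^ 2 * ∫ ω, (∫ y, f y ω ^ 2) ∂(nu.prod m) := by
  obtain ⟨hb, r, hr⟩ := hf
  obtain ⟨hm, C, hC⟩ := hb
  have hfb : IsFiniteMeasure (volume.restrict (Metric.closedBall (0 : ℂ) r)) :=
    ⟨by rw [Measure.restrict_apply_univ]; exact measure_closedBall_lt_top⟩
  have hkint : Integrable fun z => ‖κ z‖ :=
    (hκ.integrable_of_hasCompactSupport hκc).norm
  have hK0 : 0 ≤ ∫ z, ‖κ z‖ := integral_nonneg fun z => norm_nonneg _
  -- the function A
  set A : ℂ → ℂ × Ω → ℝ := fun x ω => ∫ y, ‖κ (x - y)‖ * f y ω ^ 2 with hA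
  have hAm : Measurable fun p : ℂ × (ℂ × Ω) => A p.1 p.2 := by
    have h1 : StronglyMeasurable (Function.uncurry fun (p : ℂ × (ℂ × Ω)) (y : ℂ) =>
        ‖κ (p.1 - y)‖ * f y p.2 ^ 2) := by
      apply Measurable.stronglyMeasurable
      apply Measurable.mul
      · exact (hκ.measurable.comp
          ((measurable_fst.comp measurable_fst).sub measurable_snd)).norm
      · exact (hm.comp (measurable_snd.prodMk (measurable_snd.comp measurable_fst))).pow_const 2
    exact h1.integral_prod_right.measurable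
  have hAb : ∀ x ω, |A x ω| ≤ (∫ z, ‖κ z‖) * C ^ 2 := by
    intro x ω
    have hkx : Integrable fun y => ‖κ (x - y)‖ := hkint.comp_sub_left x
    have h2 : ∫ y, ‖κ (x - y)‖ = ∫ z, ‖κ z‖ :=
      integral_sub_left_eq_self (fun z => ‖κ z‖) volume x
    rw [abs_of_nonneg (integral_nonneg fun y => mul_nonneg (norm_nonneg _) (sq_nonneg _)),
      ← h2, ← integral_mul_const]
    refine integral_mono_of_nonneg (Eventually.of_forall fun y =>
      mul_nonneg (norm_nonneg _) (sq_nonneg _)) (hkx.mul_const _)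
      (Eventually.of_forall fun y => ?_)
    simp only
    apply mul_le_mul_of_nonneg_left _ (norm_nonneg _)
    rw [← sq_abs]
    exact pow_le_pow_left₀ (abs_nonneg _) (hC y ω) 2
  have hAint : Integrable (fun p : ℂ × (ℂ × Ω) => A p.1 p.2) (T.muT m) :=
    Integrable.of_bound hAm.aestronglyMeasurable ((∫ z, ‖κ z‖) * C ^ 2)
      (Eventually.of_forall fun p => by rw [Real.norm_eq_abs]; exact hAb _ _)
  -- bound of the inner integral
  have hinner : ∀ ω, ∫ x in T.table, A x ω ≤ (∫ z, ‖κ z‖) * ∫ y, f y ω ^ 2 := by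
    intro ω
    have hfm : Measurable fun y => f y ω ^ 2 :=
      (hm.comp (measurable_id.prodMk measurable_const)).pow_const 2
    have hfi : Integrable fun y => f y ω ^ 2 := by
      have h1 : IntegrableOn (fun y => f y ω ^ 2) (Metric.closedBall 0 r) := by
        refine Integrable.of_bound hfm.aestronglyMeasurable (C ^ 2)
          (Eventually.of_forall fun y => ?_)
        rw [Real.norm_eq_abs, abs_pow]
        exact pow_le_pow_left₀ (abs_nonneg _) (hC y ω) 2
      rw [integrableOn_iff_integrable_of_support_subset] at h1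
      · exact h1
      · intro y hy
        rw [Metric.mem_closedBall, dist_zero_right]
        by_contra hlt
        apply hy
        simp only
        rw [hr y ω (not_le.1 hlt).le]
        simp
    have hconv := integral_convolution (ContinuousLinearMap.mul ℝ ℝ) (μ := volume) (ν := volume)
      hfi hkint
    have hci := hfi.integrable_convolution (ContinuousLinearMap.mul ℝ ℝ) hkint
    have he : ∀ x, A x ω = (MeasureTheory.convolution (fun y => f y ω ^ 2) (fun z => ‖κ z‖)
        (ContinuousLinearMap.mul ℝ ℝ) volume) x := by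
      intro x
      rw [hA]
      simp only [MeasureTheory.convolution, ContinuousLinearMap.mul_apply']
      refine integral_congr_ae (Eventually.of_forall fun y => ?_)
      simp only
      ring
    have hAi : Integrable fun x => A x ω := by
      simp_rw [he]
      exact hci
    calc ∫ x in T.table, A x ω ≤ ∫ x, A x ω := by
          refine setIntegral_le_integral hAi (Eventually.of_forall fun x => ?_)
          exact integral_nonneg fun y => mul_nonneg (norm_nonneg _) (sq_nonneg _)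
      _ = (∫ z, ‖κ z‖) * ∫ y, f y ω ^ 2 := by
          simp_rw [he]
          rw [hconv, ContinuousLinearMap.mul_apply']
          ring
  have hmk := measurable_kcv hκ ⟨hm, C, hC⟩
  have hbk := norm_kcv_le hκ hκc hC
  calc T.nrm m (kcv κ f) = ∫ p, ‖kcv κ f p.1 p.2‖ ^ 2 ∂(T.muT m) := T.nrm_eq_prod m hmk hbk
    _ ≤ ∫ p, (∫ z, ‖κ z‖) * A p.1 p.2 ∂(T.muT m) := by
        refine integral_mono (T.integrable_sq m hmk hbk) (hAint.const_mul _) fun p => ?_
        exact norm_kcv_sq_le hκ hκc ⟨hm, C, hC⟩ p.1 p.2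
    _ = (∫ z, ‖κ z‖) * ∫ p, A p.1 p.2 ∂(T.muT m) := integral_const_mul _ _
    _ = (∫ z, ‖κ z‖) * ∫ ω, (∫ x in T.table, A x ω) ∂(nu.prod m) := by
        congr 1
        unfold muT
        rw [integral_prod_symm]
        exact hAint
    _ ≤ (∫ z, ‖κ z‖) * ∫ ω, ((∫ z, ‖κ z‖) * ∫ y, f y ω ^ 2) ∂(nu.prod m) := by
        apply mul_le_mul_of_nonneg_left _ hK0
        have hi1 : Integrable (fun ω => ∫ x in T.table, A x ω) (nu.prod m) := by
          unfold muT at hAint
          exact hAint.integral_prod_right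
        have hi2 : Integrable (fun ω => (∫ z, ‖κ z‖) * ∫ y, f y ω ^ 2) (nu.prod m) := by
          apply Integrable.const_mul
          have h1 : StronglyMeasurable (Function.uncurry fun (ω : ℂ × Ω) (y : ℂ) => f y ω ^ 2) :=
            ((hm.comp (measurable_snd.prodMk measurable_fst)).pow_const 2).stronglyMeasurable
          refine Integrable.of_bound h1.integral_prod_right.aestronglyMeasurable
            (C ^ 2 * (volume.real (Metric.closedBall (0 : ℂ) r)))
            (Eventually.of_forall fun ω => ?_)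
          rw [Real.norm_eq_abs, abs_of_nonneg (integral_nonneg fun y => sq_nonneg _)]
          have h2 : ∫ y, f y ω ^ 2 = ∫ y in Metric.closedBall (0 : ℂ) r, f y ω ^ 2 := by
            rw [setIntegral_eq_integral_of_forall_compl_eq_zero]
            intro y hy
            rw [Metric.mem_closedBall, dist_zero_right, not_le] at hy
            rw [hr y ω hy.le]
            simp
          rw [h2]
          have h3 := setIntegral_mono_on (f := fun y => f y ω ^ 2) (g := fun _ => C ^ 2)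
            (s := Metric.closedBall (0 : ℂ) r) (μ := volume) ?_ ?_ measurableSet_closedBall ?_
          · refine h3.trans ?_
            rw [setIntegral_const, smul_eq_mul, mul_comm]
          · refine Integrable.of_bound (((hm.comp
              (measurable_id.prodMk measurable_const)).pow_const 2).aestronglyMeasurable) (C ^ 2)
              (Eventually.of_forall fun y => ?_)
            rw [Real.norm_eq_abs, abs_pow]
            exact pow_le_pow_left₀ (abs_nonneg _) (hC y ω) 2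
          · exact integrableOn_const (by exact measure_closedBall_lt_top.ne) (by simp)
          · intro y _
            rw [← sq_abs]
            exact pow_le_pow_left₀ (abs_nonneg _) (hC y ω) 2
        exact integral_mono hi1 hi2 hinner
    _ = (∫ z, ‖κ z‖) ^ 2 * ∫ ω, (∫ y, f y ω ^ 2) ∂(nu.prod m) := by
        rw [integral_const_mul]
        ring

end Triangle

end Vale.Agent.P099
end
end

section

section

open MeasureTheory Set Filter Topology

set_option linter.unusedSectionVars false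

namespace Vale.Agent.P099

variable {Ω : Type} [MeasurableSpace Ω]

/-! ### measurability and boundedness of mollifications, gradients, extensions -/

lemma measurable_grd (ε : ℝ) {f : ℂ → ℂ × Ω → ℝ} (hf : Bdd f) :
    Measurable (fun p : ℂ × (ℂ × Ω) => grd ε f p.1 p.2) :=
  measurable_kcv (continuous_kap ε) hf

lemma norm_grd_le {ε : ℝ} (hε : 0 < ε) {f : ℂ → ℂ × Ω → ℝ} {C : ℝ} (hC : ∀ y ω, |f y ω| ≤ C)
    (x : ℂ) (ω : ℂ × Ω) : ‖grd ε f x ω‖ ≤ (∫ z, ‖kap ε z‖) * C :=
  norm_kcv_le (continuous_kap ε) (hasCompactSupport_kap hε) hC x ω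

lemma exists_norm_grd_le {ε : ℝ} (hε : 0 < ε) {f : ℂ → ℂ × Ω → ℝ} (hf : Bdd f) :
    ∃ C : ℝ, ∀ x ω, ‖grd ε f x ω‖ ≤ C := by
  obtain ⟨_, C, hC⟩ := hf
  exact ⟨_, fun x ω => norm_grd_le hε hC x ω⟩

lemma Bdd.mol {ε : ℝ} (hε : 0 < ε) {f : ℂ → ℂ × Ω → ℝ} (hf : Bdd f) : Bdd (mol ε f) := by
  obtain ⟨_, C, hC⟩ := id hf
  exact ⟨measurable_mol ε hf, C, fun x ω => abs_mol_le hε hC x ω⟩

lemma BddSupp.mol {ε : ℝ} (hε : 0 < ε) {f : ℂ → ℂ × Ω → ℝ} (hf : BddSupp f) :
    BddSupp (mol ε f) := by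
  obtain ⟨hb, r, hr⟩ := hf
  refine ⟨hb.mol hε, r + ε, fun x ω hx => ?_⟩
  unfold Vale.Agent.P099.mol
  have h1 : ∀ y, rho ε (x - y) * f y ω = 0 := by
    intro y
    rcases le_or_gt r ‖y‖ with h | h
    · rw [hr y ω h, mul_zero]
    · rw [rho_eq_zero hε, zero_mul]
      have := norm_sub_norm_le x y
      linarith
  simp only [h1, integral_zero]

lemma BddSupp.grd_eq_zero {ε : ℝ} (hε : 0 < ε) {f : ℂ → ℂ × Ω → ℝ} (hf : BddSupp f) :
    ∃ r : ℝ, ∀ x ω, r ≤ ‖x‖ → grd ε f x ω = 0 := by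
  obtain ⟨hb, r, hr⟩ := hf
  refine ⟨r + ε, fun x ω hx => ?_⟩
  unfold grd
  have h1 : ∀ y, kap ε (x - y) * (f y ω : ℂ) = 0 := by
    intro y
    rcases le_or_gt r ‖y‖ with h | h
    · rw [hr y ω h]
      simp
    · rw [kap_eq_zero hε, zero_mul]
      have := norm_sub_norm_le x y
      linarith
  simp only [h1, integral_zero]

/-- basic operations on bounded functions -/
lemma Bdd.add {f g : ℂ → ℂ × Ω → ℝ} (hf : Bdd f) (hg : Bdd g) :
    Bdd (fun x ω => f x ω + g x ω) := by
  obtain ⟨h1, C, hC⟩ := hf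
  obtain ⟨h2, D, hD⟩ := hg
  exact ⟨h1.add h2, C + D, fun y ω => (abs_add_le _ _).trans (add_le_add (hC y ω) (hD y ω))⟩

lemma Bdd.sub {f g : ℂ → ℂ × Ω → ℝ} (hf : Bdd f) (hg : Bdd g) :
    Bdd (fun x ω => f x ω - g x ω) := by
  obtain ⟨h1, C, hC⟩ := hf
  obtain ⟨h2, D, hD⟩ := hg
  exact ⟨h1.sub h2, C + D, fun y ω => (abs_sub _ _).trans (add_le_add (hC y ω) (hD y ω))⟩

lemma Bdd.mul {f g : ℂ → ℂ × Ω → ℝ} (hf : Bdd f) (hg : Bdd g) :
    Bdd (fun x ω => f x ω * g x ω) := by
  obtain ⟨h1, C, hC⟩ := hf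
  obtain ⟨h2, D, hD⟩ := hg
  refine ⟨h1.mul h2, |C| * |D|, fun y ω => ?_⟩
  rw [abs_mul]
  exact mul_le_mul ((hC y ω).trans (le_abs_self _)) ((hD y ω).trans (le_abs_self _))
    (abs_nonneg _) (abs_nonneg _)

lemma Bdd.section {f : ℂ → ℂ × Ω → ℝ} (hf : Bdd f) (ω : ℂ × Ω) : Measurable fun y => f y ω :=
  hf.1.comp (measurable_id.prodMk measurable_const)

lemma BddSupp.sub {f g : ℂ → ℂ × Ω → ℝ} (hf : BddSupp f) (hg : BddSupp g) :
    BddSupp (fun x ω => f x ω - g x ω) := by
  obtain ⟨h1, r, hr⟩ := hf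
  obtain ⟨h2, s, hs⟩ := hg
  refine ⟨h1.sub h2, max r s, fun y ω hy => ?_⟩
  change f y ω - g y ω = 0
  rw [hr y ω ((le_max_left _ _).trans hy), hs y ω ((le_max_right _ _).trans hy), sub_zero]

lemma BddSupp.add {f g : ℂ → ℂ × Ω → ℝ} (hf : BddSupp f) (hg : BddSupp g) :
    BddSupp (fun x ω => f x ω + g x ω) := by
  obtain ⟨h1, r, hr⟩ := hf
  obtain ⟨h2, s, hs⟩ := hg
  refine ⟨h1.add h2, max r s, fun y ω hy => ?_⟩
  change f y ω + g y ω = 0
  rw [hr y ω ((le_max_left _ _).trans hy), hs y ω ((le_max_right _ _).trans hy), add_zero]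

lemma BddSupp.mul_left {f g : ℂ → ℂ × Ω → ℝ} (hf : Bdd f) (hg : BddSupp g) :
    BddSupp (fun x ω => f x ω * g x ω) := by
  obtain ⟨h2, s, hs⟩ := hg
  refine ⟨hf.mul h2, s, fun y ω hy => ?_⟩
  change f y ω * g y ω = 0
  rw [hs y ω hy, mul_zero]

/-- a bounded function supported in a bounded set of positions -/
lemma Bdd.bddSupp_indicator {f : ℂ → ℂ × Ω → ℝ} (hf : Bdd f) {K : Set ℂ}
    (hK : MeasurableSet K) (hKb : Bornology.IsBounded K) :
    BddSupp (fun x ω => K.indicator (fun y => f y ω) x) := by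
  obtain ⟨h1, C, hC⟩ := hf
  obtain ⟨r, hr⟩ := hKb.subset_ball (0 : ℂ)
  refine ⟨⟨?_, |C|, fun y ω => ?_⟩, r, fun y ω hy => ?_⟩
  · have : (fun p : ℂ × (ℂ × Ω) => K.indicator (fun y => f y p.2) p.1) =
        (Prod.fst ⁻¹' K).indicator (fun p : ℂ × (ℂ × Ω) => f p.1 p.2) := by
      funext p
      by_cases hp : p.1 ∈ K
      · rw [indicator_of_mem hp, indicator_of_mem (by exact hp)]
      · rw [indicator_of_notMem hp, indicator_of_notMem (by exact hp)]
    rw [this]
    exact h1.indicator (measurable_fst hK)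
  · change |K.indicator (fun y => f y ω) y| ≤ |C|
    by_cases hp : y ∈ K
    · rw [indicator_of_mem hp]
      exact (hC y ω).trans (le_abs_self _)
    · rw [indicator_of_notMem hp, abs_zero]
      exact abs_nonneg _
  · change K.indicator (fun y => f y ω) y = 0
    rw [indicator_of_notMem]
    intro hyK
    have := hr hyK
    rw [mem_ball_zero_iff] at this
    linarith only [hy, this]

namespace Triangle

variable (T : Triangle)

lemma isBounded_table : Bornology.IsBounded T.table := by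
  refine Bornology.IsBounded.subset ?_ interior_subset
  exact isBounded_convexHull.2 (finite_range T.P).isBounded

lemma measurableSet_table : MeasurableSet T.table := T.isOpen_table.measurableSet

lemma measurableSet_R_table (i : Fin 3) : MeasurableSet (T.R i ⁻¹' T.table) :=
  (T.isOpen_table.preimage (T.continuous_R i)).measurableSet

lemma isBounded_R_table (i : Fin 3) : Bornology.IsBounded (T.R i ⁻¹' T.table) := by
  obtain ⟨r, hr⟩ := T.isBounded_table.subset_ball (T.R i 0)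
  refine (Metric.isBounded_ball (x := (0 : ℂ)) (r := r)).subset fun y hy => ?_
  have h1 := hr hy
  rw [Metric.mem_ball, dist_eq_norm, T.norm_R_sub_R] at h1
  rw [Metric.mem_ball, dist_eq_norm]
  exact h1

/-- `f` in the reflected coordinates -/
lemma bdd_refl {f : ℂ → ℂ × Ω → ℝ} (hf : Bdd f) (i : Fin 3) :
    Bdd (fun y ω => f (T.R i y) (T.refl i ω.1, ω.2)) := by
  obtain ⟨h1, C, hC⟩ := hf
  refine ⟨?_, C, fun y ω => hC _ _⟩
  exact h1.comp (((T.continuous_R i).measurable.comp measurable_fst).prodMk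
    (((T.continuous_refl i).measurable.comp (measurable_fst.comp measurable_snd)).prodMk
      (measurable_snd.comp measurable_snd)))

lemma ext_eq (f : ℂ → ℂ × Ω → ℝ) (y : ℂ) (ω : ℂ × Ω) :
    T.ext f y ω = T.table.indicator (fun y => f y ω) y +
      (T.R 0 ⁻¹' T.table).indicator (fun y => f (T.R 0 y) (T.refl 0 ω.1, ω.2)) y +
      (T.R 1 ⁻¹' T.table).indicator (fun y => f (T.R 1 y) (T.refl 1 ω.1, ω.2)) y +
      (T.R 2 ⁻¹' T.table).indicator (fun y => f (T.R 2 y) (T.refl 2 ω.1, ω.2)) y := by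
  unfold ext
  rw [Fin.sum_univ_three]
  ring

lemma _root_.Vale.Agent.P099.Bdd.ext (T : Triangle) {f : ℂ → ℂ × Ω → ℝ} (hf : Bdd f) :
    BddSupp (T.ext f) := by
  have h0 := hf.bddSupp_indicator T.measurableSet_table T.isBounded_table
  have hi : ∀ i, BddSupp (fun y (ω : ℂ × Ω) => (T.R i ⁻¹' T.table).indicator
      (fun y => f (T.R i y) (T.refl i ω.1, ω.2)) y) := fun i =>
    (T.bdd_refl hf i).bddSupp_indicator (T.measurableSet_R_table i) (T.isBounded_R_table i)
  have := ((h0.add (hi 0)).add (hi 1)).add (hi 2)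
  have he : T.ext f = fun y ω => T.table.indicator (fun y => f y ω) y +
      (T.R 0 ⁻¹' T.table).indicator (fun y => f (T.R 0 y) (T.refl 0 ω.1, ω.2)) y +
      (T.R 1 ⁻¹' T.table).indicator (fun y => f (T.R 1 y) (T.refl 1 ω.1, ω.2)) y +
      (T.R 2 ⁻¹' T.table).indicator (fun y => f (T.R 2 y) (T.refl 2 ω.1, ω.2)) y := by
    funext y ω
    exact T.ext_eq f y ω
  rw [he]
  exact this

lemma disjoint_table_R (i : Fin 3) {y : ℂ} (hy : y ∈ T.table) : T.R i y ∉ T.table := by
  intro h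
  have h1 := (T.mem_table_iff y).1 hy i
  have h2 := (T.mem_table_iff _).1 h i
  rw [T.lam_R] at h2
  linarith only [h1, h2]

lemma ext_of_mem_table (f : ℂ → ℂ × Ω → ℝ) {y : ℂ} (hy : y ∈ T.table) (ω : ℂ × Ω) :
    T.ext f y ω = f y ω := by
  have hi : ∀ i, y ∉ T.R i ⁻¹' T.table := fun i => T.disjoint_table_R i hy
  rw [T.ext_eq, indicator_of_mem hy, indicator_of_notMem (hi 0), indicator_of_notMem (hi 1),
    indicator_of_notMem (hi 2)]
  ring

lemma ext_sub (f g : ℂ → ℂ × Ω → ℝ) :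
    T.ext (fun x ω => f x ω - g x ω) = fun x ω => T.ext f x ω - T.ext g x ω := by
  funext y ω
  rw [T.ext_eq, T.ext_eq, T.ext_eq]
  have h : ∀ (S : Set ℂ) (a b : ℂ → ℝ), S.indicator (fun y => a y - b y) y =
      S.indicator a y - S.indicator b y := by
    intro S a b
    by_cases hy : y ∈ S
    · simp only [indicator_of_mem hy]
    · simp only [indicator_of_notMem hy, sub_zero]
  rw [h, h, h, h]
  ring

lemma ext_add (f g : ℂ → ℂ × Ω → ℝ) :
    T.ext (fun x ω => f x ω + g x ω) = fun x ω => T.ext f x ω + T.ext g x ω := by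
  funext y ω
  rw [T.ext_eq, T.ext_eq, T.ext_eq]
  have h : ∀ (S : Set ℂ) (a b : ℂ → ℝ), S.indicator (fun y => a y + b y) y =
      S.indicator a y + S.indicator b y := by
    intro S a b
    by_cases hy : y ∈ S
    · simp only [indicator_of_mem hy]
    · simp only [indicator_of_notMem hy, add_zero]
  rw [h, h, h, h]
  ring

end Triangle

/-- bounded functions with bounded support are integrable in the position -/
lemma BddSupp.integrable {f : ℂ → ℂ × Ω → ℝ} (hf : BddSupp f) (ω : ℂ × Ω) :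
    Integrable fun y => f y ω := by
  obtain ⟨hb, r, hr⟩ := hf
  have hm := hb.section ω
  obtain ⟨_, C, hC⟩ := hb
  have hfb : IsFiniteMeasure (volume.restrict (Metric.closedBall (0 : ℂ) r)) :=
    ⟨by rw [Measure.restrict_apply_univ]; exact measure_closedBall_lt_top⟩
  have h1 : IntegrableOn (fun y => f y ω) (Metric.closedBall 0 r) :=
    Integrable.of_bound hm.aestronglyMeasurable C (Eventually.of_forall fun y => hC y ω)
  rw [integrableOn_iff_integrable_of_support_subset] at h1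
  · exact h1
  · intro y hy
    rw [Metric.mem_closedBall, dist_zero_right]
    by_contra hlt
    exact hy (hr y ω (not_le.1 hlt).le)

/-- bounded functions are locally integrable in the position -/
lemma Bdd.locallyIntegrable {f : ℂ → ℂ × Ω → ℝ} (hf : Bdd f) (ω : ℂ × Ω) :
    LocallyIntegrable fun y => f y ω := by
  have hm := hf.section ω
  obtain ⟨_, C, hC⟩ := hf
  rw [locallyIntegrable_iff]
  intro K hK
  have hfb : IsFiniteMeasure (volume.restrict K) :=
    ⟨by rw [Measure.restrict_apply_univ]; exact hK.measure_lt_top⟩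
  exact Integrable.of_bound hm.aestronglyMeasurable C (Eventually.of_forall fun y => hC y ω)

lemma mol_sub {ε : ℝ} (hε : 0 < ε) {f g : ℂ → ℂ × Ω → ℝ} (hf : Bdd f) (hg : Bdd g)
    (x : ℂ) (ω : ℂ × Ω) :
    mol ε (fun x ω => f x ω - g x ω) x ω = mol ε f x ω - mol ε g x ω := by
  have hk : Integrable fun y => rho ε (x - y) :=
    (((rho_contDiff ε).continuous.integrable_of_hasCompactSupport
      (hasCompactSupport_rho hε))).comp_sub_left x
  obtain ⟨C, hC⟩ := hf.2
  obtain ⟨D, hD⟩ := hg.2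
  have h1 : Integrable fun y => rho ε (x - y) * f y ω :=
    hk.mul_bdd (c := C) (hf.section ω).aestronglyMeasurable
      (Eventually.of_forall fun y => hC y ω)
  have h2 : Integrable fun y => rho ε (x - y) * g y ω :=
    hk.mul_bdd (c := D) (hg.section ω).aestronglyMeasurable
      (Eventually.of_forall fun y => hD y ω)
  unfold mol
  rw [← integral_sub h1 h2]
  refine integral_congr_ae (Eventually.of_forall fun y => ?_)
  simp only
  ring

lemma mol_add {ε : ℝ} (hε : 0 < ε) {f g : ℂ → ℂ × Ω → ℝ} (hf : Bdd f) (hg : Bdd g)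
    (x : ℂ) (ω : ℂ × Ω) :
    mol ε (fun x ω => f x ω + g x ω) x ω = mol ε f x ω + mol ε g x ω := by
  have hk : Integrable fun y => rho ε (x - y) :=
    (((rho_contDiff ε).continuous.integrable_of_hasCompactSupport
      (hasCompactSupport_rho hε))).comp_sub_left x
  obtain ⟨C, hC⟩ := hf.2
  obtain ⟨D, hD⟩ := hg.2
  have h1 : Integrable fun y => rho ε (x - y) * f y ω :=
    hk.mul_bdd (c := C) (hf.section ω).aestronglyMeasurable
      (Eventually.of_forall fun y => hC y ω)
  have h2 : Integrable fun y => rho ε (x - y) * g y ω :=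
    hk.mul_bdd (c := D) (hg.section ω).aestronglyMeasurable
      (Eventually.of_forall fun y => hD y ω)
  unfold mol
  rw [← integral_add h1 h2]
  refine integral_congr_ae (Eventually.of_forall fun y => ?_)
  simp only
  ring

lemma grd_sub {ε : ℝ} (hε : 0 < ε) {f g : ℂ → ℂ × Ω → ℝ} (hf : Bdd f) (hg : Bdd g)
    (x : ℂ) (ω : ℂ × Ω) :
    grd ε (fun x ω => f x ω - g x ω) x ω = grd ε f x ω - grd ε g x ω := by
  have hk : Integrable fun y => kap ε (x - y) := (integrable_kap hε).comp_sub_left x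
  obtain ⟨C, hC⟩ := hf.2
  obtain ⟨D, hD⟩ := hg.2
  have h1 : Integrable fun y => kap ε (x - y) * (f y ω : ℂ) :=
    hk.mul_bdd (c := C) (Complex.measurable_ofReal.comp (hf.section ω)).aestronglyMeasurable
      (Eventually.of_forall fun y => by
        simp only [Complex.norm_real, Real.norm_eq_abs]; exact hC y ω)
  have h2 : Integrable fun y => kap ε (x - y) * (g y ω : ℂ) :=
    hk.mul_bdd (c := D) (Complex.measurable_ofReal.comp (hg.section ω)).aestronglyMeasurable
      (Eventually.of_forall fun y => by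
        simp only [Complex.norm_real, Real.norm_eq_abs]; exact hD y ω)
  unfold grd
  rw [← integral_sub h1 h2]
  refine integral_congr_ae (Eventually.of_forall fun y => ?_)
  simp only
  push_cast
  ring

end Vale.Agent.P099
end
end

section

section

open MeasureTheory Set Filter Topology

namespace Vale.Agent.P099

namespace Rig

section basic
variable {β : Type*} [MeasurableSpace β] {μ : Measure β}

lemma cs {f g : β → ℝ} (hf : Integrable (fun x => f x ^ 2) μ) (hg : Integrable (fun x => g x ^ 2) μ)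
    (hfg : Integrable (fun x => f x * g x) μ) :
    (∫ x, f x * g x ∂μ) ^ 2 ≤ (∫ x, f x ^ 2 ∂μ) * ∫ x, g x ^ 2 ∂μ := by
  have key : ∀ t : ℝ, 0 ≤ (∫ x, f x ^ 2 ∂μ) * (t * t) + (2 * ∫ x, f x * g x ∂μ) * t +
      ∫ x, g x ^ 2 ∂μ := by
    intro t
    have h1 : ∫ x, (t * f x + g x) ^ 2 ∂μ = (∫ x, f x ^ 2 ∂μ) * (t * t) +
        (2 * ∫ x, f x * g x ∂μ) * t + ∫ x, g x ^ 2 ∂μ := by
      have h2 : (fun x => (t * f x + g x) ^ 2) =
          fun x => (f x ^ 2 * (t * t) + (f x * g x) * (2 * t)) + g x ^ 2 := by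
        funext x; ring
      have i12 : Integrable (fun x => f x ^ 2 * (t * t) + (f x * g x) * (2 * t)) μ :=
        (hf.mul_const _).add (hfg.mul_const _)
      rw [h2, integral_add i12 hg, integral_add (hf.mul_const _) (hfg.mul_const _),
        integral_mul_const, integral_mul_const]
      ring
    rw [← h1]
    exact integral_nonneg fun x => sq_nonneg _
  have := discrim_le_zero key
  unfold discrim at this
  linarith

lemma int_bdd [IsFiniteMeasure μ] {E : Type*} [NormedAddCommGroup E] [MeasurableSpace E]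
    [BorelSpace E] [SecondCountableTopology E] {f : β → E} (hf : Measurable f) {C : ℝ}
    (hC : ∀ᵐ x ∂μ, ‖f x‖ ≤ C) : Integrable f μ :=
  Integrable.of_bound hf.aestronglyMeasurable C hC

lemma int_sq [IsFiniteMeasure μ] {f : β → ℂ} (hf : Measurable f) {C : ℝ}
    (hC : ∀ᵐ x ∂μ, ‖f x‖ ≤ C) : Integrable (fun x => ‖f x‖ ^ 2) μ := by
  refine int_bdd (hf.norm.pow_const 2) (C := C ^ 2) ?_
  filter_upwards [hC] with x hx
  rw [Real.norm_of_nonneg (by positivity)]
  gcongr

lemma cs_norm [IsFiniteMeasure μ] {f g : β → ℂ} (hf : Measurable f) (hg : Measurable g) {C K : ℝ}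
    (hC : ∀ᵐ x ∂μ, ‖f x‖ ≤ C) (hK : ∀ᵐ x ∂μ, ‖g x‖ ≤ K) :
    ‖∫ x, f x * g x ∂μ‖ ^ 2 ≤ (∫ x, ‖f x‖ ^ 2 ∂μ) * ∫ x, ‖g x‖ ^ 2 ∂μ := by
  have i1 := int_sq hf hC
  have i2 := int_sq hg hK
  have i3 : Integrable (fun x => ‖f x‖ * ‖g x‖) μ := by
    refine int_bdd (hf.norm.mul hg.norm) (C := C * K) ?_
    filter_upwards [hC, hK] with x hx hx'
    rw [Real.norm_of_nonneg (by (clear * -; positivity))]
    exact mul_le_mul hx hx' (norm_nonneg _) ((norm_nonneg _).trans hx)
  refine le_trans ?_ (cs i1 i2 i3)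
  gcongr
  calc ‖∫ x, f x * g x ∂μ‖ ≤ ∫ x, ‖f x * g x‖ ∂μ := norm_integral_le_integral_norm _
    _ = ∫ x, ‖f x‖ * ‖g x‖ ∂μ := by simp only [norm_mul]

end basic

/-- bounded measurable -/
def BC {α : Type} [MeasurableSpace α] (F : ℂ → α → ℂ) : Prop :=
  Measurable (fun p : ℂ × α => F p.1 p.2) ∧ ∃ C : ℝ, 0 ≤ C ∧ ∀ x a, ‖F x a‖ ≤ C

section BC
variable {α : Type} [MeasurableSpace α]

lemma BC.add {F G : ℂ → α → ℂ} (hF : BC F) (hG : BC G) : BC (fun x a => F x a + G x a) := by
  obtain ⟨hm, C, hC0, hC⟩ := hF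
  obtain ⟨hm', C', hC0', hC'⟩ := hG
  exact ⟨hm.add hm', C + C', by positivity, fun x a =>
    (norm_add_le _ _).trans (add_le_add (hC x a) (hC' x a))⟩

lemma BC.neg {F : ℂ → α → ℂ} (hF : BC F) : BC (fun x a => - F x a) := by
  obtain ⟨hm, C, hC0, hC⟩ := hF
  exact ⟨hm.neg, C, hC0, fun x a => by rw [norm_neg]; exact hC x a⟩

lemma BC.sub {F G : ℂ → α → ℂ} (hF : BC F) (hG : BC G) : BC (fun x a => F x a - G x a) := by
  simpa [sub_eq_add_neg] using hF.add hG.neg

lemma BC.conj {F : ℂ → α → ℂ} (hF : BC F) : BC (fun x a => (starRingEnd ℂ) (F x a)) := by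
  obtain ⟨hm, C, hC0, hC⟩ := hF
  exact ⟨(Complex.continuous_conj.measurable).comp hm, C, hC0, fun x a => by
    rw [Complex.norm_conj]; exact hC x a⟩

lemma BC.of_real {F : ℂ → α → ℝ} (hm : Measurable (fun p : ℂ × α => F p.1 p.2)) {C : ℝ}
    (hC : ∀ x a, |F x a| ≤ C) : BC (fun x a => (F x a : ℂ)) :=
  ⟨Complex.measurable_ofReal.comp hm, max C 0, le_max_right _ _, fun x a => by
    rw [Complex.norm_real]; exact (hC x a).trans (le_max_left _ _)⟩

variable (A : Set ℂ) (κ : Measure α)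

/-- squared norm -/
noncomputable def N2 (F : ℂ → α → ℂ) : ℝ := ∫ x in A, ∫ a, ‖F x a‖ ^ 2 ∂κ

lemma N2_nonneg (F : ℂ → α → ℂ) : 0 ≤ N2 A κ F :=
  integral_nonneg fun x => integral_nonneg fun a => by positivity

variable {A κ}

lemma BC.int_prod [IsFiniteMeasure (volume.restrict A)] [IsFiniteMeasure κ] {F : ℂ → α → ℂ}
    (hF : BC F) : Integrable (fun p : ℂ × α => ‖F p.1 p.2‖ ^ 2) ((volume.restrict A).prod κ) := by
  obtain ⟨hm, C, hC0, hC⟩ := hF
  exact int_sq hm (Eventually.of_forall fun p => hC p.1 p.2)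

lemma N2_eq_prod [IsFiniteMeasure (volume.restrict A)] [IsFiniteMeasure κ] {F : ℂ → α → ℂ}
    (hF : BC F) : N2 A κ F = ∫ p, ‖F p.1 p.2‖ ^ 2 ∂((volume.restrict A).prod κ) := by
  rw [integral_prod _ hF.int_prod]
  rfl

lemma N2_eq_swap [IsFiniteMeasure (volume.restrict A)] [IsFiniteMeasure κ] {F : ℂ → α → ℂ}
    (hF : BC F) : N2 A κ F = ∫ a, (∫ x in A, ‖F x a‖ ^ 2) ∂κ := by
  rw [N2_eq_prod hF, integral_prod_symm _ hF.int_prod]

lemma N2_add_le [IsFiniteMeasure (volume.restrict A)] [IsFiniteMeasure κ] {F G : ℂ → α → ℂ}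
    (hF : BC F) (hG : BC G) :
    N2 A κ (fun x a => F x a + G x a) ≤ 2 * N2 A κ F + 2 * N2 A κ G := by
  rw [N2_eq_prod hF, N2_eq_prod hG, N2_eq_prod (hF.add hG), ← integral_const_mul,
    ← integral_const_mul, ← integral_add (hF.int_prod.const_mul _) (hG.int_prod.const_mul _)]
  refine integral_mono (hF.add hG).int_prod
    ((hF.int_prod.const_mul _).add (hG.int_prod.const_mul _)) fun p => ?_
  have h1 : ‖F p.1 p.2 + G p.1 p.2‖ ≤ ‖F p.1 p.2‖ + ‖G p.1 p.2‖ := norm_add_le _ _
  have h2 : ‖F p.1 p.2 + G p.1 p.2‖ ^ 2 ≤ (‖F p.1 p.2‖ + ‖G p.1 p.2‖) ^ 2 := by (clear * - h1; gcongr)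
  show ‖F p.1 p.2 + G p.1 p.2‖ ^ 2 ≤ 2 * ‖F p.1 p.2‖ ^ 2 + 2 * ‖G p.1 p.2‖ ^ 2
  linarith only [sq_nonneg (‖F p.1 p.2‖ - ‖G p.1 p.2‖), h2]

end BC

lemma meas_zpow (k : ℤ) : Measurable (fun u : ℂ => u ^ k) := by
  measurability

lemma norm_zpow_ae (k : ℤ) : ∀ᵐ u ∂nu, ‖u ^ k‖ = 1 := by
  filter_upwards [ae_norm] with u hu
  rw [norm_zpow, hu, one_zpow]

variable {Ω : Type} [MeasurableSpace Ω]

lemma BC.md {F : ℂ → ℂ × Ω → ℂ} (hF : BC F) (k : ℤ) : BC (md k F) := by
  obtain ⟨hm, C, hC0, hC⟩ := hF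
  constructor
  · have h1 : StronglyMeasurable (Function.uncurry
        (fun (p : ℂ × Ω) (u : ℂ) => F p.1 (u, p.2) * u ^ (-k))) := by
      refine Measurable.stronglyMeasurable ?_
      refine Measurable.mul ?_ ?_
      · exact hm.comp (Measurable.prodMk (by fun_prop) (by fun_prop))
      · exact (meas_zpow (-k)).comp measurable_snd
    exact (h1.integral_prod_right (ν := nu)).measurable
  · refine ⟨C, hC0, fun x q => ?_⟩
    unfold Vale.Agent.P099.md
    have := norm_integral_le_of_norm_le_const (μ := nu)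
      (f := fun u => F x (u, q) * u ^ (-k)) (C := C) (by
        filter_upwards [norm_zpow_ae (-k)] with u hu
        rw [norm_mul, hu, mul_one]; exact hC _ _)
    simpa only [zpow_neg, ge_iff_le, probReal_univ, mul_one] using this

lemma memLp_of_bdd {f : ℂ → ℂ} (hm : Measurable f) {C : ℝ} (hC : ∀ᵐ u ∂nu, ‖f u‖ ≤ C) :
    MemLp f 2 nu := MemLp.of_bound hm.aestronglyMeasurable C hC

lemma sum_mode_le {f : ℂ → ℂ} (hm : Measurable f) {C : ℝ} (hC : ∀ᵐ u ∂nu, ‖f u‖ ≤ C)
    (s : Finset ℤ) : ∑ k ∈ s, ‖mode k f‖ ^ 2 ≤ ∫ u, ‖f u‖ ^ 2 ∂nu :=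
  bessel f (memLp_of_bdd hm hC) s

lemma mode_le {f : ℂ → ℂ} (hm : Measurable f) {C : ℝ} (hC : ∀ᵐ u ∂nu, ‖f u‖ ≤ C)
    (k : ℤ) : ‖mode k f‖ ^ 2 ≤ ∫ u, ‖f u‖ ^ 2 ∂nu := by
  simpa only [Finset.sum_singleton] using sum_mode_le hm hC { k }

lemma meas_slice {F : ℂ → ℂ × Ω → ℂ} (hm : Measurable (fun p : ℂ × (ℂ × Ω) => F p.1 p.2)) (x : ℂ)
    (q : Ω) : Measurable (fun u : ℂ => F x (u, q)) :=
  hm.comp (Measurable.prodMk measurable_const (Measurable.prodMk measurable_id measurable_const))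

variable {A : Set ℂ} {m : Measure Ω}

/-- integrated Bessel inequality -/
lemma sum_N2_md_le [IsFiniteMeasure (volume.restrict A)] [IsProbabilityMeasure m]
    {F : ℂ → ℂ × Ω → ℂ} (hF : BC F) (s : Finset ℤ) :
    ∑ k ∈ s, N2 A m (md k F) ≤ N2 A (nu.prod m) F := by
  obtain ⟨hm, C, hC0, hC⟩ := id hF
  have h1 : ∑ k ∈ s, N2 A m (md k F) =
      ∫ p, ∑ k ∈ s, ‖md k F p.1 p.2‖ ^ 2 ∂((volume.restrict A).prod m) := by
    rw [integral_finsetSum _ fun k _ => (hF.md k).int_prod]
    exact Finset.sum_congr rfl fun k _ => N2_eq_prod (hF.md k)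
  have hI : Integrable (fun p : ℂ × Ω => ∫ u, ‖F p.1 (u, p.2)‖ ^ 2 ∂nu)
      ((volume.restrict A).prod m) := by
    refine int_bdd ?_ (C := C ^ 2) (Eventually.of_forall fun p => ?_)
    · have h1 : StronglyMeasurable (Function.uncurry
        (fun (p : ℂ × Ω) (u : ℂ) => ‖F p.1 (u, p.2)‖ ^ 2)) := by
        refine Measurable.stronglyMeasurable ?_
        exact (hm.comp (Measurable.prodMk (by fun_prop) (by fun_prop))).norm.pow_const 2
      exact (h1.integral_prod_right (ν := nu)).measurable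
    · have := norm_integral_le_of_norm_le_const (μ := nu)
        (f := fun u => ‖F p.1 (u, p.2)‖ ^ 2) (C := C ^ 2) (Eventually.of_forall fun u => by
          rw [Real.norm_of_nonneg (by (clear * -; positivity))]
          have := hC p.1 (u, p.2)
          gcongr)
      simpa only [Real.norm_eq_abs, ge_iff_le, probReal_univ, mul_one] using this
  have h2 : N2 A (nu.prod m) F =
      ∫ p, (∫ u, ‖F p.1 (u, p.2)‖ ^ 2 ∂nu) ∂((volume.restrict A).prod m) := by
    rw [integral_prod _ hI]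
    unfold N2
    congr 1
    funext x
    have hI2 : Integrable (fun ω : ℂ × Ω => ‖F x ω‖ ^ 2) (nu.prod m) :=
      int_sq (hm.comp (Measurable.prodMk measurable_const measurable_id))
        (Eventually.of_forall fun ω => hC x ω)
    rw [integral_prod_symm _ hI2]
  rw [h1, h2]
  refine integral_mono (integrable_finsetSum _ fun k _ => (hF.md k).int_prod) hI fun p => ?_
  exact sum_mode_le (meas_slice hm p.1 p.2) (Eventually.of_forall fun u => hC p.1 (u, p.2)) s

lemma N2_md_le [IsFiniteMeasure (volume.restrict A)] [IsProbabilityMeasure m]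
    {F : ℂ → ℂ × Ω → ℂ} (hF : BC F) (k : ℤ) :
    N2 A m (md k F) ≤ N2 A (nu.prod m) F := by
  simpa only [Finset.sum_singleton] using sum_N2_md_le (A := A) (m := m) hF { k }

lemma tendsto_N2_md [IsFiniteMeasure (volume.restrict A)] [IsProbabilityMeasure m]
    {F : ℂ → ℂ × Ω → ℂ} (hF : BC F) :
    Tendsto (fun k : ℤ => N2 A m (md k F)) cofinite (𝓝 0) :=
  (summable_of_sum_le (fun _ => N2_nonneg A m _) (sum_N2_md_le hF)).tendsto_cofinite_zero

end Rig

end Vale.Agent.P099
end
end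

section

section

open MeasureTheory Set Filter Topology

namespace Vale.Agent.P099

namespace Rig

set_option linter.unusedSectionVars false

variable {Ω : Type} [MeasurableSpace Ω]

/-! ### mollification of bounded functions with bounded support -/

lemma measurable_rho (ε : ℝ) : Measurable (rho ε) := (rho_contDiff ε).continuous.measurable

lemma integrable_rho {ε : ℝ} (hε : 0 < ε) : Integrable (rho ε) volume :=
  (rho_contDiff ε).continuous.integrable_of_hasCompactSupport (hasCompactSupport_rho hε)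

lemma hasCompactSupport_kap {ε : ℝ} (hε : 0 < ε) : HasCompactSupport (kap ε) := by
  refine HasCompactSupport.of_support_subset_isCompact (isCompact_closedBall (0 : ℂ) ε) ?_
  intro z hz
  rw [mem_closedBall_zero_iff]
  by_contra hcon
  exact hz (kap_eq_zero hε (not_le.mp hcon).le)

lemma integrable_kap {ε : ℝ} (hε : 0 < ε) : Integrable (kap ε) volume :=
  (continuous_kap ε).integrable_of_hasCompactSupport (hasCompactSupport_kap hε)

lemma abs_conv_le {κ : ℂ → ℂ} (hκ : Integrable κ volume) {g : ℂ → ℂ} {C : ℝ}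
    (hC : ∀ y, ‖g y‖ ≤ C) (x : ℂ) : ‖∫ y, κ (x - y) * g y‖ ≤ (∫ y, ‖κ y‖) * C := by
  have h1 : Integrable (fun y => ‖κ (x - y)‖ * C) volume :=
    (hκ.comp_sub_left x).norm.mul_const C
  have h2 := norm_integral_le_of_norm_le (f := fun y => κ (x - y) * g y) h1
    (Eventually.of_forall fun y => by
      rw [norm_mul]; exact mul_le_mul_of_nonneg_left (hC y) (norm_nonneg _))
  rw [integral_mul_const] at h2
  rwa [integral_sub_left_eq_self (fun y => ‖κ y‖) volume x] at h2

lemma BC_conv {κ : ℂ → ℂ} (hκ : Integrable κ volume) (hκc : Continuous κ)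
    {f : ℂ → ℂ × Ω → ℝ} (hf : Bdd f) : BC (fun x ω => ∫ y, κ (x - y) * (f y ω : ℂ)) := by
  obtain ⟨hm, C, hC⟩ := hf
  constructor
  · have h1 : StronglyMeasurable (Function.uncurry
        (fun (p : ℂ × (ℂ × Ω)) (y : ℂ) => κ (p.1 - y) * (f y p.2 : ℂ))) := by
      refine Measurable.stronglyMeasurable ?_
      refine Measurable.mul ?_ ?_
      · exact hκc.measurable.comp (by fun_prop)
      · exact Complex.measurable_ofReal.comp (hm.comp (Measurable.prodMk (by fun_prop) (by fun_prop)))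
    exact (h1.integral_prod_right (ν := volume)).measurable
  · refine ⟨(∫ y, ‖κ y‖) * |C|, mul_nonneg (integral_nonneg fun _ => norm_nonneg _) (abs_nonneg _),
      fun x ω => ?_⟩
    refine abs_conv_le hκ (fun y => ?_) x
    rw [Complex.norm_real]
    exact (hC y ω).trans (le_abs_self C)

lemma mol_eq (ε : ℝ) (f : ℂ → ℂ × Ω → ℝ) (x : ℂ) (ω : ℂ × Ω) :
    ((mol ε f x ω : ℝ) : ℂ) = conv (fun z => (rho ε z : ℂ)) (fun y => (f y ω : ℂ)) x := by
  unfold mol conv
  rw [← integral_complex_ofReal]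
  push_cast
  rfl

lemma grd_eq (ε : ℝ) (f : ℂ → ℂ × Ω → ℝ) (x : ℂ) (ω : ℂ × Ω) :
    grd ε f x ω = conv (kap ε) (fun y => (f y ω : ℂ)) x := rfl

lemma conj_grd_eq (ε : ℝ) (f : ℂ → ℂ × Ω → ℝ) (x : ℂ) (ω : ℂ × Ω) :
    (starRingEnd ℂ) (grd ε f x ω) =
      conv (fun z => (starRingEnd ℂ) (kap ε z)) (fun y => (f y ω : ℂ)) x := by
  unfold grd conv
  rw [← integral_conj]
  congr 1
  funext y
  rw [map_mul, Complex.conj_ofReal]

lemma BC_mol {ε : ℝ} (hε : 0 < ε) {f : ℂ → ℂ × Ω → ℝ} (hf : Bdd f) :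
    BC (fun x ω => ((mol ε f x ω : ℝ) : ℂ)) := by
  have h := BC_conv (κ := fun z => (rho ε z : ℂ)) (integrable_rho hε).ofReal
    (Complex.continuous_ofReal.comp (rho_contDiff ε).continuous) hf
  have e : (fun x ω => ((mol ε f x ω : ℝ) : ℂ)) =
      fun x ω => ∫ y, (rho ε (x - y) : ℂ) * (f y ω : ℂ) := by
    funext x ω; exact mol_eq ε f x ω
  rw [e]; exact h

lemma BC_grd {ε : ℝ} (hε : 0 < ε) {f : ℂ → ℂ × Ω → ℝ} (hf : Bdd f) : BC (grd ε f) :=
  BC_conv (integrable_kap hε) (continuous_kap ε) hf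

lemma locInt {f : ℂ → ℂ × Ω → ℝ} (hf : Bdd f) (ω : ℂ × Ω) :
    LocallyIntegrable (fun y => (f y ω : ℂ)) volume := by
  obtain ⟨hm, C, hC⟩ := hf
  have h1 : Measurable (fun y => (f y ω : ℂ)) :=
    Complex.measurable_ofReal.comp (hm.comp (Measurable.prodMk measurable_id measurable_const))
  intro x
  refine ⟨Metric.ball x 1, Metric.ball_mem_nhds x one_pos, ?_⟩
  have : IsFiniteMeasure (volume.restrict (Metric.ball x 1)) :=
    ⟨by rw [Measure.restrict_apply_univ]; exact measure_ball_lt_top⟩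
  exact int_bdd h1 (C := C) (Eventually.of_forall fun y => by rw [Complex.norm_real]; exact hC y ω)

end Rig

end Vale.Agent.P099
end
end

section

section

open MeasureTheory Set Filter Topology

namespace Vale.Agent.P099

namespace Rig

set_option linter.unusedSectionVars false

variable {Ω : Type} [MeasurableSpace Ω]

/-- testing in the position variable -/
noncomputable def Lam (A : Set ℂ) (φ : ℂ → ℝ) (F : ℂ → ℂ × Ω → ℂ) (ω : ℂ × Ω) : ℂ :=
  ∫ x in A, F x ω * ((fderiv ℝ φ x (Complex.I * ω.1) : ℝ) : ℂ)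

section
variable {A : Set ℂ} {φ : ℂ → ℝ} {K : ℝ} {m : Measure Ω}

lemma psi_meas (hφ : ContDiff ℝ (⊤ : ℕ∞) φ) :
    Measurable (fun p : ℂ × (ℂ × Ω) => ((fderiv ℝ φ p.1 (Complex.I * p.2.1) : ℝ) : ℂ)) := by
  have h1 : Continuous (fun p : ℂ × ℂ => fderiv ℝ φ p.1 (Complex.I * p.2)) :=
    ((hφ.continuous_fderiv (by simp)).comp continuous_fst).clm_apply (by fun_prop)
  have h2 : Measurable (fun p : ℂ × ℂ => ((fderiv ℝ φ p.1 (Complex.I * p.2) : ℝ) : ℂ)) :=
    Complex.measurable_ofReal.comp h1.measurable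
  exact h2.comp (Measurable.prodMk measurable_fst (by fun_prop))

lemma psi_le (hK : ∀ x, ‖fderiv ℝ φ x‖ ≤ K) {u : ℂ} (hu : ‖u‖ = 1) (x : ℂ) :
    ‖((fderiv ℝ φ x (Complex.I * u) : ℝ) : ℂ)‖ ≤ K := by
  rw [Complex.norm_real]
  calc ‖fderiv ℝ φ x (Complex.I * u)‖ ≤ ‖fderiv ℝ φ x‖ * ‖Complex.I * u‖ :=
        ContinuousLinearMap.le_opNorm _ _
    _ = ‖fderiv ℝ φ x‖ := by rw [norm_mul, Complex.norm_I, hu]; ring
    _ ≤ K := hK x

lemma Lam_meas [IsFiniteMeasure (volume.restrict A)] (hφ : ContDiff ℝ (⊤ : ℕ∞) φ)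
    {F : ℂ → ℂ × Ω → ℂ} (hF : BC F) : Measurable (Lam A φ F) := by
  have h1 : StronglyMeasurable (Function.uncurry
        (fun (ω : ℂ × Ω) (x : ℂ) => F x ω * ((fderiv ℝ φ x (Complex.I * ω.1) : ℝ) : ℂ))) := by
    refine Measurable.stronglyMeasurable ?_
    have h2 : Measurable (fun p : ℂ × (ℂ × Ω) =>
        F p.1 p.2 * ((fderiv ℝ φ p.1 (Complex.I * p.2.1) : ℝ) : ℂ)) := hF.1.mul (psi_meas hφ)
    exact h2.comp measurable_swap
  exact (h1.integral_prod_right (ν := volume.restrict A)).measurable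

lemma sec_meas {F : ℂ → ℂ × Ω → ℂ} (hF : BC F) (ω : ℂ × Ω) : Measurable (fun x => F x ω) :=
  hF.1.comp (Measurable.prodMk measurable_id measurable_const)

lemma Lam_sq_le [IsFiniteMeasure (volume.restrict A)] (hφ : ContDiff ℝ (⊤ : ℕ∞) φ)
    (hK : ∀ x, ‖fderiv ℝ φ x‖ ≤ K) {F : ℂ → ℂ × Ω → ℂ} (hF : BC F) {ω : ℂ × Ω} (hω : ‖ω.1‖ = 1) :
    ‖Lam A φ F ω‖ ^ 2 ≤ (∫ x in A, ‖F x ω‖ ^ 2) * (K ^ 2 * (volume A).toReal) := by
  obtain ⟨C, hC0, hC⟩ := hF.2
  have h1 := cs_norm (μ := volume.restrict A) (sec_meas hF ω)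
    ((psi_meas (Ω := Ω) hφ).comp (Measurable.prodMk measurable_id measurable_const) :
      Measurable (fun x => ((fderiv ℝ φ x (Complex.I * ω.1) : ℝ) : ℂ)))
    (C := C) (K := K) (Eventually.of_forall fun x => hC x ω)
    (Eventually.of_forall fun x => psi_le hK hω x)
  refine h1.trans ?_
  refine mul_le_mul_of_nonneg_left ?_ (integral_nonneg fun x => by (clear * -; positivity))
  have h2 := norm_integral_le_of_norm_le_const (μ := volume.restrict A)
    (f := fun x => ‖((fderiv ℝ φ x (Complex.I * ω.1) : ℝ) : ℂ)‖ ^ 2) (C := K ^ 2)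
    (Eventually.of_forall fun x => by
      rw [Real.norm_of_nonneg (by positivity)]
      have := psi_le hK hω x
      gcongr)
  rw [Real.norm_of_nonneg (integral_nonneg fun x => by positivity)] at h2
  simpa only [id_eq, Function.comp_apply, Complex.norm_real, Real.norm_eq_abs, sq_abs, ge_iff_le, Measure.real,     MeasurableSet.univ, Measure.restrict_apply, univ_inter] using h2

lemma D_meas {F : ℂ → ℂ × Ω → ℂ} (hF : BC F) [IsFiniteMeasure (volume.restrict A)] :
    Measurable (fun ω => ∫ x in A, ‖F x ω‖ ^ 2) := by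
  have h1 : StronglyMeasurable (Function.uncurry (fun (ω : ℂ × Ω) (x : ℂ) => ‖F x ω‖ ^ 2)) := by
    refine Measurable.stronglyMeasurable ?_
    have h2 : Measurable (fun p : ℂ × (ℂ × Ω) => ‖F p.1 p.2‖ ^ 2) := hF.1.norm.pow_const 2
    exact (h2.comp measurable_swap :)
  exact (h1.integral_prod_right (ν := volume.restrict A)).measurable

lemma D_le [IsFiniteMeasure (volume.restrict A)] {F : ℂ → ℂ × Ω → ℂ} {C : ℝ}
    (hC : ∀ x a, ‖F x a‖ ≤ C) (ω : ℂ × Ω) :
    ‖∫ x in A, ‖F x ω‖ ^ 2‖ ≤ C ^ 2 * (volume A).toReal := by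
  have h2 := norm_integral_le_of_norm_le_const (μ := volume.restrict A)
    (f := fun x => ‖F x ω‖ ^ 2) (C := C ^ 2)
    (Eventually.of_forall fun x => by
      rw [Real.norm_of_nonneg (by positivity)]
      have := hC x ω
      (clear * - this; gcongr))
  simpa only [Real.norm_eq_abs, ge_iff_le, Measure.real, MeasurableSet.univ, Measure.restrict_apply,     univ_inter] using h2

lemma Lam_bdd [IsFiniteMeasure (volume.restrict A)] (hφ : ContDiff ℝ (⊤ : ℕ∞) φ)
    (hK : ∀ x, ‖fderiv ℝ φ x‖ ≤ K) {F : ℂ → ℂ × Ω → ℂ} (hF : BC F) :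
    ∃ B : ℝ, ∀ ω : ℂ × Ω, ‖ω.1‖ = 1 → ‖Lam A φ F ω‖ ≤ B := by
  obtain ⟨C, hC0, hC⟩ := hF.2
  refine ⟨Real.sqrt (C ^ 2 * (volume A).toReal * (K ^ 2 * (volume A).toReal)), fun ω hω => ?_⟩
  apply Real.le_sqrt_of_sq_le
  refine (Lam_sq_le hφ hK hF hω).trans ?_
  refine mul_le_mul_of_nonneg_right ((le_abs_self _).trans (D_le hC ω)) (by (clear * -; positivity))

/-- modes of the test functional -/
noncomputable def mL (A : Set ℂ) (φ : ℂ → ℝ) (k : ℤ) (F : ℂ → ℂ × Ω → ℂ) (q : Ω) : ℂ :=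
  mode k (fun u => Lam A φ F (u, q))

lemma slice_meas {f : ℂ × Ω → ℂ} (hf : Measurable f) (q : Ω) : Measurable (fun u => f (u, q)) :=
  hf.comp (Measurable.prodMk measurable_id measurable_const)

lemma mL_meas [IsFiniteMeasure (volume.restrict A)] (hφ : ContDiff ℝ (⊤ : ℕ∞) φ)
    {F : ℂ → ℂ × Ω → ℂ} (hF : BC F) (k : ℤ) : Measurable (mL A φ k F) := by
  have h1 : StronglyMeasurable (Function.uncurry
        (fun (q : Ω) (u : ℂ) => Lam A φ F (u, q) * u ^ (-k))) := by
    refine Measurable.stronglyMeasurable (Measurable.mul ?_ ?_)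
    · exact (Lam_meas hφ hF).comp measurable_swap
    · exact (meas_zpow (-k)).comp measurable_snd
  exact (h1.integral_prod_right (ν := nu)).measurable

lemma mL_sq_le [IsFiniteMeasure (volume.restrict A)] (hφ : ContDiff ℝ (⊤ : ℕ∞) φ)
    (hK : ∀ x, ‖fderiv ℝ φ x‖ ≤ K) {F : ℂ → ℂ × Ω → ℂ} (hF : BC F) (k : ℤ) (q : Ω) :
    ‖mL A φ k F q‖ ^ 2 ≤
      (∫ u, (∫ x in A, ‖F x (u, q)‖ ^ 2) ∂nu) * (K ^ 2 * (volume A).toReal) := by
  obtain ⟨B, hB⟩ := Lam_bdd (A := A) hφ hK hF
  obtain ⟨C, hC0, hC⟩ := hF.2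
  have h1 := mode_le (slice_meas (Lam_meas (A := A) hφ hF) q) (C := B)
    (by filter_upwards [ae_norm] with u hu; exact hB (u, q) hu) k
  refine h1.trans ?_
  rw [← integral_mul_const]
  refine integral_mono_of_nonneg (Eventually.of_forall fun u => by positivity) ?_ ?_
  · refine Integrable.mul_const ?_ _
    exact int_bdd ((D_meas (A := A) hF).comp (Measurable.prodMk measurable_id measurable_const))
      (C := C ^ 2 * (volume A).toReal) (Eventually.of_forall fun u => D_le hC (u, q))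
  · filter_upwards [ae_norm] with u hu
    exact Lam_sq_le hφ hK hF hu

lemma mL_bdd [IsFiniteMeasure (volume.restrict A)] (hφ : ContDiff ℝ (⊤ : ℕ∞) φ)
    (hK : ∀ x, ‖fderiv ℝ φ x‖ ≤ K) {F : ℂ → ℂ × Ω → ℂ} (hF : BC F) (k : ℤ) :
    ∃ B : ℝ, ∀ q : Ω, ‖mL A φ k F q‖ ≤ B := by
  obtain ⟨C, hC0, hC⟩ := hF.2
  refine ⟨Real.sqrt (C ^ 2 * (volume A).toReal * (K ^ 2 * (volume A).toReal)), fun q => ?_⟩
  apply Real.le_sqrt_of_sq_le
  refine (mL_sq_le hφ hK hF k q).trans ?_
  refine mul_le_mul_of_nonneg_right ?_ (by (clear * -; positivity))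
  have h2 := norm_integral_le_of_norm_le_const (μ := nu)
    (f := fun u => ∫ x in A, ‖F x (u, q)‖ ^ 2) (C := C ^ 2 * (volume A).toReal)
    (Eventually.of_forall fun u => D_le hC (u, q))
  refine (le_abs_self _).trans (h2.trans ?_)
  simp

lemma mL_int_sq [IsFiniteMeasure (volume.restrict A)] [IsProbabilityMeasure m]
    (hφ : ContDiff ℝ (⊤ : ℕ∞) φ)
    (hK : ∀ x, ‖fderiv ℝ φ x‖ ≤ K) {F : ℂ → ℂ × Ω → ℂ} (hF : BC F) (k : ℤ) :
    Integrable (fun q => ‖mL A φ k F q‖ ^ 2) m := by
  obtain ⟨B, hB⟩ := mL_bdd (A := A) hφ hK hF k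
  exact int_sq (mL_meas hφ hF k) (Eventually.of_forall hB)

/-- first estimate -/
lemma S_le [IsFiniteMeasure (volume.restrict A)] [IsProbabilityMeasure m]
    (hφ : ContDiff ℝ (⊤ : ℕ∞) φ)
    (hK : ∀ x, ‖fderiv ℝ φ x‖ ≤ K) {F : ℂ → ℂ × Ω → ℂ} (hF : BC F) (k : ℤ) :
    ∫ q, ‖mL A φ k F q‖ ^ 2 ∂m ≤ N2 A (nu.prod m) F * (K ^ 2 * (volume A).toReal) := by
  obtain ⟨C, hC0, hC⟩ := hF.2
  have hI : Integrable (fun ω : ℂ × Ω => ∫ x in A, ‖F x ω‖ ^ 2) (nu.prod m) :=
    int_bdd (D_meas (A := A) hF) (C := C ^ 2 * (volume A).toReal)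
      (Eventually.of_forall fun ω => D_le hC ω)
  rw [N2_eq_swap hF, integral_prod_symm _ hI, ← integral_mul_const]
  refine integral_mono_of_nonneg (Eventually.of_forall fun q => by positivity) ?_
    (Eventually.of_forall fun q => mL_sq_le hφ hK hF k q)
  refine Integrable.mul_const ?_ _
  exact hI.integral_prod_right

lemma mL_add [IsFiniteMeasure (volume.restrict A)] (hφ : ContDiff ℝ (⊤ : ℕ∞) φ)
    (hK : ∀ x, ‖fderiv ℝ φ x‖ ≤ K) {F G : ℂ → ℂ × Ω → ℂ} (hF : BC F) (hG : BC G) (k : ℤ) (q : Ω) :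
    mL A φ k (fun x ω => F x ω + G x ω) q = mL A φ k F q + mL A φ k G q := by
  unfold mL mode
  obtain ⟨B, hB⟩ := Lam_bdd (A := A) hφ hK hF
  obtain ⟨B', hB'⟩ := Lam_bdd (A := A) hφ hK hG
  obtain ⟨C, hC0, hC⟩ := hF.2
  obtain ⟨C', hC0', hC'⟩ := hG.2
  rw [← integral_add]
  · refine integral_congr_ae ?_
    filter_upwards [ae_norm] with u hu
    rw [← add_mul]
    congr 1
    unfold Lam
    have hψ : Measurable (fun x => ((fderiv ℝ φ x (Complex.I * u) : ℝ) : ℂ)) :=
      (psi_meas (Ω := Ω) hφ).comp (Measurable.prodMk measurable_id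
        (measurable_const (a := ((u, q) : ℂ × Ω))))
    rw [← integral_add]
    · simp only [add_mul]
    · refine int_bdd ((sec_meas hF (u, q)).mul hψ) (C := C * K) (Eventually.of_forall fun x => ?_)
      rw [norm_mul]
      exact mul_le_mul (hC _ _) (psi_le hK hu x) (norm_nonneg _) hC0
    · refine int_bdd ((sec_meas hG (u, q)).mul hψ) (C := C' * K) (Eventually.of_forall fun x => ?_)
      rw [norm_mul]
      exact mul_le_mul (hC' _ _) (psi_le hK hu x) (norm_nonneg _) hC0'
  · refine int_bdd ((slice_meas (Lam_meas (A := A) hφ hF) q).mul (meas_zpow _)) (C := B) ?_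
    filter_upwards [ae_norm, norm_zpow_ae (-k)] with u hu hz
    rw [norm_mul, hz, mul_one]; exact hB (u, q) hu
  · refine int_bdd ((slice_meas (Lam_meas (A := A) hφ hG) q).mul (meas_zpow _)) (C := B') ?_
    filter_upwards [ae_norm, norm_zpow_ae (-k)] with u hu hz
    rw [norm_mul, hz, mul_one]; exact hB' (u, q) hu

lemma S_add_le [IsFiniteMeasure (volume.restrict A)] [IsProbabilityMeasure m]
    (hφ : ContDiff ℝ (⊤ : ℕ∞) φ)
    (hK : ∀ x, ‖fderiv ℝ φ x‖ ≤ K) {F G : ℂ → ℂ × Ω → ℂ} (hF : BC F) (hG : BC G) (k : ℤ) :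
    ∫ q, ‖mL A φ k (fun x ω => F x ω + G x ω) q‖ ^ 2 ∂m ≤
      2 * ∫ q, ‖mL A φ k F q‖ ^ 2 ∂m + 2 * ∫ q, ‖mL A φ k G q‖ ^ 2 ∂m := by
  have i1 := mL_int_sq (A := A) (m := m) hφ hK hF k
  have i2 := mL_int_sq (A := A) (m := m) hφ hK hG k
  rw [← integral_const_mul, ← integral_const_mul, ← integral_add (i1.const_mul _) (i2.const_mul _)]
  refine integral_mono (mL_int_sq hφ hK (hF.add hG) k) ((i1.const_mul _).add (i2.const_mul _))
    fun q => ?_
  rw [mL_add hφ hK hF hG k q]
  show ‖mL A φ k F q + mL A φ k G q‖ ^ 2 ≤ 2 * ‖mL A φ k F q‖ ^ 2 + 2 * ‖mL A φ k G q‖ ^ 2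
  have h1 := norm_add_le (mL A φ k F q) (mL A φ k G q)
  have h2 : ‖mL A φ k F q + mL A φ k G q‖ ^ 2 ≤ (‖mL A φ k F q‖ + ‖mL A φ k G q‖) ^ 2 := by gcongr
  (clear * - h2; linarith only [sq_nonneg (‖mL A φ k F q‖ - ‖mL A φ k G q‖), h2])

end

end Rig

end Vale.Agent.P099
end
end

section

section

open MeasureTheory Set Filter Topology

namespace Vale.Agent.P099

namespace Rig

set_option linter.unusedSectionVars false

variable {Ω : Type} [MeasurableSpace Ω]

section
variable {A : Set ℂ} {φ : ℂ → ℝ} {m : Measure Ω}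

lemma hasFDerivAt_ofReal (hφ : ContDiff ℝ (⊤ : ℕ∞) φ) (x : ℂ) :
    HasFDerivAt (fun x => (φ x : ℂ)) (Complex.ofRealCLM.comp (fderiv ℝ φ x)) x :=
  Complex.ofRealCLM.hasFDerivAt.comp x ((hφ.differentiable (by simp)) x).hasFDerivAt

lemma fderiv_ofReal_apply (hφ : ContDiff ℝ (⊤ : ℕ∞) φ) (x v : ℂ) :
    fderiv ℝ (fun x => (φ x : ℂ)) x v = ((fderiv ℝ φ x v : ℝ) : ℂ) := by
  rw [(hasFDerivAt_ofReal hφ x).fderiv]; rfl

/-- the derivative of the mollification in the transversal direction -/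
noncomputable def Yg (ε : ℝ) (f : ℂ → ℂ × Ω → ℝ) (x : ℂ) (ω : ℂ × Ω) : ℂ :=
  (Complex.I * ω.1) * grd ε f x ω +
    (starRingEnd ℂ) (Complex.I * ω.1) * (starRingEnd ℂ) (grd ε f x ω)

lemma Lam_mol {ε : ℝ} (hε : 0 < ε) {f : ℂ → ℂ × Ω → ℝ} (hf : Bdd f)
    (hφ : ContDiff ℝ (⊤ : ℕ∞) φ) (hφc : HasCompactSupport φ) (hφs : tsupport φ ⊆ A)
    (ω : ℂ × Ω) :
    Lam A φ (fun x ω => ((mol ε f x ω : ℝ) : ℂ)) ω = - ∫ x in A, Yg ε f x ω * (φ x : ℂ) := by
  obtain ⟨v, hv⟩ : ∃ v, v = Complex.I * ω.1 := ⟨_, rfl⟩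
  obtain ⟨G, hG⟩ : ∃ G : ℂ → ℂ, G = conv (fun z => (rho ε z : ℂ)) (fun y => (f y ω : ℂ)) := ⟨_, rfl⟩
  have hGs : ContDiff ℝ (⊤ : ℕ∞) G := by rw [hG]; exact contDiff_conv hε (locInt hf ω)
  have hΦc : HasCompactSupport (fun x => (φ x : ℂ)) := hφc.comp_left (g := fun r : ℝ => (r : ℂ)) rfl
  have hΦs : ContDiff ℝ (⊤ : ℕ∞) (fun x => (φ x : ℂ)) := Complex.ofRealCLM.contDiff.comp hφ
  have hz : ∀ x, x ∉ A → φ x = 0 := fun x hx => image_eq_zero_of_notMem_tsupport fun h => hx (hφs h)
  have hz' : ∀ x, x ∉ A → fderiv ℝ φ x = 0 := fun x hx => by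
    by_contra h
    exact hx (hφs (support_fderiv_subset ℝ h))
  have e1 : Lam A φ (fun x ω => ((mol ε f x ω : ℝ) : ℂ)) ω =
      ∫ x, G x * fderiv ℝ (fun x => (φ x : ℂ)) x v := by
    unfold Lam
    rw [setIntegral_eq_integral_of_forall_compl_eq_zero]
    · congr 1
      funext x
      show ((mol ε f x ω : ℝ) : ℂ) * ((fderiv ℝ φ x (Complex.I * ω.1) : ℝ) : ℂ) = _
      rw [fderiv_ofReal_apply hφ, mol_eq, ← hG, hv]
    · intro x hx
      rw [hz' x hx]; simp
  have hcG : Continuous G := hGs.continuous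
  have hcG' : Continuous (fun x => fderiv ℝ G x v) :=
    (hGs.continuous_fderiv (by simp)).clm_apply continuous_const
  have hcΦ : Continuous (fun x => (φ x : ℂ)) := hΦs.continuous
  have hcΦ' : Continuous (fun x => fderiv ℝ (fun x => (φ x : ℂ)) x v) :=
    (hΦs.continuous_fderiv (by simp)).clm_apply continuous_const
  have hsΦ' : HasCompactSupport (fun x => fderiv ℝ (fun x => (φ x : ℂ)) x v) :=
    (hΦc.fderiv (𝕜 := ℝ)).comp_left (g := fun L : ℂ →L[ℝ] ℂ => L v) rfl
  have i1 : Integrable (fun x => fderiv ℝ G x v * (φ x : ℂ)) volume :=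
    (hcG'.mul hcΦ).integrable_of_hasCompactSupport hΦc.mul_left
  have i2 : Integrable (fun x => G x * fderiv ℝ (fun x => (φ x : ℂ)) x v) volume :=
    (hcG.mul hcΦ').integrable_of_hasCompactSupport hsΦ'.mul_left
  have i3 : Integrable (fun x => G x * (φ x : ℂ)) volume :=
    (hcG.mul hcΦ).integrable_of_hasCompactSupport hΦc.mul_left
  rw [e1, integral_mul_fderiv_eq_neg_fderiv_mul_of_integrable i1 i2 i3
    (fun x _ => (hGs.differentiable (by simp)) x) (fun x _ => (hΦs.differentiable (by simp)) x)]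
  congr 1
  rw [setIntegral_eq_integral_of_forall_compl_eq_zero]
  · congr 1
    funext x
    rw [hG, fderiv_conv hε (locInt hf ω), ← grd_eq, ← conj_grd_eq, hv]
    rfl
  · intro x hx
    rw [hz x hx]; simp

/-- the quantity of the energy estimate -/
noncomputable def Ek (ε : ℝ) (f : ℂ → ℂ × Ω → ℝ) (k : ℤ) (x : ℂ) (q : Ω) : ℂ :=
  md (k - 1) (grd ε f) x q - md (k + 1) (fun x ω => (starRingEnd ℂ) (grd ε f x ω)) x q

lemma mode_Yg {ε : ℝ} (hε : 0 < ε) {f : ℂ → ℂ × Ω → ℝ} (hf : Bdd f) (k : ℤ) (x : ℂ) (q : Ω) :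
    ∫ u, Yg ε f x (u, q) * u ^ (-k) ∂nu = Complex.I * Ek ε f k x q := by
  have hb := BC_grd hε hf
  obtain ⟨C, hC0, hC⟩ := hb.2
  unfold Ek md
  rw [← integral_sub, ← integral_const_mul]
  · refine integral_congr_ae ?_
    filter_upwards [ae_norm] with u hu
    have hu0 : u ≠ 0 := by rintro rfl; simp at hu
    have hc : (starRingEnd ℂ) u = u⁻¹ := (Complex.inv_eq_conj hu).symm
    have h1 : u ^ (-(k - 1)) = u ^ (-k) * u := by
      rw [show -(k - 1) = -k + 1 by ring, zpow_add₀ hu0, zpow_one]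
    have h2 : u ^ (-(k + 1)) = u ^ (-k) * u⁻¹ := by
      rw [show -(k + 1) = -k + (-1) by ring, zpow_add₀ hu0, zpow_neg_one]
    unfold Yg
    simp only
    rw [map_mul, hc, Complex.conj_I, h1, h2]
    ring
  · refine int_bdd ((meas_slice hb.1 x q).mul (meas_zpow _)) (C := C) ?_
    filter_upwards [norm_zpow_ae (-(k - 1))] with u hz
    rw [norm_mul, hz, mul_one]; exact hC _ _
  · have hm := (meas_slice (F := fun x ω => (starRingEnd ℂ) (grd ε f x ω)) hb.conj.1 x q).mul
      (meas_zpow (-(k + 1)))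
    refine int_bdd hm (C := C) ?_
    filter_upwards [norm_zpow_ae (-(k + 1))] with u hz
    show ‖(starRingEnd ℂ) (grd ε f x (u, q)) * u ^ (-(k + 1))‖ ≤ C
    rw [norm_mul, hz, mul_one, Complex.norm_conj]; exact hC _ _

lemma Yg_meas {ε : ℝ} (hε : 0 < ε) {f : ℂ → ℂ × Ω → ℝ} (hf : Bdd f) :
    Measurable (fun p : ℂ × (ℂ × Ω) => Yg ε f p.1 p.2) := by
  have hb := BC_grd hε hf
  unfold Yg
  refine Measurable.add (Measurable.mul (by fun_prop) hb.1) (Measurable.mul ?_ hb.conj.1)
  exact Complex.continuous_conj.measurable.comp (by fun_prop)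

lemma Yg_le {ε : ℝ} {f : ℂ → ℂ × Ω → ℝ} {C : ℝ}
    (hC : ∀ x ω, ‖grd ε f x ω‖ ≤ C) (x : ℂ) {ω : ℂ × Ω} (hω : ‖ω.1‖ = 1) :
    ‖Yg ε f x ω‖ ≤ 2 * C := by
  unfold Yg
  refine (norm_add_le _ _).trans ?_
  have h1 : ‖Complex.I * ω.1‖ = 1 := by rw [norm_mul, Complex.norm_I, hω, one_mul]
  rw [norm_mul (Complex.I * ω.1), norm_mul ((starRingEnd ℂ) (Complex.I * ω.1)), Complex.norm_conj,
    Complex.norm_conj, h1]
  have := hC x ω
  linarith

lemma mL_mol [IsFiniteMeasure (volume.restrict A)] {ε : ℝ} (hε : 0 < ε) {f : ℂ → ℂ × Ω → ℝ}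
    (hf : Bdd f) (hφ : ContDiff ℝ (⊤ : ℕ∞) φ) (hφc : HasCompactSupport φ) (hφs : tsupport φ ⊆ A)
    (k : ℤ) (q : Ω) :
    mL A φ k (fun x ω => ((mol ε f x ω : ℝ) : ℂ)) q =
      - ∫ x in A, (φ x : ℂ) * (Complex.I * Ek ε f k x q) := by
  obtain ⟨C, hC0, hC⟩ := (BC_grd hε hf).2
  obtain ⟨K, hK⟩ := hφc.exists_bound_of_continuous hφ.continuous
  unfold mL mode
  have e1 : ∀ u, Lam A φ (fun x ω => ((mol ε f x ω : ℝ) : ℂ)) (u, q) * u ^ (-k) =
      - ∫ x in A, (Yg ε f x (u, q) * (φ x : ℂ)) * u ^ (-k) := by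
    intro u
    rw [Lam_mol hε hf hφ hφc hφs, integral_mul_const, neg_mul]
  simp_rw [e1]
  rw [integral_neg]
  congr 1
  rw [integral_integral_swap]
  · congr 1
    funext x
    rw [← mode_Yg hε hf, ← integral_const_mul]
    congr 1
    funext u
    ring
  · have hm : Measurable (fun p : ℂ × ℂ => Yg ε f p.2 (p.1, q) * (φ p.2 : ℂ) * p.1 ^ (-k)) := by
      have h1 := (Yg_meas hε hf).comp ((Measurable.prodMk measurable_snd
          (Measurable.prodMk measurable_fst measurable_const)) :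
          Measurable (fun p : ℂ × ℂ => (p.2, (p.1, q))))
      have h2 : Measurable (fun p : ℂ × ℂ => (φ p.2 : ℂ)) :=
        Complex.measurable_ofReal.comp (hφ.continuous.measurable.comp measurable_snd)
      exact (h1.mul h2).mul ((meas_zpow (-k)).comp measurable_fst)
    refine int_bdd (f := fun p : ℂ × ℂ => Yg ε f p.2 (p.1, q) * (φ p.2 : ℂ) * p.1 ^ (-k)) hm
      (C := 2 * C * K) ?_
    · have h1 : ∀ᵐ p ∂(nu.prod (volume.restrict A)), ‖p.1‖ = 1 ∧ ‖p.1 ^ (-k)‖ = 1 :=
        Measure.quasiMeasurePreserving_fst.ae (ae_norm.and (norm_zpow_ae (-k)))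
      filter_upwards [h1] with p hp
      show ‖Yg ε f p.2 (p.1, q) * (φ p.2 : ℂ) * p.1 ^ (-k)‖ ≤ 2 * C * K
      rw [norm_mul, norm_mul, hp.2, mul_one, Complex.norm_real]
      exact mul_le_mul (Yg_le hC p.2 hp.1) (hK p.2) (norm_nonneg _) (by (clear * - hC0; positivity))

/-- second estimate -/
lemma S_mol_le [IsFiniteMeasure (volume.restrict A)] [IsProbabilityMeasure m] {ε : ℝ} (hε : 0 < ε)
    {f : ℂ → ℂ × Ω → ℝ} (hf : Bdd f) (hφ : ContDiff ℝ (⊤ : ℕ∞) φ) (hφc : HasCompactSupport φ)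
    (hφs : tsupport φ ⊆ A) (k : ℤ) :
    ∫ q, ‖mL A φ k (fun x ω => ((mol ε f x ω : ℝ) : ℂ)) q‖ ^ 2 ∂m ≤
      (∫ x in A, ‖(φ x : ℂ)‖ ^ 2) * N2 A m (Ek ε f k) := by
  have hE : BC (Ek ε f k) := ((BC_grd hε hf).md (k - 1)).sub ((BC_grd hε hf).conj.md (k + 1))
  obtain ⟨K, hK⟩ := hφc.exists_bound_of_continuous hφ.continuous
  obtain ⟨C, hC0, hC⟩ := hE.2
  rw [N2_eq_swap hE, ← integral_const_mul]
  refine integral_mono_of_nonneg (Eventually.of_forall fun q => by (clear * -; positivity)) ?_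
    (Eventually.of_forall fun q => ?_)
  · refine Integrable.const_mul ?_ _
    exact hE.int_prod.integral_prod_right
  · show ‖mL A φ k (fun x ω => ((mol ε f x ω : ℝ) : ℂ)) q‖ ^ 2 ≤ _
    rw [mL_mol hε hf hφ hφc hφs, norm_neg]
    have h1 := cs_norm (μ := volume.restrict A) (f := fun x => (φ x : ℂ))
      (g := fun x => Complex.I * Ek ε f k x q)
      (Complex.measurable_ofReal.comp hφ.continuous.measurable)
      (Measurable.const_mul (hE.1.comp (Measurable.prodMk measurable_id measurable_const)) _)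
      (C := K) (K := C) (Eventually.of_forall fun x => by rw [Complex.norm_real]; exact hK x)
      (Eventually.of_forall fun x => by rw [norm_mul, Complex.norm_I, one_mul]; exact hC x q)
    refine h1.trans (le_of_eq ?_)
    congr 2
    funext x
    rw [norm_mul, Complex.norm_I, one_mul]

end

end Rig

end Vale.Agent.P099
end
end

section

section

open MeasureTheory Set Filter Topology

namespace Vale.Agent.P099

namespace Triangle

variable (T : Triangle)

/-- translation in time of a trajectory -/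
lemma IsTrajectory.shift {γ : ℝ → ℂ × ℂ} (hγ : T.IsTrajectory γ) (a : ℝ) :
    T.IsTrajectory (fun s => γ (s + a)) := by
  intro t
  have h1 : Tendsto (fun s : ℝ => s + a) (𝓝 t) (𝓝 (t + a)) :=
    (continuous_id.add continuous_const).tendsto t
  have h2 : Tendsto (fun s : ℝ => s + a) (𝓝[<] t) (𝓝[<] (t + a)) :=
    tendsto_nhdsWithin_of_tendsto_nhds_of_eventually_within _
      (h1.mono_left nhdsWithin_le_nhds)
      (by
        filter_upwards [self_mem_nhdsWithin] with s hs
        have : s < t := hs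
        show s + a < t + a
        linarith)
  have h3 : Tendsto (fun s : ℝ => s + a) (𝓝[>] t) (𝓝[>] (t + a)) :=
    tendsto_nhdsWithin_of_tendsto_nhds_of_eventually_within _
      (h1.mono_left nhdsWithin_le_nhds)
      (by
        filter_upwards [self_mem_nhdsWithin] with s hs
        have : t < s := hs
        show t + a < s + a
        linarith)
  rcases hγ (t + a) with ⟨hT, hE⟩ | ⟨i, u, hS, hL, hR⟩
  · refine Or.inl ⟨hT, ?_⟩
    filter_upwards [h1.eventually hE] with s hs
    rw [hs]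
    congr 3
    ring
  · refine Or.inr ⟨i, u, hS, ?_, ?_⟩
    · filter_upwards [h2.eventually hL] with s hs
      rw [hs]
      congr 3
      ring
    · filter_upwards [h3.eventually hR] with s hs
      rw [hs]
      congr 3
      ring

/-- what happens at the end of a free flight -/
lemma IsTrajectory.step {γ : ℝ → ℂ × ℂ} (hγ : T.IsTrajectory γ) {x u : ℂ} {s : ℝ} (hs : 0 < s)
    (hlt : ∀ r, 0 ≤ r → r < s → γ r = (x + r • u, u)) :
    (γ s = (x + s • u, u) ∧ x + s • u ∈ T.table ∧ ∀ᶠ r in 𝓝 s, γ r = (x + r • u, u)) ∨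
    ∃ i, (γ s).1 = x + s • u ∧ x + s • u ∈ T.side i ∧
      ∀ᶠ r in 𝓝[>] s, γ r = (x + s • u + (r - s) • T.refl i u, T.refl i u) := by
  have hev : ∀ᶠ r in 𝓝[<] s, γ r = (x + r • u, u) := by
    have : ∀ᶠ r in 𝓝[<] s, 0 < r :=
      nhdsWithin_le_nhds (lt_mem_nhds hs)
    filter_upwards [this, self_mem_nhdsWithin] with r hr hr'
    exact hlt r hr.le hr'
  rcases hγ s with ⟨hT, hE⟩ | ⟨i, u', hS, hL, hR⟩
  · have hE' := hE.filter_mono (nhdsWithin_le_nhds (s := Iio s))
    obtain ⟨r, hr1, hr2⟩ := (hev.and hE').exists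
    rw [hr1] at hr2
    have e2 : u = (γ s).2 := congrArg Prod.snd hr2
    have e1 : x + r • u = (γ s).1 + (r - s) • (γ s).2 := congrArg Prod.fst hr2
    rw [← e2] at e1
    have e3 : (γ s).1 = x + s • u := by
      have : (γ s).1 = x + r • u - (r - s) • u := by rw [e1]; ring
      rw [this, sub_smul]
      ring
    refine Or.inl ⟨Prod.ext e3 e2.symm, e3 ▸ hT, ?_⟩
    filter_upwards [hE] with r' hr'
    rw [hr', e3, ← e2]
    refine Prod.ext ?_ rfl
    simp only [sub_smul]
    ring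
  · obtain ⟨r, hr1, hr2⟩ := (hev.and hL).exists
    rw [hr1] at hr2
    have e2 : u = u' := congrArg Prod.snd hr2
    have e1 : x + r • u = (γ s).1 + (r - s) • u' := congrArg Prod.fst hr2
    subst e2
    have e3 : (γ s).1 = x + s • u := by
      have : (γ s).1 = x + r • u - (r - s) • u := by rw [e1]; ring
      rw [this, sub_smul]
      ring
    refine Or.inr ⟨i, e3, e3 ▸ hS, ?_⟩
    filter_upwards [hR] with r' hr'
    rw [hr', e3]

/-- table and sides are disjoint -/
lemma not_mem_side_of_mem_table {x : ℂ} (hx : x ∈ T.table) (i : Fin 3) : x ∉ T.side i := by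
  intro h
  have h1 := (T.mem_table_iff x).1 hx i
  have h2 := ((T.mem_side_iff i x).1 h).1
  linarith

/-- sides are pairwise disjoint -/
lemma side_unique {x : ℂ} {i j : Fin 3} (hi : x ∈ T.side i) (hj : x ∈ T.side j) : i = j := by
  by_contra h
  have h1 := ((T.mem_side_iff' i x).1 hi).1
  have h2 := ((T.mem_side_iff' j x).1 hj).2 i h
  linarith

/-- local consequence of the definition of a trajectory: free flight -/
lemma IsTrajectory.free {γ : ℝ → ℂ × ℂ} (hγ : T.IsTrajectory γ) (h0 : (γ 0).1 ∈ T.table)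
    {t : ℝ} (ht : 0 ≤ t) (h : (γ 0).1 + t • (γ 0).2 ∈ T.table) :
    γ t = ((γ 0).1 + t • (γ 0).2, (γ 0).2) := by
  set x := (γ 0).1 with hx
  set u := (γ 0).2 with hu
  have hin : ∀ s ∈ Icc (0:ℝ) t, x + s • u ∈ T.table := by
    intro s hs
    rcases ht.eq_or_lt with rfl | ht'
    · have : s = 0 := le_antisymm hs.2 hs.1
      subst this
      simpa using h0
    · have hc := T.convex_table h0 h (a := 1 - s / t) (b := s / t)
        (by have := div_le_one_of_le₀ hs.2 ht; linarith) (div_nonneg hs.1 ht) (by ring)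
      have : (1 - s / t) • x + (s / t) • (x + t • u) = x + s • u := by
        have h1 : (s / t) • (t • u) = s • u := by
          rw [smul_smul, div_mul_cancel₀ _ ht'.ne']
        rw [smul_add, h1, sub_smul, one_smul]
        ring
      rw [this] at hc
      exact hc
  have key : Icc (0:ℝ) t ⊆ {s | ∀ r, 0 ≤ r → r ≤ s → γ r = (x + r • u, u)} := by
    refine IsClosed.Icc_subset_of_forall_mem_nhdsWithin ?_ ?_ ?_
    · refine isClosed_of_closure_subset ?_
      intro s hs
      have hsI : s ∈ Icc (0:ℝ) t :=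
        closure_minimal (inter_subset_right) isClosed_Icc hs
      refine ⟨?_, hsI⟩
      have hlt : ∀ r, 0 ≤ r → r < s → γ r = (x + r • u, u) := by
        intro r hr0 hrs
        rw [mem_closure_iff] at hs
        obtain ⟨s', hs'1, hs'2⟩ := hs (Ioi r) isOpen_Ioi hrs
        exact hs'2.1 r hr0 (le_of_lt hs'1)
      intro r hr0 hrs
      rcases hrs.eq_or_lt with rfl | hrs'
      · rcases hr0.eq_or_lt with rfl | hr0'
        · simp [hx, hu]
        · rcases IsTrajectory.step T hγ hr0' hlt with ⟨h1, _, _⟩ | ⟨i, _, h2, _⟩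
          · exact h1
          · exact absurd h2 (T.not_mem_side_of_mem_table (hin _ hsI) i)
      · exact hlt r hr0 hrs'
    · intro r hr0 hr
      have : r = 0 := le_antisymm hr hr0
      subst this
      simp only [hx, hu, zero_smul, add_zero, Prod.mk.eta]
    · rintro s ⟨hsS, hs0, hst⟩
      have hev : ∀ᶠ r in 𝓝 s, γ r = (x + r • u, u) := by
        rcases hs0.eq_or_lt with rfl | hs0'
        · rcases hγ 0 with ⟨_, hE⟩ | ⟨i, u', hS, _, _⟩
          · filter_upwards [hE] with r hr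
            rw [hr]
            simp [hx, hu]
          · exact absurd hS (T.not_mem_side_of_mem_table h0 i)
        · rcases IsTrajectory.step T hγ hs0' (fun r h1 h2 => hsS r h1 h2.le) with
            ⟨_, _, h3⟩ | ⟨i, _, h2, _⟩
          · exact h3
          · exact absurd h2 (T.not_mem_side_of_mem_table (hin _ ⟨hs0, hst.le⟩) i)
      obtain ⟨ε, hε, hball⟩ := Metric.eventually_nhds_iff.1 hev
      have : Ioo s (s + ε) ∈ 𝓝[>] s := Ioo_mem_nhdsGT (by linarith)
      filter_upwards [this] with r hr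
      intro r' hr'0 hr'r
      rcases le_or_gt r' s with h1 | h1
      · exact hsS r' hr'0 h1
      · apply hball
        rw [Real.dist_eq, abs_of_pos (by linarith)]
        linarith [hr.2]
  exact key ⟨ht, le_rfl⟩ t ht le_rfl

/-- local consequence of the definition of a trajectory: one collision -/
lemma IsTrajectory.bounce {γ : ℝ → ℂ × ℂ} (hγ : T.IsTrajectory γ) (h0 : (γ 0).1 ∈ T.table)
    {t : ℝ} {i : Fin 3} (hE : T.E i (γ 0)) (ht : T.hitT i (γ 0) < t)
    (h : T.R i ((γ 0).1 + t • (γ 0).2) ∈ T.table) :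
    γ t = (T.R i ((γ 0).1 + t • (γ 0).2), T.refl i (γ 0).2) := by
  set x := (γ 0).1 with hx
  set u := (γ 0).2 with hu
  set τ := T.hitT i (γ 0) with hτ
  have hadm : T.Adm (γ 0) := T.adm_of_mem_table h0
  have hτ0 : 0 < τ := E.hitT_pos T hadm hE
  have hlt : ∀ r, 0 ≤ r → r < τ → γ r = (x + r • u, u) := by
    intro r hr0 hr
    apply IsTrajectory.free T hγ h0 hr0
    rcases hr0.eq_or_lt with rfl | hr0'
    · simpa using h0
    · exact E.mem_table T hadm hE hr0' hr
  have hside : x + τ • u ∈ T.side i := E.hit_mem_side T hE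
  have hellu : T.ell i u < 0 := hE.1
  -- reflection formula
  have hRform : ∀ r : ℝ, T.R i (x + r • u) = x + τ • u + (r - τ) • T.refl i u := by
    intro r
    have e1 : x + r • u = (x + τ • u) + (r - τ) • u := by
      rw [sub_smul]; ring
    have e2 : T.lam i (x + τ • u) = 0 := ((T.mem_side_iff i _).1 hside).1
    rw [e1, T.R_add, T.R_of_lam_eq_zero e2, T.refl_smul]
  rcases IsTrajectory.step T hγ hτ0 hlt with ⟨_, h2, _⟩ | ⟨j, _, h2, h3⟩
  · exact absurd hside (T.not_mem_side_of_mem_table h2 i)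
  · have hij : j = i := T.side_unique h2 hside
    subst hij
    -- positions after the collision are in the table
    have hin : ∀ r, τ < r → r ≤ t → x + τ • u + (r - τ) • T.refl j u ∈ T.table := by
      intro r hr1 hr2
      rw [T.mem_table_iff]
      intro k
      have hk1 : 0 ≤ T.lam k (x + τ • u) := by
        by_cases hkj : k = j
        · subst hkj
          exact le_of_eq ((T.mem_side_iff _ _).1 hside).1.symm
        · exact (((T.mem_side_iff' j _).1 hside).2 k hkj).le
      have hk2 : 0 < T.lam k (x + τ • u + (t - τ) • T.refl j u) := by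
        have := (T.mem_table_iff _).1 h k
        rwa [hRform t] at this
      rw [T.lam_add_smul] at hk2 ⊢
      have hpos : 0 < t - τ := by linarith only [ht]
      have hr : 0 < r - τ := by linarith
      rcases le_or_gt 0 (T.ell k (T.refl j u)) with hc | hc
      · rcases hc.eq_or_lt with hc0 | hc0
        · rw [← hc0] at hk2 ⊢
          linarith only [hk2]
        · have := mul_pos hr hc0
          linarith only [hk1, this]
      · have : (t - τ) * T.ell k (T.refl j u) ≤ (r - τ) * T.ell k (T.refl j u) :=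
          mul_le_mul_of_nonpos_right (by linarith) hc.le
        linarith only [hk2, this]
    -- choose a time just after the collision
    obtain ⟨s, hs1, hs2⟩ : ∃ s, γ s = (x + τ • u + (s - τ) • T.refl j u, T.refl j u) ∧
        s ∈ Ioo τ t :=
      (h3.and (Ioo_mem_nhdsGT ht)).exists
    have hshift := IsTrajectory.shift T hγ s
    have hs3 : (γ (0 + s)).1 = x + τ • u + (s - τ) • T.refl j u := by
      rw [zero_add, hs1]
    have hs4 : (γ (0 + s)).2 = T.refl j u := by
      rw [zero_add, hs1]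
    have e0 : x + τ • u + (s - τ) • T.refl j u + (t - s) • T.refl j u =
        x + τ • u + (t - τ) • T.refl j u := by
      simp only [sub_smul]
      ring
    have hfin := IsTrajectory.free T hshift (t := t - s) (by
        show (γ (0 + s)).1 ∈ T.table
        rw [hs3]; exact hin s hs2.1 hs2.2.le) (by linarith [hs2.2]) (by
        show (γ (0 + s)).1 + (t - s) • (γ (0 + s)).2 ∈ T.table
        rw [hs3, hs4, e0]
        exact hin t (by linarith only [ht]) le_rfl)
    have hfin' : γ (t - s + s) = ((γ (0 + s)).1 + (t - s) • (γ (0 + s)).2, (γ (0 + s)).2) := hfin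
    rw [hs3, hs4, e0, sub_add_cancel] at hfin'
    rw [hfin', hRform t]

end Triangle

end Vale.Agent.P099
end
end

section

section

open MeasureTheory Set Filter Topology

namespace Vale.Agent.P099

/-- a line is a null set -/
lemma volume_line (P v : ℂ) (hv : v ≠ 0) : volume {y : ℂ | cr (P - y) v = 0} = 0 := by
  let L : ℂ →ₗ[ℝ] ℝ :=
    { toFun := fun y => cr y v
      map_add' := by intro a b; simp [cr]; ring
      map_smul' := by intro r a; simp [cr]; ring }
  have hL : LinearMap.ker L ≠ ⊤ := by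
    intro h
    have h1 : ∀ y, cr y v = 0 := fun y => by
      have : y ∈ LinearMap.ker L := by rw [h]; trivial
      exact this
    apply hv
    have h2 := h1 1
    have h3 := h1 Complex.I
    simp [cr] at h2 h3
    exact Complex.ext h3 h2
  have h1 : volume ((LinearMap.ker L : Submodule ℝ ℂ) : Set ℂ) = 0 :=
    Measure.addHaar_submodule volume _ hL
  have h2 : {y : ℂ | cr (P - y) v = 0} = (fun y => P - y) ⁻¹' ((LinearMap.ker L : Submodule ℝ ℂ) : Set ℂ) := by
    ext y
    rfl
  rw [h2, (Measure.measurePreserving_sub_left volume P).measure_preimage, h1]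
  exact (Submodule.closed_of_finiteDimensional _).measurableSet.nullMeasurableSet

namespace Triangle

variable (T : Triangle)

/-- position part of the unfolding -/
noncomputable def GX : List (Fin 3) → ℂ → ℂ
  | [], x => x
  | i :: w, x => GX w (T.R i x)

/-- direction part of the unfolding -/
noncomputable def GU : List (Fin 3) → ℂ → ℂ
  | [], u => u
  | i :: w, u => GU w (T.refl i u)

lemma GX_add (w : List (Fin 3)) (x v : ℂ) (r : ℝ) :
    T.GX w (x + r • v) = T.GX w x + r • T.GU w v := by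
  induction w generalizing x v with
  | nil => rfl
  | cons i w ih =>
    change T.GX w (T.R i (x + r • v)) = T.GX w (T.R i x) + r • T.GU w (T.refl i v)
    rw [T.R_add, T.refl_smul, ih]

lemma norm_GU (w : List (Fin 3)) (u : ℂ) : ‖T.GU w u‖ = ‖u‖ := by
  induction w generalizing u with
  | nil => rfl
  | cons i w ih =>
    change ‖T.GU w (T.refl i u)‖ = ‖u‖
    rw [ih, T.norm_refl]

lemma continuous_GX (w : List (Fin 3)) : Continuous (T.GX w) := by
  induction w with
  | nil => exact continuous_id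
  | cons i w ih => exact ih.comp (T.continuous_R i)

lemma continuous_GU (w : List (Fin 3)) : Continuous (T.GU w) := by
  induction w with
  | nil => exact continuous_id
  | cons i w ih => exact ih.comp (T.continuous_refl i)

lemma measurePreserving_GX (w : List (Fin 3)) : MeasurePreserving (T.GX w) volume volume := by
  induction w with
  | nil => exact MeasurePreserving.id _
  | cons i w ih => exact ih.comp (T.measurePreserving_R i)

lemma cr_orb (m : Fin 3) (w : List (Fin 3)) (s : ℂ × ℂ) (hw : T.dom w s) :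
    cr (T.P m - (T.orb w s).1) (T.orb w s).2 = cr (T.P m - T.GX w s.1) (T.GU w s.2) := by
  induction w generalizing s with
  | nil => rfl
  | cons i w ih =>
    have h1 := ih (T.hit i s) hw.2
    change cr (T.P m - (T.orb w (T.hit i s)).1) (T.orb w (T.hit i s)).2
      = cr (T.P m - T.GX w (T.R i s.1)) (T.GU w (T.refl i s.2))
    rw [h1]
    have h2 : (T.hit i s).1 = T.R i s.1 + T.hitT i s • T.refl i s.2 := by
      have h3 := T.R_of_lam_eq_zero (T.lam_hit i hw.1)
      rw [← h3]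
      change T.R i (s.1 + T.hitT i s • s.2) = _
      rw [T.R_add, T.refl_smul]
    have h4 : (T.hit i s).2 = T.refl i s.2 := rfl
    rw [h2, h4, T.GX_add]
    simp only [cr, Complex.sub_re, Complex.sub_im, Complex.add_re, Complex.add_im,
      Complex.real_smul, Complex.re_ofReal_mul, Complex.im_ofReal_mul]
    ring

/-- an admissible state without exit side moves towards a vertex -/
lemma exists_vertex {s : ℂ × ℂ} (h : T.Adm s) (hu : s.2 ≠ 0) (hE : ∀ i, ¬ T.E i s) :
    ∃ m, cr (T.P m - s.1) s.2 = 0 := by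
  classical
  obtain ⟨i, hi, hmin⟩ : ∃ i, T.ell i s.2 < 0 ∧ ∀ j, T.ell j s.2 < 0 → T.hitT i s ≤ T.hitT j s := by
    have hne : (Finset.univ.filter (fun i => T.ell i s.2 < 0)).Nonempty := by
      obtain ⟨i, hi⟩ := T.exists_ell_neg hu
      exact ⟨i, by simpa using hi⟩
    obtain ⟨i, hi, hmin⟩ := Finset.exists_min_image _ (fun i => T.hitT i s) hne
    simp only [Finset.mem_filter, Finset.mem_univ, true_and] at hi hmin
    exact ⟨i, hi, hmin⟩
  have h1 : ¬ ∀ j, j ≠ i → 0 < T.lam j (s.1 + T.hitT i s • s.2) := fun h2 => hE i ⟨hi, h2⟩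
  rw [not_forall] at h1
  obtain ⟨j, hj⟩ := h1
  rw [Classical.not_imp, not_lt] at hj
  obtain ⟨hji, hj0⟩ := hj
  have hi0 : T.lam i (s.1 + T.hitT i s • s.2) = 0 := by
    rw [T.lam_add_smul, hitT, div_mul_cancel₀ _ hi.ne]; ring
  have hh : 0 ≤ T.hitT i s := div_nonneg_of_nonpos (by linarith [Adm.nonneg T h i]) hi.le
  have hj1 : 0 ≤ T.lam j (s.1 + T.hitT i s • s.2) := by
    rcases lt_or_ge (T.ell j s.2) 0 with h3 | h3
    · have h4 := hmin j h3
      by_contra h5
      rw [not_le] at h5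
      rw [T.lam_add_smul] at h5
      rw [hitT, hitT, le_div_iff_of_neg h3] at h4
      rw [hitT] at h5
      linarith
    · rw [T.lam_add_smul]
      have := Adm.nonneg T h j
      have := mul_nonneg hh h3
      linarith
  have hj2 : T.lam j (s.1 + T.hitT i s • s.2) = 0 := le_antisymm hj0 hj1
  obtain ⟨m, hm⟩ : ∃ m : Fin 3, ∀ k, k ≠ m → k = i ∨ k = j := by
    have : ∀ i j : Fin 3, j ≠ i → ∃ m : Fin 3, ∀ k, k ≠ m → k = i ∨ k = j := by decide
    exact this i j hji
  have hz : ∀ k, k ≠ m → T.lam k (s.1 + T.hitT i s • s.2) = 0 := by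
    intro k hk
    rcases hm k hk with rfl | rfl
    · exact hi0
    · exact hj2
  have h5 := T.sub_P_eq m (s.1 + T.hitT i s • s.2)
  have n1 : ∀ c : Fin 3, c + 1 ≠ c := by decide
  have n2 : ∀ c : Fin 3, c + 2 ≠ c := by decide
  rw [hz _ (n1 m), hz _ (n2 m), zero_smul, zero_smul, add_zero, sub_eq_zero] at h5
  refine ⟨m, ?_⟩
  rw [← h5]
  simp only [cr, Complex.sub_re, Complex.sub_im, Complex.add_re, Complex.add_im,
      Complex.real_smul, Complex.re_ofReal_mul, Complex.im_ofReal_mul]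
  ring

lemma ae_reg_one : ∀ᵐ p ∂((volume.restrict T.table).prod nu), T.Reg (p.1, p.2) := by
  have h1 : ∀ w : List (Fin 3), ∀ m : Fin 3, ∀ᵐ p ∂((volume.restrict T.table).prod nu),
      cr (T.P m - T.GX w p.1) (T.GU w p.2) ≠ 0 := by
    intro w m
    rw [ae_iff]
    simp only [not_not]
    have hc : Continuous (fun p : ℂ × ℂ => cr (T.P m - T.GX w p.1) (T.GU w p.2)) := by
      have h2 := (T.continuous_GX w).comp (continuous_fst (X := ℂ) (Y := ℂ))
      have h3 := (T.continuous_GU w).comp (continuous_snd (X := ℂ) (Y := ℂ))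
      have h4 : Continuous (fun p : ℂ × ℂ => T.P m - T.GX w p.1) := continuous_const.sub h2
      unfold cr
      exact ((Complex.continuous_re.comp h4).mul (Complex.continuous_im.comp h3)).sub
        ((Complex.continuous_im.comp h4).mul (Complex.continuous_re.comp h3))
    have hms : MeasurableSet {p : ℂ × ℂ | cr (T.P m - T.GX w p.1) (T.GU w p.2) = 0} :=
      (isClosed_singleton.preimage hc).measurableSet
    rw [Measure.prod_apply_symm hms]
    apply lintegral_eq_zero_of_ae_eq_zero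
    filter_upwards [ae_norm] with u hu
    change (volume.restrict T.table) {x | cr (T.P m - T.GX w x) (T.GU w u) = 0} = 0
    have h5 : T.GU w u ≠ 0 := by
      intro h6
      have := T.norm_GU w u
      rw [h6, hu, norm_zero] at this
      norm_num at this
    have h7 := volume_line (T.P m) _ h5
    have h8 : volume (T.GX w ⁻¹' {y | cr (T.P m - y) (T.GU w u) = 0}) = 0 :=
      (T.measurePreserving_GX w).quasiMeasurePreserving.preimage_null h7
    exact le_antisymm ((Measure.restrict_apply_le _ _).trans h8.le) bot_le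
  have h2 : ∀ᵐ p ∂((volume.restrict T.table).prod nu), p.1 ∈ T.table :=
    Measure.quasiMeasurePreserving_fst.ae (ae_restrict_mem T.isOpen_table.measurableSet)
  have h3 : ∀ᵐ p ∂((volume.restrict T.table).prod nu), ‖p.2‖ = 1 :=
    Measure.quasiMeasurePreserving_snd.ae ae_norm
  have h4 : ∀ᵐ p ∂((volume.restrict T.table).prod nu), ∀ w : List (Fin 3), ∀ m : Fin 3,
      cr (T.P m - T.GX w p.1) (T.GU w p.2) ≠ 0 := by
    rw [ae_all_iff]
    intro w
    rw [ae_all_iff]
    exact h1 w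
  filter_upwards [h2, h3, h4] with p h5 h6 h7 w hw
  by_contra hne
  rw [not_exists] at hne
  have ha : T.Adm (T.orb w (p.1, p.2)) := T.adm_orb (T.adm_of_mem_table h5) w hw
  have hn : ‖(T.orb w (p.1, p.2)).2‖ = 1 := T.norm_orb h6 w
  have hn0 : (T.orb w (p.1, p.2)).2 ≠ 0 := by
    intro h8; rw [h8, norm_zero] at hn; norm_num at hn
  obtain ⟨m, hm⟩ := T.exists_vertex ha hn0 hne
  rw [T.cr_orb m w _ hw] at hm
  exact h7 w m hm

/-- almost every state is regular in both directions -/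
lemma ae_reg : ∀ᵐ p ∂((volume.restrict T.table).prod nu),
    T.Reg (p.1, p.2) ∧ T.Reg (p.1, - p.2) := by
  have h1 : MeasurePreserving (fun p : ℂ × ℂ => (p.1, -p.2))
      ((volume.restrict T.table).prod nu) ((volume.restrict T.table).prod nu) :=
    (MeasurePreserving.id _).prod measurePreserving_neg'
  have h2 := h1.quasiMeasurePreserving.ae T.ae_reg_one
  filter_upwards [T.ae_reg_one, h2] with p h3 h4
  exact ⟨h3, h4⟩

end Triangle

end Vale.Agent.P099
end
end

section

section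

open MeasureTheory Set Filter Topology

namespace Vale.Agent.P099

namespace Triangle

variable (T : Triangle)

/-! ### no accumulation of collisions -/

lemma cr_self' (a : ℂ) : cr a a = 0 := by simp [cr]; ring

lemma cr_add_left' (a b c : ℂ) : cr (a + b) c = cr a c + cr b c := by simp [cr]; ring

lemma cr_sub_left' (a b c : ℂ) : cr (a - b) c = cr a c - cr b c := by simp [cr]; ring

lemma cr_smul_left' (r : ℝ) (a b : ℂ) : cr (r • a) b = r * cr a b := by simp only [cr, Complex.real_smul, Complex.mul_re, Complex.ofReal_re, Complex.ofReal_im, zero_mul, sub_zero, Complex.mul_im, add_zero]; ring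

lemma cr_neg_left' (a b : ℂ) : cr (-a) b = - cr a b := by simp only [cr, Complex.neg_re, neg_mul, Complex.neg_im, sub_neg_eq_add, neg_sub]; ring

lemma abs_cr_le' (a b : ℂ) : |cr a b| ≤ ‖a‖ * ‖b‖ := by
  have h : cr a b = ((starRingEnd ℂ) a * b).im := by simp [cr]; ring
  rw [h]
  refine (Complex.abs_im_le_norm _).trans ?_
  rw [norm_mul, Complex.norm_conj]

/-- `cr (P c - x) u` only changes its sign at a collision with a side adjacent to `P c` -/
lemma cr_hit {i c : Fin 3} (hic : i ≠ c) {s : ℂ × ℂ} (hE : T.E i s) :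
    cr (T.P c - (T.hit i s).1) (T.hit i s).2 = - cr (T.P c - s.1) s.2 := by
  have h1 : T.lam i (T.hit i s).1 = 0 := T.lam_hit i hE
  have h2 : T.R i (T.hit i s).1 = (T.hit i s).1 := T.R_of_lam_eq_zero h1
  have h3 : T.R i (T.P c) = T.P c := T.R_of_lam_eq_zero (by rw [T.lam_P, if_neg hic])
  have h4 : T.refl i (T.P c - (T.hit i s).1) = T.P c - (T.hit i s).1 := by
    have := T.R_add i (T.hit i s).1 (T.P c - (T.hit i s).1)
    rw [add_sub_cancel, h3, h2] at this
    rw [← sub_eq_iff_eq_add'] at this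
    exact this.symm
  have h5 : (T.hit i s).2 = T.refl i s.2 := rfl
  have h6 : (T.hit i s).1 = s.1 + T.hitT i s • s.2 := rfl
  rw [h5]
  conv_lhs => rw [← h4]
  rw [T.cr_refl, h6]
  rw [← sub_sub, cr_sub_left' _ (T.hitT i s • s.2), cr_smul_left', cr_self']
  ring

open Classical in
/-- the exit side -/
noncomputable def ex (s : ℂ × ℂ) : Fin 3 := if h : ∃ i, T.E i s then h.choose else 0

/-- the state after `n` collisions -/
noncomputable def sq (s : ℂ × ℂ) : ℕ → ℂ × ℂ
  | 0 => s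
  | n + 1 => T.hit (T.ex (sq s n)) (sq s n)

/-- the flight times -/
noncomputable def tau (s : ℂ × ℂ) (n : ℕ) : ℝ := T.hitT (T.ex (T.sq s n)) (T.sq s n)

/-- the collision times -/
noncomputable def tt (s : ℂ × ℂ) (n : ℕ) : ℝ := ∑ m ∈ Finset.range n, T.tau s m

/-- good states -/
structure Good (s : ℂ × ℂ) : Prop where
  adm : T.Adm s
  reg : T.Reg s
  norm : ‖s.2‖ = 1

variable {T}

lemma Good.E {s : ℂ × ℂ} (h : T.Good s) : T.E (T.ex s) s := by
  have h1 : ∃ i, T.E i s := by
    simpa only [orb] using h.reg [] trivial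
  rw [ex, dif_pos h1]
  exact h1.choose_spec

lemma Good.hit {s : ℂ × ℂ} (h : T.Good s) : T.Good (T.hit (T.ex s) s) :=
  ⟨Triangle.E.adm_hit T h.E, Triangle.Reg.hit T h.reg h.E, by
    change ‖T.refl _ s.2‖ = 1
    rw [T.norm_refl, h.norm]⟩

lemma Good.sq {s : ℂ × ℂ} (h : T.Good s) (n : ℕ) : T.Good (T.sq s n) := by
  induction n with
  | zero => exact h
  | succ n ih => exact ih.hit

lemma Good.tau_pos {s : ℂ × ℂ} (h : T.Good s) (n : ℕ) : 0 < T.tau s n :=
  Triangle.E.hitT_pos T (h.sq n).adm (h.sq n).E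

lemma Good.ex_succ_ne {s : ℂ × ℂ} (h : T.Good s) (n : ℕ) :
    T.ex (T.sq s (n + 1)) ≠ T.ex (T.sq s n) := by
  intro he
  have h1 : 0 < T.lam (T.ex (T.sq s (n + 1))) (T.sq s (n + 1)).1 :=
    Triangle.E.lam_pos T (h.sq (n + 1)).adm (h.sq (n + 1)).E
  have h2 : T.lam (T.ex (T.sq s n)) (T.sq s (n + 1)).1 = 0 := T.lam_hit _ (h.sq n).E
  rw [he, h2] at h1
  exact lt_irrefl _ h1

lemma continuous_lamE (i : Fin 3) : Continuous (T.lam i) := by
  unfold lam cr
  (clear * -; fun_prop)

lemma tt_succ (s : ℂ × ℂ) (n : ℕ) : T.tt s (n + 1) = T.tt s n + T.tau s n := by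
  rw [tt, tt, Finset.sum_range_succ]

lemma sq_succ_fst (s : ℂ × ℂ) (n : ℕ) :
    (T.sq s (n + 1)).1 = (T.sq s n).1 + T.tau s n • (T.sq s n).2 := rfl

lemma sq_succ_snd (s : ℂ × ℂ) (n : ℕ) :
    (T.sq s (n + 1)).2 = T.refl (T.ex (T.sq s n)) (T.sq s n).2 := rfl

/-- collision times do not accumulate -/
lemma Good.not_summable {s : ℂ × ℂ} (h : T.Good s) : ¬ Summable (T.tau s) := by
  intro hsum
  -- the positions converge
  have hc : CauchySeq (fun n => (T.sq s n).1) := by
    apply cauchySeq_of_dist_le_of_summable (T.tau s) _ hsum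
    intro n
    rw [Nat.succ_eq_add_one, sq_succ_fst, dist_eq_norm, sub_add_cancel_left, norm_neg, norm_smul,
      (h.sq n).norm, mul_one, Real.norm_eq_abs, abs_of_pos (h.tau_pos n)]
  obtain ⟨x, hx⟩ := cauchySeq_tendsto_of_complete hc
  -- sides hit infinitely often
  have key : ∀ j, (∃ᶠ n in atTop, T.ex (T.sq s n) = j) → T.lam j x = 0 := by
    intro j hj
    have h1 : Tendsto (fun n => T.lam j (T.sq s (n + 1)).1) atTop (𝓝 (T.lam j x)) :=
      ((continuous_lamE j).tendsto x).comp (hx.comp (tendsto_add_atTop_nat 1))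
    by_contra hne
    have h2 : ∀ᶠ n in atTop, T.lam j (T.sq s (n + 1)).1 ≠ 0 := h1.eventually_ne hne
    obtain ⟨n, hn1, hn2⟩ := (hj.and_eventually h2).exists
    apply hn2
    rw [← hn1]
    exact T.lam_hit _ (h.sq n).E
  -- some side is hit only finitely often
  have hc1 : ∃ c, ∀ᶠ n in atTop, T.ex (T.sq s n) ≠ c := by
    by_contra hcon
    rw [not_exists] at hcon
    have h3 : ∀ j, T.lam j x = 0 := fun j => key j (by
      intro h4
      exact hcon j h4)
    have := T.sum_lam x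
    rw [h3, h3, h3] at this
    norm_num at this
  obtain ⟨c, hcc⟩ := hc1
  -- the other sides are hit infinitely often
  have hxc : x = T.P c := by
    have h4 : ∀ j, j ≠ c → T.lam j x = 0 := by
      intro j hj
      apply key
      intro h5
      -- then eventually only one side is hit
      obtain ⟨n, hn⟩ := (((hcc.and h5).and
        (((tendsto_add_atTop_nat 1).eventually hcc).and
          ((tendsto_add_atTop_nat 1).eventually h5)))).exists
      obtain ⟨⟨a1, a2⟩, a3, a4⟩ := hn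
      have a5 := h.ex_succ_ne n
      have : ∀ a b c j : Fin 3, j ≠ c → a ≠ c → a ≠ j → b ≠ c → b ≠ j → a = b := by (clear * -; decide)
      exact a5 (this _ _ c j hj a3 a4 a1 a2)
    have h5 := T.sub_P_eq c x
    have n1 : ∀ c : Fin 3, c + 1 ≠ c := by decide
    have n2 : ∀ c : Fin 3, c + 2 ≠ c := by decide
    rw [h4 _ (n1 c), h4 _ (n2 c)] at h5
    simpa [sub_eq_zero] using h5
  -- the transversal distance to the vertex is eventually constant
  obtain ⟨n0, hn0⟩ := eventually_atTop.1 hcc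
  have hconst : ∀ n, n0 ≤ n → |cr (T.P c - (T.sq s n).1) (T.sq s n).2|
      = |cr (T.P c - (T.sq s n0).1) (T.sq s n0).2| := by
    intro n hn
    induction n, hn using Nat.le_induction with
    | base => rfl
    | succ n hn ih =>
      have : cr (T.P c - (T.sq s (n + 1)).1) (T.sq s (n + 1)).2
          = - cr (T.P c - (T.sq s n).1) (T.sq s n).2 := T.cr_hit (hn0 n hn) (h.sq n).E
      rw [this, abs_neg, ih]
  have hlim : Tendsto (fun n => |cr (T.P c - (T.sq s n).1) (T.sq s n).2|) atTop (𝓝 0) := by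
    have h6 : Tendsto (fun n => ‖T.P c - (T.sq s n).1‖) atTop (𝓝 0) := by
      have := (tendsto_const_nhds (x := T.P c)).sub hx
      rw [hxc, sub_self] at this
      simpa only [norm_zero] using this.norm
    refine squeeze_zero (fun n => abs_nonneg _) (fun n => ?_) h6
    refine (abs_cr_le' _ _).trans ?_
    rw [(h.sq n).norm, mul_one]
  have hzero : |cr (T.P c - (T.sq s n0).1) (T.sq s n0).2| = 0 := by
    have h7 : Tendsto (fun n => |cr (T.P c - (T.sq s n).1) (T.sq s n).2|) atTop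
        (𝓝 |cr (T.P c - (T.sq s n0).1) (T.sq s n0).2|) := by
      apply tendsto_const_nhds.congr'
      filter_upwards [eventually_ge_atTop n0] with n hn
      exact (hconst n hn).symm
    exact tendsto_nhds_unique h7 hlim
  -- contradiction at the time n0 + 1
  set i := T.ex (T.sq s n0) with hi
  have hic : i ≠ c := hn0 n0 le_rfl
  have h8 : cr (T.P c - (T.sq s (n0 + 1)).1) (T.sq s (n0 + 1)).2 = 0 := by
    rw [← abs_eq_zero, hconst (n0 + 1) (by omega), hzero]
  have h9 : T.lam i (T.sq s (n0 + 1)).1 = 0 := T.lam_hit _ (h.sq n0).E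
  have h10 : 0 < T.ell i (T.sq s (n0 + 1)).2 := by
    rcases (h.sq (n0 + 1)).adm i with h11 | h11
    · rw [h9] at h11; exact absurd h11 (lt_irrefl _)
    · exact h11.2
  have h12 : (T.sq s (n0 + 1)).1 ∈ T.side i := Triangle.E.hit_mem_side T (h.sq n0).E
  obtain ⟨a, b, ha, hb, hab, h13⟩ := h12
  have h14 : cr (T.d i) (T.sq s (n0 + 1)).2 = 0 := by
    have n3 : ∀ i c : Fin 3, i ≠ c → c = i + 1 ∨ c = i + 2 := by decide
    rcases n3 i c hic with h15 | h15
    · have h16 : T.P c - (T.sq s (n0 + 1)).1 = (-b) • T.d i := by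
        rw [← h13, h15, d]
        have : a = 1 - b := by linarith only [hab]
        rw [this]
        module
      rw [h16, cr_smul_left'] at h8
      rcases mul_eq_zero.1 h8 with h17 | h17
      · linarith only [hb, h17]
      · exact h17
    · have h16 : T.P c - (T.sq s (n0 + 1)).1 = a • T.d i := by
        rw [← h13, h15, d]
        have : b = 1 - a := by linarith only [hab]
        rw [this]
        module
      rw [h16, cr_smul_left'] at h8
      rcases mul_eq_zero.1 h8 with h17 | h17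
      · linarith only [ha, h17]
      · exact h17
  rw [ell, h14, zero_div] at h10
  exact lt_irrefl _ h10

lemma Good.tt_tendsto {s : ℂ × ℂ} (h : T.Good s) : Tendsto (T.tt s) atTop atTop :=
  (not_summable_iff_tendsto_nat_atTop_of_nonneg (fun n => (h.tau_pos n).le)).1 h.not_summable

lemma tt_zero (s : ℂ × ℂ) : T.tt s 0 = 0 := by simp [tt]

lemma Good.tt_strictMono {s : ℂ × ℂ} (h : T.Good s) : StrictMono (T.tt s) :=
  strictMono_nat_of_lt_succ fun n => by
    rw [tt_succ]; linarith [h.tau_pos n]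

lemma Good.exists_idx {s : ℂ × ℂ} (h : T.Good s) (t : ℝ) : ∃ n, t < T.tt s (n + 1) :=
  (((tendsto_add_atTop_nat 1).eventually (h.tt_tendsto.eventually_gt_atTop t))).exists

/-- number of collisions before time `t` -/
noncomputable def idx (T : Triangle) (s : ℂ × ℂ) (t : ℝ) : ℕ := sInf {n | t < T.tt s (n + 1)}

lemma Good.idx_eq {s : ℂ × ℂ} (h : T.Good s) {n : ℕ} {t : ℝ} (h1 : T.tt s n ≤ t)
    (h2 : t < T.tt s (n + 1)) : T.idx s t = n := by
  apply le_antisymm
  · exact Nat.sInf_le h2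
  · apply le_csInf ⟨n, h2⟩
    intro m hm
    by_contra hlt
    rw [not_le] at hlt
    have h3 : T.tt s (m + 1) ≤ T.tt s n := h.tt_strictMono.monotone (by omega)
    have h4 : t < T.tt s (m + 1) := hm
    linarith only [h1, h3, h4]

lemma Good.exists_Ico {s : ℂ × ℂ} (h : T.Good s) {t : ℝ} (ht : 0 ≤ t) :
    ∃ n, T.tt s n ≤ t ∧ t < T.tt s (n + 1) := by
  classical
  have hex := h.exists_idx t
  refine ⟨Nat.find hex, ?_, Nat.find_spec hex⟩
  rcases Nat.eq_zero_or_pos (Nat.find hex) with h1 | h1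
  · rw [h1, tt_zero]; exact ht
  · have := Nat.find_min hex (Nat.sub_lt h1 one_pos)
    rw [not_lt, show Nat.find hex - 1 + 1 = Nat.find hex by omega] at this
    exact this

/-- forward motion -/
noncomputable def fw (T : Triangle) (s : ℂ × ℂ) (t : ℝ) : ℂ × ℂ :=
  ((T.sq s (T.idx s t)).1 + (t - T.tt s (T.idx s t)) • (T.sq s (T.idx s t)).2,
    (T.sq s (T.idx s t)).2)

lemma Good.fw_eq {s : ℂ × ℂ} (h : T.Good s) {n : ℕ} {t : ℝ} (h1 : T.tt s n ≤ t)
    (h2 : t < T.tt s (n + 1)) :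
    T.fw s t = ((T.sq s n).1 + (t - T.tt s n) • (T.sq s n).2, (T.sq s n).2) := by
  rw [fw, h.idx_eq h1 h2]

/-- the local condition in the definition of a trajectory -/
def Loc (T : Triangle) (γ : ℝ → ℂ × ℂ) (t : ℝ) : Prop :=
  ((γ t).1 ∈ T.table ∧ ∀ᶠ s in 𝓝 t, γ s = ((γ t).1 + (s - t) • (γ t).2, (γ t).2)) ∨
    ∃ i u, (γ t).1 ∈ T.side i ∧
      (∀ᶠ s in 𝓝[<] t, γ s = ((γ t).1 + (s - t) • u, u)) ∧
      (∀ᶠ s in 𝓝[>] t, γ s = ((γ t).1 + (s - t) • T.refl i u, T.refl i u))

lemma Loc.congr {γ γ' : ℝ → ℂ × ℂ} {t : ℝ} (h : T.Loc γ t) (h' : γ' =ᶠ[𝓝 t] γ) : T.Loc γ' t := by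
  have e : γ' t = γ t := h'.eq_of_nhds
  rcases h with ⟨h1, h2⟩ | ⟨i, u, h1, h2, h3⟩
  · refine Or.inl ⟨by rw [e]; exact h1, ?_⟩
    filter_upwards [h2, h'] with s hs hs'
    rw [hs', hs, e]
  · refine Or.inr ⟨i, u, by rw [e]; exact h1, ?_, ?_⟩
    · filter_upwards [h2, h'.filter_mono nhdsWithin_le_nhds] with s hs hs'
      rw [hs', hs, e]
    · filter_upwards [h3, h'.filter_mono nhdsWithin_le_nhds] with s hs hs'
      rw [hs', hs, e]

/-- reversal of the velocity -/
def flip (p : ℂ × ℂ) : ℂ × ℂ := (p.1, -p.2)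

lemma Loc.reverse {γ : ℝ → ℂ × ℂ} {t : ℝ} (h : T.Loc γ t) :
    T.Loc (fun r => flip (γ (-r))) (-t) := by
  rcases h with ⟨h1, h2⟩ | ⟨i, u, h1, h2, h3⟩
  · refine Or.inl ⟨by simpa [flip] using h1, ?_⟩
    have h4 : Tendsto (fun r : ℝ => -r) (𝓝 (-t)) (𝓝 t) := by
      have := (continuous_neg (G := ℝ)).tendsto (-t)
      rwa [neg_neg] at this
    filter_upwards [h4.eventually h2] with r hr
    simp only [flip, neg_neg, hr]
    ext1
    · simp only [smul_neg, ← neg_smul]
      congr 2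
      ring
    · rfl
  · refine Or.inr ⟨i, -T.refl i u, by simpa [flip] using h1, ?_, ?_⟩
    · have h4 : Tendsto (fun r : ℝ => -r) (𝓝[<] (-t)) (𝓝[>] t) := by
        have := tendsto_neg_nhdsLT (a := -t)
        rwa [neg_neg] at this
      filter_upwards [h4.eventually h3] with r hr
      simp only [flip, neg_neg, hr]
      ext1
      · simp only [smul_neg, ← neg_smul]
        congr 2
        ring
      · rfl
    · have h4 : Tendsto (fun r : ℝ => -r) (𝓝[>] (-t)) (𝓝[<] t) := by
        have := tendsto_neg_nhdsGT (a := -t)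
        rwa [neg_neg] at this
      filter_upwards [h4.eventually h2] with r hr
      simp only [flip, neg_neg, hr]
      ext1
      · simp only [T.refl_neg, T.refl_refl, smul_neg, ← neg_smul]
        congr 2
        ring
      · simp only [T.refl_neg, T.refl_refl]

lemma Good.loc_interior {s : ℂ × ℂ} (h : T.Good s) {n : ℕ} {t : ℝ} (h1 : T.tt s n < t)
    (h2 : t < T.tt s (n + 1)) : T.Loc (T.fw s) t := by
  left
  have h3 : T.tt s (n + 1) = T.tt s n + T.tau s n := tt_succ s n
  constructor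
  · rw [h.fw_eq h1.le h2]
    exact Triangle.E.mem_table T (h.sq n).adm (h.sq n).E (by linarith only [h1])
      (by change _ < T.tau s n; linarith only [h2, h3])
  · filter_upwards [Ioo_mem_nhds h1 h2] with r hr
    rw [h.fw_eq h1.le h2, h.fw_eq hr.1.le hr.2]
    ext1
    · simp only [add_assoc, ← add_smul]
      congr 2
      ring
    · rfl

lemma Good.loc_collision {s : ℂ × ℂ} (h : T.Good s) (n : ℕ) :
    T.Loc (T.fw s) (T.tt s (n + 1)) := by
  right
  have h3 : T.tt s (n + 1) = T.tt s n + T.tau s n := tt_succ s n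
  have h4 : T.tt s n < T.tt s (n + 1) := h.tt_strictMono (Nat.lt_succ_self n)
  have h5 : T.tt s (n + 1) < T.tt s (n + 1 + 1) := h.tt_strictMono (Nat.lt_succ_self _)
  have h6 : T.fw s (T.tt s (n + 1)) = ((T.sq s (n + 1)).1, (T.sq s (n + 1)).2) := by
    rw [h.fw_eq le_rfl h5]; simp
  refine ⟨T.ex (T.sq s n), (T.sq s n).2, ?_, ?_, ?_⟩
  · rw [h6]
    exact Triangle.E.hit_mem_side T (h.sq n).E
  · filter_upwards [Ioo_mem_nhdsLT h4] with r hr
    rw [h6, h.fw_eq hr.1.le hr.2]
    ext1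
    · simp only [sq_succ_fst, add_assoc, ← add_smul]
      congr 2
      rw [h3]
      ring
    · rfl
  · filter_upwards [Ioo_mem_nhdsGT h5] with r hr
    rw [h6, h.fw_eq hr.1.le hr.2]
    rfl

lemma Good.loc_fw {s : ℂ × ℂ} (h : T.Good s) {t : ℝ} (ht : 0 < t) : T.Loc (T.fw s) t := by
  obtain ⟨n, h1, h2⟩ := h.exists_Ico ht.le
  rcases h1.lt_or_eq with h3 | h3
  · exact h.loc_interior h3 h2
  · rcases n with _ | n
    · rw [tt_zero] at h3; exact absurd h3 ht.ne
    · rw [← h3]; exact h.loc_collision n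

/-- the trajectory of a phase point -/
noncomputable def traj (T : Triangle) (t : ℝ) (p : ℂ × ℂ) : ℂ × ℂ :=
  if 0 ≤ t then T.fw p t else flip (T.fw (flip p) (-t))

lemma flip_flip (p : ℂ × ℂ) : flip (flip p) = p := by simp [flip]

lemma Good.fw_small {s : ℂ × ℂ} (h : T.Good s) {t : ℝ} (ht : 0 ≤ t) (ht' : t < T.tau s 0) :
    T.fw s t = (s.1 + t • s.2, s.2) := by
  have h1 : T.tt s (0 + 1) = T.tau s 0 := by rw [tt_succ, tt_zero, zero_add]
  rw [h.fw_eq (n := 0) (by rw [tt_zero]; exact ht) (by rw [h1]; exact ht'), tt_zero, sub_zero]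
  rfl

lemma isTrajectory_traj {p : ℂ × ℂ} (hp : p.1 ∈ T.table) (h1 : T.Good p) (h2 : T.Good (flip p)) :
    T.IsTrajectory (fun t => T.traj t p) := by
  have h0 : T.traj 0 p = p := by
    rw [traj, if_pos le_rfl, h1.fw_small le_rfl (h1.tau_pos 0)]; simp
  intro t
  change T.Loc (fun t => T.traj t p) t
  rcases lt_trichotomy t 0 with ht | ht | ht
  · have h3 : T.Loc (T.fw (flip p)) (-t) := h2.loc_fw (by linarith)
    have h4 := h3.reverse
    rw [neg_neg] at h4
    apply h4.congr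
    filter_upwards [Iio_mem_nhds ht] with r hr
    rw [mem_Iio] at hr
    rw [traj, if_neg (by linarith)]
  · rw [ht]
    left
    refine ⟨by simp only [h0]; exact hp, ?_⟩
    have h3 : 0 < T.tau p 0 := h1.tau_pos 0
    have h4 : 0 < T.tau (flip p) 0 := h2.tau_pos 0
    filter_upwards [Ioo_mem_nhds (neg_neg_of_pos h4) h3] with r hr
    simp only [h0]
    rw [traj]
    split_ifs with h5
    · rw [h1.fw_small h5 hr.2, sub_zero]
    · rw [h2.fw_small (by linarith) (by linarith [hr.1]), sub_zero]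
      simp [flip]
  · apply (h1.loc_fw ht).congr
    filter_upwards [Ioi_mem_nhds ht] with r hr
    rw [mem_Ioi] at hr
    rw [traj, if_pos (by linarith)]

variable (T)

lemma ae_good : ∀ᵐ p ∂((volume.restrict T.table).prod nu),
    p.1 ∈ T.table ∧ T.Good p ∧ T.Good (flip p) := by
  have h1 : ∀ᵐ p ∂((volume.restrict T.table).prod nu), p.1 ∈ T.table :=
    Measure.quasiMeasurePreserving_fst.ae (ae_restrict_mem T.isOpen_table.measurableSet)
  have h2 : ∀ᵐ p ∂((volume.restrict T.table).prod nu), ‖p.2‖ = 1 :=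
    Measure.quasiMeasurePreserving_snd.ae ae_norm
  filter_upwards [h1, h2, T.ae_reg] with p h3 h4 h5
  exact ⟨h3, ⟨T.adm_of_mem_table h3, h5.1, h4⟩, ⟨T.adm_of_mem_table h3, h5.2, by
    rw [flip, norm_neg, h4]⟩⟩

/-- Existence of the billiard flow. -/
theorem exists_flow' : ∃ Φ : ℝ → ℂ × ℂ → ℂ × ℂ, T.IsBilliardFlow Φ := by
  refine ⟨T.traj, ?_⟩
  have h1 : ∀ᵐ p ∂T.mu, p.1 ∈ T.table ∧ T.Good p ∧ T.Good (flip p) := by
    rw [mu, ProbabilityTheory.cond, Measure.prod_smul_left]
    exact Measure.ae_smul_measure T.ae_good _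
  filter_upwards [h1] with p hp
  refine ⟨?_, isTrajectory_traj hp.1 hp.2.1 hp.2.2⟩
  rw [traj, if_pos le_rfl, hp.2.1.fw_small le_rfl (hp.2.1.tau_pos 0)]; simp

end Triangle

end Vale.Agent.P099
end
end

section

section

open MeasureTheory Set Filter Topology

namespace Vale.Agent.P099

variable {Ω : Type} [MeasurableSpace Ω]

/-- `Ψ` is a measurable flow preserving `m` (almost everywhere sense). -/
structure PFlow (m : Measure Ω) (Ψ : ℝ → Ω → Ω) : Prop where
  meas : Measurable (fun z : ℝ × Ω => Ψ z.1 z.2)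
  mp : ∀ t, MeasurePreserving (Ψ t) m m
  add : ∀ s t, ∀ᵐ q ∂m, Ψ (s + t) q = Ψ s (Ψ t q)
  zero : ∀ᵐ q ∂m, Ψ 0 q = q

/-- time average of `H` along the flow on the parameter space -/
noncomputable def Uav (Ψ : ℝ → Ω → Ω) (τ : ℝ) (H : ℂ → ℂ × Ω → ℝ) : ℂ → ℂ × Ω → ℝ :=
  fun x ω => τ⁻¹ * ∫ s in (0:ℝ)..τ, H x (ω.1, Ψ s ω.2)

/-- minus the derivative of `Uav` along the flow on the parameter space -/
noncomputable def Vav (Ψ : ℝ → Ω → Ω) (τ : ℝ) (H : ℂ → ℂ × Ω → ℝ) : ℂ → ℂ × Ω → ℝ :=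
  fun x ω => τ⁻¹ * (H x ω - H x (ω.1, Ψ τ ω.2))

namespace Triangle

variable (T : Triangle)

/-- invariance of `H` under (billiard flow) x (`Ψ`), for free flights -/
def FreeInv (m : Measure Ω) (Ψ : ℝ → Ω → Ω) (H : ℂ → ℂ × Ω → ℝ) : Prop :=
  ∀ t : ℝ, 0 < t → ∀ᵐ p ∂((volume.restrict T.table).prod (nu.prod m)),
    p.1 + t • p.2.1 ∈ T.table → H (p.1 + t • p.2.1) (p.2.1, Ψ t p.2.2) = H p.1 p.2

/-- invariance of `H` under (billiard flow) x (`Ψ`), for motions with one collision -/
def BounceInv (m : Measure Ω) (Ψ : ℝ → Ω → Ω) (H : ℂ → ℂ × Ω → ℝ) : Prop :=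
  ∀ t : ℝ, 0 < t → ∀ i, ∀ᵐ p ∂((volume.restrict T.table).prod (nu.prod m)),
    T.E i (p.1, p.2.1) → T.hitT i (p.1, p.2.1) < t → T.R i (p.1 + t • p.2.1) ∈ T.table →
      H (T.R i (p.1 + t • p.2.1)) (T.refl i p.2.1, Ψ t p.2.2) = H p.1 p.2

end Triangle

end Vale.Agent.P099
end
end

section

section

open MeasureTheory Set Filter Topology

namespace Vale.Agent.P099

variable {Ω : Type} [MeasurableSpace Ω]

lemma PFlow.measurable_time {m : Measure Ω} {Ψ : ℝ → Ω → Ω} (hΨ : PFlow m Ψ) (t : ℝ) :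
    Measurable (Ψ t) := (hΨ.mp t).measurable

lemma bdd_meas_comp {m : Measure Ω} {Ψ : ℝ → Ω → Ω} (hΨ : PFlow m Ψ) {H : ℂ → ℂ × Ω → ℝ}
    (hH : Bdd H) :
    Measurable (fun z : (ℂ × (ℂ × Ω)) × ℝ => H z.1.1 (z.1.2.1, Ψ z.2 z.1.2.2)) := by
  have h1 : Measurable (fun z : (ℂ × (ℂ × Ω)) × ℝ =>
      ((z.1.1, (z.1.2.1, Ψ z.2 z.1.2.2)) : ℂ × (ℂ × Ω))) := by
    refine Measurable.prodMk (measurable_fst.comp measurable_fst) (Measurable.prodMk
      (measurable_fst.comp (measurable_snd.comp measurable_fst)) ?_)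
    exact hΨ.meas.comp (Measurable.prodMk measurable_snd
      (measurable_snd.comp (measurable_snd.comp measurable_fst)))
  exact hH.1.comp h1

lemma bdd_meas_snd {H : ℂ → ℂ × Ω → ℝ} (hH : Bdd H) (y u : ℂ) :
    Measurable (fun q => H y (u, q)) := by
  have h1 : Measurable (fun q : Ω => ((y, (u, q)) : ℂ × (ℂ × Ω))) := by fun_prop
  exact hH.1.comp h1

lemma bdd_Uav {m : Measure Ω} {Ψ : ℝ → Ω → Ω} (hΨ : PFlow m Ψ) {H : ℂ → ℂ × Ω → ℝ} (hH : Bdd H)
    {τ : ℝ} (hτ : 0 < τ) : Bdd (Uav Ψ τ H) := by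
  constructor
  · have h1 : Measurable (fun p : ℂ × (ℂ × Ω) => ∫ s, H p.1 (p.2.1, Ψ s p.2.2)
        ∂((volume : Measure ℝ).restrict (Ioc 0 τ))) := by
      exact ((bdd_meas_comp hΨ hH).stronglyMeasurable.integral_prod_right'
        (ν := (volume : Measure ℝ).restrict (Ioc 0 τ))).measurable
    have h2 : (fun p : ℂ × (ℂ × Ω) => Uav Ψ τ H p.1 p.2) =
        fun p : ℂ × (ℂ × Ω) => τ⁻¹ * ∫ s, H p.1 (p.2.1, Ψ s p.2.2)
        ∂((volume : Measure ℝ).restrict (Ioc 0 τ)) := by
      funext p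
      simp only [Uav, intervalIntegral.integral_of_le hτ.le]
    rw [h2]
    exact h1.const_mul _
  · obtain ⟨C, hC⟩ := hH.2
    refine ⟨C, fun y ω => ?_⟩
    have h3 : ‖∫ s in (0:ℝ)..τ, H y (ω.1, Ψ s ω.2)‖ ≤ C * |τ - 0| := by
      apply intervalIntegral.norm_integral_le_of_norm_le_const
      intro s _
      exact hC _ _
    simp only [Real.norm_eq_abs, sub_zero, Uav, abs_mul, abs_inv] at h3 ⊢
    have h4 : 0 < |τ| := abs_pos.mpr hτ.ne'
    rw [inv_mul_le_iff₀ h4]
    linarith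

lemma bdd_Vav {m : Measure Ω} {Ψ : ℝ → Ω → Ω} (hΨ : PFlow m Ψ) {H : ℂ → ℂ × Ω → ℝ} (hH : Bdd H)
    {τ : ℝ} (hτ : 0 < τ) : Bdd (Vav Ψ τ H) := by
  constructor
  · have h1 : Measurable (fun p : ℂ × (ℂ × Ω) => H p.1 (p.2.1, Ψ τ p.2.2)) := by
      have h0 : Measurable (fun p : ℂ × (ℂ × Ω) => ((p, τ) : (ℂ × (ℂ × Ω)) × ℝ)) := by fun_prop
      exact (bdd_meas_comp hΨ hH).comp h0
    exact (hH.1.sub h1).const_mul _
  · obtain ⟨C, hC⟩ := hH.2
    refine ⟨τ⁻¹ * (2 * C), fun y ω => ?_⟩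
    simp only [Vav, abs_mul]
    rw [abs_of_pos (inv_pos.mpr hτ)]
    refine mul_le_mul_of_nonneg_left ?_ (inv_pos.mpr hτ).le
    have := abs_sub (H y ω) (H y (ω.1, Ψ τ ω.2))
    have := hC y ω
    have := hC y (ω.1, Ψ τ ω.2)
    (clear m hΨ hH hτ; linarith)

/-- correlations -/
lemma corr_shift {m : Measure Ω} [IsProbabilityMeasure m] {Ψ : ℝ → Ω → Ω} (hΨ : PFlow m Ψ)
    {h h' : Ω → ℝ} (hm : Measurable h) (hm' : Measurable h') (a b : ℝ) :
    ∫ q, h (Ψ a q) * h' (Ψ b q) ∂m = ∫ q, h q * h' (Ψ (b - a) q) ∂m := by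
  have h1 : ∀ᵐ q ∂m, Ψ b q = Ψ (b - a) (Ψ a q) := by
    have := hΨ.add (b - a) a
    simpa using this
  have h2 : ∫ q, h (Ψ a q) * h' (Ψ b q) ∂m = ∫ q, h (Ψ a q) * h' (Ψ (b - a) (Ψ a q)) ∂m := by
    apply integral_congr_ae
    filter_upwards [h1] with q hq
    rw [hq]
  rw [h2]
  have h3 := (hΨ.mp a).map_eq
  have h4 : ∫ q, h q * h' (Ψ (b - a) q) ∂m = ∫ q, h q * h' (Ψ (b - a) q) ∂(m.map (Ψ a)) := by
    rw [h3]
  rw [h4, integral_map (hΨ.measurable_time a).aemeasurable]
  apply Measurable.aestronglyMeasurable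
  exact hm.mul (hm'.comp (hΨ.measurable_time _))

/-- swapping the time average and the integral -/
lemma avg_swap {m : Measure Ω} [IsProbabilityMeasure m] {Ψ : ℝ → Ω → Ω} (hΨ : PFlow m Ψ)
    {g h : Ω → ℝ} (hg : Measurable g) (hm : Measurable h) (hb : ∃ C, ∀ q, |h q| ≤ C)
    (hgb : ∃ C, ∀ q, |g q| ≤ C)
    {τ : ℝ} (hτ : 0 < τ) :
    ∫ q, g q * (∫ s in (0:ℝ)..τ, h (Ψ s q)) ∂m = ∫ s in (0:ℝ)..τ, ∫ q, g q * h (Ψ s q) ∂m := by
  obtain ⟨C, hC⟩ := hb
  obtain ⟨D, hD⟩ := hgb
  simp only [intervalIntegral.integral_of_le hτ.le]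
  have h1 : ∀ q, g q * (∫ s in Ioc 0 τ, h (Ψ s q)) = ∫ s in Ioc 0 τ, g q * h (Ψ s q) := by
    intro q
    rw [integral_const_mul]
  simp only [h1]
  apply integral_integral_swap
  have hmeas : Measurable (fun z : Ω × ℝ => g z.1 * h (Ψ z.2 z.1)) := by
    refine (hg.comp measurable_fst).mul (hm.comp ?_)
    exact hΨ.meas.comp (Measurable.prodMk measurable_snd measurable_fst)
  refine Integrable.of_bound (C := D * C) hmeas.aestronglyMeasurable ?_
  refine Filter.Eventually.of_forall (fun z => ?_)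
  simp only [Function.uncurry, Real.norm_eq_abs, abs_mul]
  exact mul_le_mul (hD _) (hC _) (abs_nonneg _) (le_trans (abs_nonneg _) (hD z.1))

lemma skew_av {m : Measure Ω} [IsProbabilityMeasure m] {Ψ : ℝ → Ω → Ω} (hΨ : PFlow m Ψ)
    {H : ℂ → ℂ × Ω → ℝ} (hH : Bdd H) {τ : ℝ} (hτ : 0 < τ) :
    ∀ y y' u u', ∫ q, Vav Ψ τ H y (u, q) * Uav Ψ τ H y' (u', q) ∂m =
      - ∫ q, Uav Ψ τ H y (u, q) * Vav Ψ τ H y' (u', q) ∂m := by
  intro y y' u u'
  obtain ⟨C, hC⟩ := hH.2
  set h : Ω → ℝ := fun q => H y (u, q) with hh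
  set h' : Ω → ℝ := fun q => H y' (u', q) with hh'
  have hm : Measurable h := bdd_meas_snd hH y u
  have hm' : Measurable h' := bdd_meas_snd hH y' u'
  have hb : ∀ q, |h q| ≤ C := fun q => hC _ _
  have hb' : ∀ q, |h' q| ≤ C := fun q => hC _ _
  have key : ∀ g g' : Ω → ℝ, Measurable g → Measurable g' → (∀ q, |g q| ≤ C) → (∀ q, |g' q| ≤ C) →
      ∫ q, (g q - g (Ψ τ q)) * (∫ s in (0:ℝ)..τ, g' (Ψ s q)) ∂m =
        (∫ s in (0:ℝ)..τ, ∫ q, g q * g' (Ψ s q) ∂m) -
        (∫ s in (0:ℝ)..τ, ∫ q, g q * g' (Ψ (s - τ) q) ∂m) := by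
    intro g g' hg hg' hgb hgb'
    have e1 : Measurable (fun q => g (Ψ τ q)) := hg.comp (hΨ.measurable_time τ)
    have mI : Measurable (fun q => ∫ s in (0:ℝ)..τ, g' (Ψ s q)) := by
      simp only [intervalIntegral.integral_of_le hτ.le]
      have hmeas : Measurable (fun z : Ω × ℝ => g' (Ψ z.2 z.1)) :=
        hg'.comp (hΨ.meas.comp (Measurable.prodMk measurable_snd measurable_fst))
      exact (hmeas.stronglyMeasurable.integral_prod_right'
        (ν := (volume : Measure ℝ).restrict (Ioc 0 τ))).measurable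
    have bI : ∀ q, |∫ s in (0:ℝ)..τ, g' (Ψ s q)| ≤ C * τ := by
      intro q
      have := intervalIntegral.norm_integral_le_of_norm_le_const (a := 0) (b := τ) (C := C)
        (f := fun s => g' (Ψ s q)) (fun s _ => hgb' _)
      simpa only [ge_iff_le, Real.norm_eq_abs, sub_zero, abs_of_pos hτ] using this
    have hC0 : 0 ≤ C := by
      by_contra hneg
      have : Nonempty Ω := by
        by_contra hne
        rw [not_nonempty_iff] at hne
        have h1 : m univ = 1 := measure_univ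
        rw [Set.univ_eq_empty_iff.mpr hne, measure_empty] at h1
        exact zero_ne_one h1
      obtain ⟨q⟩ := this
      exact hneg (le_trans (abs_nonneg _) (hgb q))
    have i1 : Integrable (fun q => g q * (∫ s in (0:ℝ)..τ, g' (Ψ s q))) m := by
      refine Integrable.of_bound (C := C * (C * τ)) (hg.mul mI).aestronglyMeasurable ?_
      refine Filter.Eventually.of_forall (fun q => ?_)
      rw [Real.norm_eq_abs, abs_mul]
      exact mul_le_mul (hgb _) (bI _) (abs_nonneg _) hC0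
    have i2 : Integrable (fun q => g (Ψ τ q) * (∫ s in (0:ℝ)..τ, g' (Ψ s q))) m := by
      refine Integrable.of_bound (C := C * (C * τ)) (e1.mul mI).aestronglyMeasurable ?_
      refine Filter.Eventually.of_forall (fun q => ?_)
      rw [Real.norm_eq_abs, abs_mul]
      exact mul_le_mul (hgb _) (bI _) (abs_nonneg _) hC0
    simp only [sub_mul]
    rw [integral_sub i1 i2]
    congr 1
    · exact avg_swap hΨ hg hg' ⟨C, hgb'⟩ ⟨C, hgb⟩ hτ
    · have := avg_swap (g := fun q => g (Ψ τ q)) hΨ e1 hg' ⟨C, hgb'⟩ ⟨C, fun q => hgb _⟩ hτ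
      rw [this]
      apply intervalIntegral.integral_congr
      intro s _
      exact corr_shift hΨ hg hg' τ s
  have hL : ∫ q, Vav Ψ τ H y (u, q) * Uav Ψ τ H y' (u', q) ∂m =
      τ⁻¹ * τ⁻¹ * ∫ q, (h q - h (Ψ τ q)) * (∫ s in (0:ℝ)..τ, h' (Ψ s q)) ∂m := by
    rw [← integral_const_mul]
    apply integral_congr_ae
    refine Filter.Eventually.of_forall (fun q => ?_)
    simp only [Vav, Uav, hh, hh']
    ring
  have hR : ∫ q, Uav Ψ τ H y (u, q) * Vav Ψ τ H y' (u', q) ∂m =
      τ⁻¹ * τ⁻¹ * ∫ q, (h' q - h' (Ψ τ q)) * (∫ s in (0:ℝ)..τ, h (Ψ s q)) ∂m := by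
    rw [← integral_const_mul]
    apply integral_congr_ae
    refine Filter.Eventually.of_forall (fun q => ?_)
    simp only [Vav, Uav, hh, hh']
    ring
  rw [hL, hR, key h h' hm hm' hb hb', key h' h hm' hm hb' hb]
  set c : ℝ → ℝ := fun s => ∫ q, h q * h' (Ψ s q) ∂m with hc
  have c1 : ∀ s, ∫ q, h' q * h (Ψ s q) ∂m = c (- s) := by
    intro s
    have h0 : ∫ q, h' q * h (Ψ s q) ∂m = ∫ q, h (Ψ s q) * h' (Ψ 0 q) ∂m := by
      apply integral_congr_ae
      filter_upwards [hΨ.zero] with q hq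
      rw [hq, mul_comm]
    rw [h0, corr_shift hΨ hm hm' s 0]
    simp [hc]
  simp only [c1]
  have e1 : ∫ s in (0:ℝ)..τ, c (-(s - τ)) = ∫ s in (0:ℝ)..τ, c s := by
    have : ∫ s in (0:ℝ)..τ, c (τ - s) = ∫ s in (0:ℝ)..τ, c s := by
      rw [intervalIntegral.integral_comp_sub_left (fun s => c s) τ]
      simp
    rw [← this]
    apply intervalIntegral.integral_congr
    intro s _
    simp only [neg_sub]
  have e2 : ∫ s in (0:ℝ)..τ, c (- s) = ∫ s in (0:ℝ)..τ, c (s - τ) := by
    rw [intervalIntegral.integral_comp_neg (fun s => c s),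
      intervalIntegral.integral_comp_sub_right (fun s => c s) τ]
    simp
  have e3 : (fun s => ∫ q, h q * h' (Ψ s q) ∂m) = c := rfl
  have e4 : ∫ s in (0:ℝ)..τ, ∫ q, h q * h' (Ψ (s - τ) q) ∂m = ∫ s in (0:ℝ)..τ, c (s - τ) := rfl
  rw [e1, e2, e4]
  simp only [hc]
  ring


/-- almost everywhere statements can be transported along the flow on the parameter space -/
lemma ae_param {T : Triangle} {m : Measure Ω} [IsProbabilityMeasure m] {g : Ω → Ω}
    (hg : MeasurePreserving g m m) {P : ℂ × (ℂ × Ω) → Prop}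
    (h : ∀ᵐ p ∂((volume.restrict T.table).prod (nu.prod m)), P p) :
    ∀ᵐ p ∂((volume.restrict T.table).prod (nu.prod m)), P (p.1, (p.2.1, g p.2.2)) := by
  have h1 : MeasurePreserving (Prod.map id (Prod.map id g))
      ((volume.restrict T.table).prod (nu.prod m)) ((volume.restrict T.table).prod (nu.prod m)) :=
    (MeasurePreserving.id _).prod ((MeasurePreserving.id _).prod hg)
  exact h1.quasiMeasurePreserving.ae h

/-- almost everywhere statements on the parameter space -/
lemma ae_of_param {T : Triangle} {m : Measure Ω} [IsProbabilityMeasure m] {P : Ω → Prop}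
    (h : ∀ᵐ q ∂m, P q) :
    ∀ᵐ p ∂((volume.restrict T.table).prod (nu.prod m)), P p.2.2 := by
  have h1 : ∀ᵐ ω ∂(nu.prod m), P ω.2 := Measure.quasiMeasurePreserving_snd.ae h
  exact Measure.quasiMeasurePreserving_snd.ae h1

lemma real_identity {h : ℝ → ℝ} (hh : ∀ a b : ℝ, IntervalIntegrable h volume a b) (τ t : ℝ) :
    (∫ s in (0:ℝ)..τ, h (s - t)) - (∫ s in (0:ℝ)..τ, h s) =
      ∫ s in (0:ℝ)..t, (h (- s) - h (τ - s)) := by
  have i1 : IntervalIntegrable (fun s => h (- s)) volume 0 t := by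
    have := (hh 0 (-t)).comp_sub_left 0
    simpa only [zero_sub, sub_self, sub_neg_eq_add, zero_add] using this
  have i2 : IntervalIntegrable (fun s => h (τ - s)) volume 0 t := by
    have := (hh τ (τ - t)).comp_sub_left τ
    simpa using this
  rw [intervalIntegral.integral_sub i1 i2,
    intervalIntegral.integral_comp_sub_right (fun s => h s) t,
    intervalIntegral.integral_comp_neg (fun s => h s),
    intervalIntegral.integral_comp_sub_left (fun s => h s) τ]
  have a1 := intervalIntegral.integral_add_adjacent_intervals (hh (-t) 0) (hh 0 (τ - t))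
  have a2 := intervalIntegral.integral_add_adjacent_intervals (hh 0 (τ - t)) (hh (τ - t) τ)
  simp only [zero_sub, neg_zero, sub_zero]
  linarith only [a1, a2]

namespace Triangle

variable (T : Triangle)

/-- invariance, in the form adapted to the time averages -/
lemma freeInv_shift {m : Measure Ω} [IsProbabilityMeasure m] {Ψ : ℝ → Ω → Ω} (hΨ : PFlow m Ψ)
    {H : ℂ → ℂ × Ω → ℝ} (hF : T.FreeInv m Ψ H) {t : ℝ} (ht : 0 < t) (r : ℝ) :
    ∀ᵐ p ∂((volume.restrict T.table).prod (nu.prod m)),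
      p.1 + t • p.2.1 ∈ T.table →
        H (p.1 + t • p.2.1) (p.2.1, Ψ r p.2.2) = H p.1 (p.2.1, Ψ (r - t) p.2.2) := by
  have h1 := ae_param (hΨ.mp (r - t)) (hF t ht)
  have h2 : ∀ᵐ q ∂m, Ψ r q = Ψ t (Ψ (r - t) q) := by
    have := hΨ.add t (r - t)
    simpa using this
  filter_upwards [h1, ae_of_param (T := T) h2] with p hp hq hmem
  rw [hq]
  exact hp hmem

lemma bounceInv_shift {m : Measure Ω} [IsProbabilityMeasure m] {Ψ : ℝ → Ω → Ω} (hΨ : PFlow m Ψ)
    {H : ℂ → ℂ × Ω → ℝ} (hB : T.BounceInv m Ψ H) {t : ℝ} (ht : 0 < t) (i : Fin 3) (r : ℝ) :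
    ∀ᵐ p ∂((volume.restrict T.table).prod (nu.prod m)),
      T.E i (p.1, p.2.1) → T.hitT i (p.1, p.2.1) < t → T.R i (p.1 + t • p.2.1) ∈ T.table →
        H (T.R i (p.1 + t • p.2.1)) (T.refl i p.2.1, Ψ r p.2.2) =
          H p.1 (p.2.1, Ψ (r - t) p.2.2) := by
  have h1 := ae_param (hΨ.mp (r - t)) (hB t ht i)
  have h2 : ∀ᵐ q ∂m, Ψ r q = Ψ t (Ψ (r - t) q) := by
    have := hΨ.add t (r - t)
    simpa using this
  filter_upwards [h1, ae_of_param (T := T) h2] with p hp hq hE hlt hmem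
  rw [hq]
  exact hp hE hlt hmem

/-- almost every point, almost every time -/
lemma ae_ae_time {m : Measure Ω} [IsProbabilityMeasure m] {f g : (ℂ × (ℂ × Ω)) × ℝ → ℝ}
    {B : Set ((ℂ × (ℂ × Ω)) × ℝ)} (hB : MeasurableSet B)
    (hf : Measurable f) (hg : Measurable g)
    (h : ∀ s : ℝ, ∀ᵐ p ∂((volume.restrict T.table).prod (nu.prod m)), (p, s) ∈ B →
      f (p, s) = g (p, s)) :
    ∀ᵐ p ∂((volume.restrict T.table).prod (nu.prod m)), ∀ᵐ s : ℝ, (p, s) ∈ B →
      f (p, s) = g (p, s) := by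
  have hS : MeasurableSet {z : (ℂ × (ℂ × Ω)) × ℝ | z ∈ B → f z = g z} := by
    have h1 : MeasurableSet {z : (ℂ × (ℂ × Ω)) × ℝ | f z = g z} := measurableSet_eq_fun hf hg
    have h2 : {z : (ℂ × (ℂ × Ω)) × ℝ | z ∈ B → f z = g z} =
        Bᶜ ∪ {z : (ℂ × (ℂ × Ω)) × ℝ | f z = g z} := by
      ext z
      simp only [mem_ofPred_eq, mem_union, mem_compl_iff]
      (clear * -; tauto)
    rw [h2]
    exact hB.compl.union h1
  exact (Measure.ae_ae_comm hS).mpr (Filter.Eventually.of_forall (fun s => h s))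

lemma wm_measurable_lam (i : Fin 3) : Measurable (T.lam i) := by
  unfold lam cr
  fun_prop

lemma wm_measurable_ell (i : Fin 3) : Measurable (T.ell i) := by
  unfold ell cr
  fun_prop

lemma wm_measurable_hitT (i : Fin 3) : Measurable (T.hitT i) := by
  unfold hitT
  exact ((T.wm_measurable_lam i).comp measurable_fst).neg.div
    ((T.wm_measurable_ell i).comp measurable_snd)

lemma wm_measurableSet_E (i : Fin 3) : MeasurableSet {s : ℂ × ℂ | T.E i s} := by
  have h : {s : ℂ × ℂ | T.E i s} = {s : ℂ × ℂ | T.ell i s.2 < 0} ∩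
      ⋂ j, {s : ℂ × ℂ | j ≠ i → 0 < T.lam j (s.1 + T.hitT i s • s.2)} := by
    ext s
    simp only [E, ne_eq, Complex.real_smul, mem_ofPred_eq, mem_inter_iff, mem_iInter]
  rw [h]
  refine (measurableSet_lt ((T.wm_measurable_ell i).comp measurable_snd) measurable_const).inter ?_
  refine MeasurableSet.iInter (fun j => ?_)
  by_cases hj : j ≠ i
  · have : {s : ℂ × ℂ | j ≠ i → 0 < T.lam j (s.1 + T.hitT i s • s.2)} =
        {s : ℂ × ℂ | 0 < T.lam j (s.1 + T.hitT i s • s.2)} := by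
      ext s
      simp only [ne_eq, hj, not_false_eq_true, Complex.real_smul, forall_const, mem_ofPred_eq]
    rw [this]
    exact measurableSet_lt measurable_const ((T.wm_measurable_lam j).comp
      (measurable_fst.add ((T.wm_measurable_hitT i).smul measurable_snd)))
  · have : {s : ℂ × ℂ | j ≠ i → 0 < T.lam j (s.1 + T.hitT i s • s.2)} = univ := by
      ext s
      simp [hj]
    rw [this]
    exact MeasurableSet.univ

lemma locInt_of_bdd {h : ℝ → ℝ} (hm : Measurable h) {C : ℝ} (hC : ∀ s, |h s| ≤ C) (a b : ℝ) :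
    IntervalIntegrable h volume a b := by
  have h1 : IntegrableOn h (uIoc a b) := by
    have : Fact (volume (uIoc a b) < ⊤) := ⟨by rw [uIoc]; exact measure_Ioc_lt_top⟩
    refine Integrable.of_bound (C := C) hm.aestronglyMeasurable ?_
    exact Filter.Eventually.of_forall hC
  exact intervalIntegrable_iff.mpr h1

/-- the common computation for free flights and collisions -/
lemma der_common {m : Measure Ω} {Ψ : ℝ → Ω → Ω} (hΨ : PFlow m Ψ)
    {H : ℂ → ℂ × Ω → ℝ} (hH : Bdd H) {τ t : ℝ} (ht : 0 < t)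
    {x u y v : ℂ} {q : Ω}
    {Z : ℝ → ℂ × ℂ}
    (h1 : ∀ᵐ s : ℝ, H y (v, Ψ s q) = H x (u, Ψ (s - t) q))
    (h2 : ∀ᵐ s : ℝ, s ∈ Ioo 0 t → H (Z s).1 ((Z s).2, q) = H x (u, Ψ (- s) q))
    (h3 : ∀ᵐ s : ℝ, s ∈ Ioo 0 t → H (Z s).1 ((Z s).2, Ψ τ q) = H x (u, Ψ (τ - s) q)) :
    Uav Ψ τ H y (v, q) - Uav Ψ τ H x (u, q) =
      ∫ s in (0:ℝ)..t, Vav Ψ τ H (Z s).1 ((Z s).2, q) := by
  obtain ⟨C, hC⟩ := hH.2
  set h : ℝ → ℝ := fun s => H x (u, Ψ s q) with hh
  have hm : Measurable h := by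
    have h0 : Measurable (fun s : ℝ => (((x, (u, q)), s) : (ℂ × (ℂ × Ω)) × ℝ)) := by fun_prop
    exact (bdd_meas_comp hΨ hH).comp h0
  have hb : ∀ s, |h s| ≤ C := fun s => hC _ _
  have hi : ∀ a b : ℝ, IntervalIntegrable h volume a b := locInt_of_bdd hm hb
  have e1 : Uav Ψ τ H y (v, q) = τ⁻¹ * ∫ s in (0:ℝ)..τ, h (s - t) := by
    simp only [Uav]
    congr 1
    apply intervalIntegral.integral_congr_ae
    filter_upwards [h1] with s hs _
    exact hs
  have e2 : Uav Ψ τ H x (u, q) = τ⁻¹ * ∫ s in (0:ℝ)..τ, h s := rfl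
  have e3 : ∫ s in (0:ℝ)..t, Vav Ψ τ H (Z s).1 ((Z s).2, q) =
      τ⁻¹ * ∫ s in (0:ℝ)..t, (h (- s) - h (τ - s)) := by
    rw [← intervalIntegral.integral_const_mul]
    apply intervalIntegral.integral_congr_ae
    have h4 : ∀ᵐ s : ℝ, s ≠ t := by
      rw [ae_iff]
      simp
    filter_upwards [h2, h3, h4] with s hs2 hs3 hs4 hs
    rw [uIoc_of_le ht.le] at hs
    have hs' : s ∈ Ioo 0 t := ⟨hs.1, lt_of_le_of_ne hs.2 hs4⟩
    simp only [Vav, hh]
    rw [hs2 hs', hs3 hs']
  rw [e1, e2, e3, ← real_identity hi τ t]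
  ring

lemma freeDer_av {m : Measure Ω} [IsProbabilityMeasure m] {Ψ : ℝ → Ω → Ω} (hΨ : PFlow m Ψ)
    {H : ℂ → ℂ × Ω → ℝ} (hH : Bdd H) (hF : T.FreeInv m Ψ H) {τ : ℝ} :
    T.FreeDer m (Uav Ψ τ H) (Vav Ψ τ H) := by
  intro t ht
  -- first relation
  have a1 : ∀ᵐ p ∂((volume.restrict T.table).prod (nu.prod m)), ∀ᵐ s : ℝ,
      p.1 + t • p.2.1 ∈ T.table →
        H (p.1 + t • p.2.1) (p.2.1, Ψ s p.2.2) = H p.1 (p.2.1, Ψ (s - t) p.2.2) := by
    refine ae_ae_time T (B := {z | z.1.1 + t • z.1.2.1 ∈ T.table})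
      (f := fun z => H (z.1.1 + t • z.1.2.1) (z.1.2.1, Ψ z.2 z.1.2.2))
      (g := fun z => H z.1.1 (z.1.2.1, Ψ (z.2 - t) z.1.2.2)) ?_ ?_ ?_ ?_
    · exact T.isOpen_table.measurableSet.preimage (by fun_prop)
    · have h0 : Measurable (fun z : (ℂ × (ℂ × Ω)) × ℝ =>
        (((z.1.1 + t • z.1.2.1, (z.1.2.1, z.1.2.2)), z.2) : (ℂ × (ℂ × Ω)) × ℝ)) := by fun_prop
      exact (bdd_meas_comp hΨ hH).comp h0
    · have h0 : Measurable (fun z : (ℂ × (ℂ × Ω)) × ℝ =>
        (((z.1.1, (z.1.2.1, z.1.2.2)), z.2 - t) : (ℂ × (ℂ × Ω)) × ℝ)) := by fun_prop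
      exact (bdd_meas_comp hΨ hH).comp h0
    · intro s
      exact T.freeInv_shift hΨ hF ht s
  have a2 : ∀ c : ℝ, ∀ᵐ p ∂((volume.restrict T.table).prod (nu.prod m)), ∀ᵐ s : ℝ,
      (0 < s ∧ p.1 + s • p.2.1 ∈ T.table) →
        H (p.1 + s • p.2.1) (p.2.1, Ψ c p.2.2) = H p.1 (p.2.1, Ψ (c - s) p.2.2) := by
    intro c
    refine ae_ae_time T (B := {z | 0 < z.2 ∧ z.1.1 + z.2 • z.1.2.1 ∈ T.table})
      (f := fun z => H (z.1.1 + z.2 • z.1.2.1) (z.1.2.1, Ψ c z.1.2.2))
      (g := fun z => H z.1.1 (z.1.2.1, Ψ (c - z.2) z.1.2.2)) ?_ ?_ ?_ ?_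
    · refine (measurableSet_lt measurable_const measurable_snd).inter ?_
      exact T.isOpen_table.measurableSet.preimage (by fun_prop)
    · have h0 : Measurable (fun z : (ℂ × (ℂ × Ω)) × ℝ =>
        (((z.1.1 + z.2 • z.1.2.1, (z.1.2.1, z.1.2.2)), c) : (ℂ × (ℂ × Ω)) × ℝ)) := by fun_prop
      exact (bdd_meas_comp hΨ hH).comp h0
    · have h0 : Measurable (fun z : (ℂ × (ℂ × Ω)) × ℝ =>
        (((z.1.1, (z.1.2.1, z.1.2.2)), c - z.2) : (ℂ × (ℂ × Ω)) × ℝ)) := by fun_prop
      exact (bdd_meas_comp hΨ hH).comp h0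
    · intro s
      by_cases hs : 0 < s
      · filter_upwards [T.freeInv_shift hΨ hF hs c] with p hp hmem
        exact hp hmem.2
      · refine Filter.Eventually.of_forall (fun p hmem => ?_)
        exact absurd hmem.1 hs
  have hin : ∀ᵐ p ∂((volume.restrict T.table).prod (nu.prod m)), p.1 ∈ T.table :=
    Measure.quasiMeasurePreserving_fst.ae (ae_restrict_mem T.isOpen_table.measurableSet)
  filter_upwards [a1, a2 0, a2 τ, ae_of_param (T := T) hΨ.zero, hin] with p h1 h2 h3 h4 h5 hmem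
  have hseg : ∀ s : ℝ, s ∈ Ioo 0 t → p.1 + s • p.2.1 ∈ T.table := by
    intro s hs
    have := T.convex_table.add_smul_mem h5 (y := t • p.2.1) hmem (t := s / t)
      ⟨div_nonneg hs.1.le ht.le, (div_le_one ht).mpr hs.2.le⟩
    rwa [smul_smul, div_mul_cancel₀ _ ht.ne'] at this
  refine der_common hΨ hH ht (Z := fun s => (p.1 + s • p.2.1, p.2.1)) ?_ ?_ ?_
  · filter_upwards [h1] with s hs
    exact hs hmem
  · filter_upwards [h2] with s hs hs'
    have := hs ⟨hs'.1, hseg s hs'⟩
    rw [h4, zero_sub] at this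
    exact this
  · filter_upwards [h3] with s hs hs'
    exact hs ⟨hs'.1, hseg s hs'⟩

/-- after the collision the path stays in the table -/
lemma bounce_seg {x u : ℂ} {i : Fin 3} {t s : ℝ} (hE : T.E i (x, u)) (hs : T.hitT i (x, u) < s)
    (hst : s ≤ t) (hmem : T.R i (x + t • u) ∈ T.table) : T.R i (x + s • u) ∈ T.table := by
  set a := T.hitT i (x, u) with ha
  have h1 : T.lam i (x + a • u) = 0 := (T.lam_hit i hE :)
  have h2 : T.R i (x + a • u) = x + a • u := T.R_of_lam_eq_zero h1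
  have hat : 0 < t - a := by linarith
  set c := (s - a) / (t - a) with hc
  have hc0 : 0 < c := div_pos (by linarith only [hs]) hat
  have hc1 : c ≤ 1 := (div_le_one hat).mpr (by linarith only [hst])
  have h3 : T.R i (x + s • u) = (1 - c) • (x + a • u) + c • T.R i (x + t • u) := by
    have e1 : x + s • u = x + a • u + (s - a) • u := by
      rw [sub_smul]; ring
    have e2 : x + t • u = x + a • u + (t - a) • u := by
      rw [sub_smul]; ring
    rw [e1, e2, T.R_add i (x + a • u), T.R_add i (x + a • u), h2, T.refl_smul, T.refl_smul]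
    have e3 : c * (t - a) = s - a := div_mul_cancel₀ _ hat.ne'
    rw [smul_add c, smul_smul c, e3, sub_smul 1 c, one_smul]
    abel
  rw [T.mem_table_iff] at hmem ⊢
  intro j
  have hl : T.lam j (T.R i (x + s • u)) =
      (1 - c) * T.lam j (x + a • u) + c * T.lam j (T.R i (x + t • u)) := by
    rw [h3]
    have e4 : (1 - c) • (x + a • u) + c • T.R i (x + t • u) =
        (x + a • u) + c • (T.R i (x + t • u) - (x + a • u)) := by
      rw [sub_smul, one_smul, smul_sub]; abel
    have e5 : T.R i (x + t • u) = (x + a • u) + (T.R i (x + t • u) - (x + a • u)) := by abel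
    have e6 : T.lam j (T.R i (x + t • u)) = T.lam j (x + a • u) +
        T.ell j (T.R i (x + t • u) - (x + a • u)) := by
      rw [← T.lam_add, ← e5]
    rw [e4, T.lam_add_smul, e6]
    ring
  rw [hl]
  have hnn : 0 ≤ T.lam j (x + a • u) := by
    by_cases hj : j = i
    · rw [hj, h1]
    · exact (hE.2 j hj).le
  have := hmem j
  have h6 : 0 ≤ (1 - c) * T.lam j (x + a • u) := mul_nonneg (by linarith only [hc1]) hnn
  have h7 : 0 < c * T.lam j (T.R i (x + t • u)) := mul_pos hc0 this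
  linarith only [h6, h7]

open Classical in
lemma bounceDer_av {m : Measure Ω} [IsProbabilityMeasure m] {Ψ : ℝ → Ω → Ω} (hΨ : PFlow m Ψ)
    {H : ℂ → ℂ × Ω → ℝ} (hH : Bdd H) (hF : T.FreeInv m Ψ H) (hB : T.BounceInv m Ψ H)
    {τ : ℝ} (hτ : 0 < τ) :
    T.BounceDer m (Uav Ψ τ H) (Vav Ψ τ H) := by
  intro t ht i
  have mE : MeasurableSet {z : (ℂ × (ℂ × Ω)) × ℝ | T.E i (z.1.1, z.1.2.1)} := by
    exact (T.wm_measurableSet_E i).preimage (by fun_prop)
  have mh : Measurable (fun z : (ℂ × (ℂ × Ω)) × ℝ => T.hitT i (z.1.1, z.1.2.1)) :=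
    (T.wm_measurable_hitT i).comp (by fun_prop)
  have mR : ∀ g : (ℂ × (ℂ × Ω)) × ℝ → ℂ, Measurable g → Measurable (fun z => T.R i (g z)) :=
    fun g hg => (T.continuous_R i).measurable.comp hg
  have mr : Measurable (fun z : (ℂ × (ℂ × Ω)) × ℝ => T.refl i z.1.2.1) :=
    (T.continuous_refl i).measurable.comp (by fun_prop)
  -- first relation
  have a1 : ∀ᵐ p ∂((volume.restrict T.table).prod (nu.prod m)), ∀ᵐ s : ℝ,
      (T.E i (p.1, p.2.1) ∧ T.hitT i (p.1, p.2.1) < t ∧ T.R i (p.1 + t • p.2.1) ∈ T.table) →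
        H (T.R i (p.1 + t • p.2.1)) (T.refl i p.2.1, Ψ s p.2.2) =
          H p.1 (p.2.1, Ψ (s - t) p.2.2) := by
    refine ae_ae_time T (B := {z | T.E i (z.1.1, z.1.2.1) ∧ T.hitT i (z.1.1, z.1.2.1) < t ∧
        T.R i (z.1.1 + t • z.1.2.1) ∈ T.table})
      (f := fun z => H (T.R i (z.1.1 + t • z.1.2.1)) (T.refl i z.1.2.1, Ψ z.2 z.1.2.2))
      (g := fun z => H z.1.1 (z.1.2.1, Ψ (z.2 - t) z.1.2.2)) ?_ ?_ ?_ ?_
    · refine mE.inter ((measurableSet_lt mh measurable_const).inter ?_)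
      exact T.isOpen_table.measurableSet.preimage (mR _ (by (clear * -; fun_prop)))
    · have h0 : Measurable (fun z : (ℂ × (ℂ × Ω)) × ℝ =>
        (((T.R i (z.1.1 + t • z.1.2.1), (T.refl i z.1.2.1, z.1.2.2)), z.2) :
          (ℂ × (ℂ × Ω)) × ℝ)) := by
        refine Measurable.prodMk (Measurable.prodMk (mR _ (by fun_prop))
          (Measurable.prodMk mr (by fun_prop))) (by fun_prop)
      exact (bdd_meas_comp hΨ hH).comp h0
    · have h0 : Measurable (fun z : (ℂ × (ℂ × Ω)) × ℝ =>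
        (((z.1.1, (z.1.2.1, z.1.2.2)), z.2 - t) : (ℂ × (ℂ × Ω)) × ℝ)) := by fun_prop
      exact (bdd_meas_comp hΨ hH).comp h0
    · intro s
      filter_upwards [T.bounceInv_shift hΨ hB ht i s] with p hp hmem
      exact hp hmem.1 hmem.2.1 hmem.2.2
  have a2 : ∀ c : ℝ, ∀ᵐ p ∂((volume.restrict T.table).prod (nu.prod m)), ∀ᵐ s : ℝ,
      (0 < s ∧ p.1 + s • p.2.1 ∈ T.table) →
        H (p.1 + s • p.2.1) (p.2.1, Ψ c p.2.2) = H p.1 (p.2.1, Ψ (c - s) p.2.2) := by
    intro c
    refine ae_ae_time T (B := {z | 0 < z.2 ∧ z.1.1 + z.2 • z.1.2.1 ∈ T.table})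
      (f := fun z => H (z.1.1 + z.2 • z.1.2.1) (z.1.2.1, Ψ c z.1.2.2))
      (g := fun z => H z.1.1 (z.1.2.1, Ψ (c - z.2) z.1.2.2)) ?_ ?_ ?_ ?_
    · refine (measurableSet_lt measurable_const measurable_snd).inter ?_
      exact T.isOpen_table.measurableSet.preimage (by fun_prop)
    · have h0 : Measurable (fun z : (ℂ × (ℂ × Ω)) × ℝ =>
        (((z.1.1 + z.2 • z.1.2.1, (z.1.2.1, z.1.2.2)), c) : (ℂ × (ℂ × Ω)) × ℝ)) := by fun_prop
      exact (bdd_meas_comp hΨ hH).comp h0
    · have h0 : Measurable (fun z : (ℂ × (ℂ × Ω)) × ℝ =>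
        (((z.1.1, (z.1.2.1, z.1.2.2)), c - z.2) : (ℂ × (ℂ × Ω)) × ℝ)) := by fun_prop
      exact (bdd_meas_comp hΨ hH).comp h0
    · intro s
      by_cases hs : 0 < s
      · filter_upwards [T.freeInv_shift hΨ hF hs c] with p hp hmem
        exact hp hmem.2
      · refine Filter.Eventually.of_forall (fun p hmem => ?_)
        exact absurd hmem.1 hs
  have a3 : ∀ c : ℝ, ∀ᵐ p ∂((volume.restrict T.table).prod (nu.prod m)), ∀ᵐ s : ℝ,
      (0 < s ∧ T.E i (p.1, p.2.1) ∧ T.hitT i (p.1, p.2.1) < s ∧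
        T.R i (p.1 + s • p.2.1) ∈ T.table) →
        H (T.R i (p.1 + s • p.2.1)) (T.refl i p.2.1, Ψ c p.2.2) =
          H p.1 (p.2.1, Ψ (c - s) p.2.2) := by
    intro c
    refine ae_ae_time T (B := {z | 0 < z.2 ∧ T.E i (z.1.1, z.1.2.1) ∧
        T.hitT i (z.1.1, z.1.2.1) < z.2 ∧ T.R i (z.1.1 + z.2 • z.1.2.1) ∈ T.table})
      (f := fun z => H (T.R i (z.1.1 + z.2 • z.1.2.1)) (T.refl i z.1.2.1, Ψ c z.1.2.2))
      (g := fun z => H z.1.1 (z.1.2.1, Ψ (c - z.2) z.1.2.2)) ?_ ?_ ?_ ?_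
    · refine (measurableSet_lt measurable_const measurable_snd).inter (mE.inter
        ((measurableSet_lt mh measurable_snd).inter ?_))
      exact T.isOpen_table.measurableSet.preimage (mR _ (by fun_prop))
    · have h0 : Measurable (fun z : (ℂ × (ℂ × Ω)) × ℝ =>
        (((T.R i (z.1.1 + z.2 • z.1.2.1), (T.refl i z.1.2.1, z.1.2.2)), c) :
          (ℂ × (ℂ × Ω)) × ℝ)) := by
        refine Measurable.prodMk (Measurable.prodMk (mR _ (by fun_prop))
          (Measurable.prodMk mr (by fun_prop))) (by fun_prop)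
      exact (bdd_meas_comp hΨ hH).comp h0
    · have h0 : Measurable (fun z : (ℂ × (ℂ × Ω)) × ℝ =>
        (((z.1.1, (z.1.2.1, z.1.2.2)), c - z.2) : (ℂ × (ℂ × Ω)) × ℝ)) := by fun_prop
      exact (bdd_meas_comp hΨ hH).comp h0
    · intro s
      by_cases hs : 0 < s
      · filter_upwards [T.bounceInv_shift hΨ hB hs i c] with p hp hmem
        exact hp hmem.2.1 hmem.2.2.1 hmem.2.2.2
      · refine Filter.Eventually.of_forall (fun p hmem => ?_)
        exact absurd hmem.1 hs
  have hin : ∀ᵐ p ∂((volume.restrict T.table).prod (nu.prod m)), p.1 ∈ T.table :=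
    Measure.quasiMeasurePreserving_fst.ae (ae_restrict_mem T.isOpen_table.measurableSet)
  filter_upwards [a1, a2 0, a2 τ, a3 0, a3 τ, ae_of_param (T := T) hΨ.zero, hin] with
    p h1 h2 h3 h2' h3' h4 h5 hE hlt hmem
  set a := T.hitT i (p.1, p.2.1) with ha
  have ha0 : 0 < a := Triangle.E.hitT_pos T (T.adm_of_mem_table h5) hE
  have hseg : ∀ s : ℝ, 0 < s → s < a → p.1 + s • p.2.1 ∈ T.table := fun s hs hsa =>
    Triangle.E.mem_table T (T.adm_of_mem_table h5) hE hs hsa
  have hseg' : ∀ s : ℝ, a < s → s ≤ t → T.R i (p.1 + s • p.2.1) ∈ T.table := fun s hs hst =>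
    T.bounce_seg hE hs hst hmem
  set Z : ℝ → ℂ × ℂ := fun s => if s < a then (p.1 + s • p.2.1, p.2.1) else
    (T.R i (p.1 + s • p.2.1), T.refl i p.2.1) with hZ
  have hna : ∀ᵐ s : ℝ, s ≠ a := by
    rw [ae_iff]
    simp
  have key := der_common (τ := τ) hΨ hH ht (Z := Z) (x := p.1) (u := p.2.1) (q := p.2.2)
    (y := T.R i (p.1 + t • p.2.1)) (v := T.refl i p.2.1) ?_ ?_ ?_
  · have hbV := bdd_Vav hΨ hH hτ
    have mZ : Measurable (fun s => Vav Ψ τ H (Z s).1 ((Z s).2, p.2.2)) := by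
      have hZm : Measurable Z := by
        refine Measurable.ite (measurableSet_lt measurable_id measurable_const) ?_ ?_
        · fun_prop
        · exact Measurable.prodMk ((T.continuous_R i).measurable.comp (by fun_prop))
            measurable_const
      have h0 : Measurable (fun s => (((Z s).1, ((Z s).2, p.2.2)) : ℂ × (ℂ × Ω))) := by
        fun_prop
      exact hbV.1.comp h0
    obtain ⟨C, hC⟩ := hbV.2
    have hi : ∀ a b : ℝ, IntervalIntegrable (fun s => Vav Ψ τ H (Z s).1 ((Z s).2, p.2.2))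
        volume a b := locInt_of_bdd mZ (C := C) (fun s => hC _ _)
    rw [key, ← intervalIntegral.integral_add_adjacent_intervals (hi 0 a) (hi a t)]
    congr 1
    · apply intervalIntegral.integral_congr_ae
      filter_upwards [hna] with s hs1 hs
      rw [uIoc_of_le ha0.le] at hs
      have : s < a := lt_of_le_of_ne hs.2 hs1
      simp only [hZ, this, if_true]
    · apply intervalIntegral.integral_congr_ae
      refine Filter.Eventually.of_forall (fun s hs => ?_)
      rw [uIoc_of_le hlt.le] at hs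
      have : ¬ s < a := not_lt.mpr hs.1.le
      simp only [hZ, this, if_false]
  · filter_upwards [h1] with s hs
    exact hs ⟨hE, hlt, hmem⟩
  · filter_upwards [h2, h2', hna] with s hs hs2 hsa hs'
    by_cases hlt' : s < a
    · simp only [hZ, hlt', if_true]
      have := hs ⟨hs'.1, hseg s hs'.1 hlt'⟩
      rw [h4, zero_sub] at this
      exact this
    · simp only [hZ, hlt', if_false]
      have hgt : a < s := lt_of_le_of_ne (not_lt.mp hlt') (Ne.symm hsa)
      have := hs2 ⟨hs'.1, hE, hgt, hseg' s hgt hs'.2.le⟩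
      rw [h4, zero_sub] at this
      exact this
  · filter_upwards [h3, h3', hna] with s hs hs2 hsa hs'
    by_cases hlt' : s < a
    · simp only [hZ, hlt', if_true]
      exact hs ⟨hs'.1, hseg s hs'.1 hlt'⟩
    · simp only [hZ, hlt', if_false]
      have hgt : a < s := lt_of_le_of_ne (not_lt.mp hlt') (Ne.symm hsa)
      exact hs2 ⟨hs'.1, hE, hgt, hseg' s hgt hs'.2.le⟩

end Triangle

end Vale.Agent.P099
end
end

section

section

open MeasureTheory Set Filter Topology

namespace Vale.Agent.P099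

namespace Triangle

variable (T : Triangle)

/-- folding a point back along a word -/
noncomputable def fold : List (Fin 3) → ℂ → ℂ
  | [], x => x
  | i :: w, x => fold w (T.R i x)

/-- folding a direction back along a word -/
noncomputable def rfold : List (Fin 3) → ℂ → ℂ
  | [], x => x
  | i :: w, x => rfold w (T.refl i x)

lemma fold_cons (i : Fin 3) (w : List (Fin 3)) (x : ℂ) : T.fold (i :: w) x = T.fold w (T.R i x) :=
  rfl

lemma fold_append (a b : List (Fin 3)) : ∀ x, T.fold (a ++ b) x = T.fold b (T.fold a x) := by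
  induction a with
  | nil => intro x; rfl
  | cons i a ih => intro x; exact ih _

lemma fold_reverse (w : List (Fin 3)) : ∀ x, T.fold w.reverse (T.fold w x) = x := by
  induction w with
  | nil => intro x; rfl
  | cons i w ih =>
    intro x
    rw [List.reverse_cons, fold_append]
    have h : T.R i (T.fold w.reverse (T.fold w (T.R i x))) = x := by rw [ih, T.R_R]
    exact h

lemma fold_unf (w : List (Fin 3)) (k : Fin 3) : T.fold w (T.unf w k) = T.P k := by
  induction w with
  | nil => rfl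
  | cons i w ih =>
    rw [fold_cons, unf, T.R_R]
    exact ih

lemma an_fold (η : ℝ) (w : List (Fin 3)) : ∀ u a b,
    an η (T.rfold w u) (T.fold w a - T.fold w b) = an η u (a - b) := by
  induction w with
  | nil => intro u a b; rfl
  | cons i w ih =>
    intro u a b
    have h := ih (T.refl i u) (T.R i a) (T.R i b)
    rw [T.an_R] at h
    exact h

/-- crossing conditions with positivity of the source -/
def ChainP : List (Fin 3) → ℂ → ℂ → Prop
  | [], _, _ => True
  | i :: w, x, z => 0 < T.lam i x ∧ T.Cross i x z ∧ ChainP w (T.R i x) (T.R i z)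

/-- crossing conditions -/
def ChainC : List (Fin 3) → ℂ → ℂ → Prop
  | [], _, _ => True
  | i :: w, x, z => T.Cross i x z ∧ ChainC w (T.R i x) (T.R i z)

lemma pos_next' {i m : Fin 3} {x z : ℂ} (hx : 0 < T.lam i x) (hcr : T.Cross i x z)
    (hm : T.lam m (T.R i z) < 0) : 0 < T.lam m (T.R i x) := by
  obtain ⟨hz, hb⟩ := hcr
  have hmi : m ≠ i := by
    rintro rfl
    rw [T.lam_R] at hm
    linarith
  have h1 := T.bb_R i m x z
  have h2 := hb m hmi
  simp only [bb] at h1
  rw [T.lam_R, T.lam_R] at h1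
  by_contra h3
  rw [not_lt] at h3
  linarith only [mul_nonneg (sub_nonneg.2 h3) (le_of_lt (sub_pos.2 hz)), mul_pos (sub_pos.2 hx) (sub_pos.2 hm), h2, h1]

lemma chainP_of_vis (w : List (Fin 3)) : ∀ x z, T.Vis w x z →
    (∀ i, w.head? = some i → 0 < T.lam i x) → T.ChainP w x z := by
  induction w with
  | nil => intro x z _ _; trivial
  | cons i w ih =>
    intro x z hv hpos
    obtain ⟨hcr, hv1⟩ := hv
    have hx := hpos i rfl
    refine ⟨hx, hcr, ih _ _ hv1 ?_⟩
    intro m hm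
    cases w with
    | nil => simp at hm
    | cons m' w' =>
      simp only [List.head?_cons, Option.some.injEq] at hm
      subst hm
      exact T.pos_next' hx hcr hv1.1.1

lemma chainC_append (v : List (Fin 3)) (i : Fin 3) : ∀ p y, T.ChainC v p y →
    T.Cross i (T.fold v p) (T.fold v y) → T.ChainC (v ++ [i]) p y := by
  induction v with
  | nil => intro p y _ h; exact ⟨h, trivial⟩
  | cons j v ih =>
    intro p y h1 h2
    exact ⟨h1.1, ih _ _ h1.2 h2⟩

lemma chainC_reverse (w : List (Fin 3)) : ∀ x z, T.ChainP w x z →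
    T.ChainC w.reverse (T.fold w z) (T.fold w x) := by
  induction w with
  | nil => intro x z _; trivial
  | cons i w ih =>
    intro x z h
    obtain ⟨hx, hcr, hc⟩ := h
    rw [List.reverse_cons]
    apply T.chainC_append _ _ _ _ (ih _ _ hc)
    rw [fold_reverse, fold_reverse]
    refine (T.cross_iff _ _ _).2 ⟨?_, fun j hj => ?_⟩
    · rw [T.lam_R]; linarith
    · have h1 := T.bb_R i j z x
      have h2 := hcr.2 j hj
      simp only [bb] at h1 ⊢
      linarith only [h1, h2]

/-- seen from the vertex `p` -/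
def VisR (v : List (Fin 3)) (p y : ℂ) : Prop := T.ChainC v p y ∧ T.fold v y ∈ T.table

lemma visR_unique (v : List (Fin 3)) : ∀ (v' : List (Fin 3)) (p y : ℂ), T.VisR v p y →
    T.VisR v' p y → v = v' := by
  induction v with
  | nil =>
    intro v' p y h h'
    cases v' with
    | nil => rfl
    | cons i v' =>
      exfalso
      have h1 := (T.mem_table_iff y).1 h.2 i
      have h2 := h'.1.1.1
      linarith
  | cons i v ih =>
    intro v' p y h h'
    cases v' with
    | nil =>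
      exfalso
      have h1 := (T.mem_table_iff y).1 h'.2 i
      have h2 := h.1.1.1
      linarith
    | cons m v' =>
      have him : i = m := by
        by_contra hne
        have h1 := h.1.1.2 m (Ne.symm hne)
        have h2 := h'.1.1.2 i hne
        linarith
      subst him
      rw [ih v' (T.R i p) (T.R i y) ⟨h.1.2, h.2⟩ ⟨h'.1.2, h'.2⟩]

lemma measurableSet_chainC (w : List (Fin 3)) : ∀ p, MeasurableSet {y | T.ChainC w p y} := by
  induction w with
  | nil =>
    intro p
    have : {y : ℂ | T.ChainC [] p y} = univ := by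
      ext y
      simp only [ChainC, ofPred_true, mem_univ]
    rw [this]
    exact MeasurableSet.univ
  | cons i w ih =>
    intro p
    have h1 : {y | T.ChainC (i :: w) p y} =
        ({y | T.lam i y < 0} ∩ ⋂ j, ⋂ (_ : j ≠ i),
          {y | 0 < T.lam i p * T.lam j y - T.lam j p * T.lam i y}) ∩
        (T.R i) ⁻¹' {y | T.ChainC w (T.R i p) y} := by
      ext y
      simp only [ChainC, Cross, mem_ofPred_eq, mem_inter_iff, mem_iInter, mem_preimage]
    rw [h1]
    apply MeasurableSet.inter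
    · apply MeasurableSet.inter
      · exact (isOpen_lt (T.continuous_lam i) continuous_const).measurableSet
      · apply MeasurableSet.iInter
        intro j
        apply MeasurableSet.iInter
        intro _
        apply (isOpen_lt continuous_const _).measurableSet
        exact (continuous_const.mul (T.continuous_lam j)).sub
          (continuous_const.mul (T.continuous_lam i))
    · exact (T.continuous_R i).measurable (ih (T.R i p))

lemma continuous_fold (w : List (Fin 3)) : Continuous (T.fold w) := by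
  induction w with
  | nil => exact continuous_id
  | cons i w ih => exact ih.comp (T.continuous_R i)

lemma measurePreserving_fold (w : List (Fin 3)) :
    MeasurePreserving (fun q : ℂ × ℂ => (T.fold w q.1, T.rfold w q.2))
      (volume.prod nu) (volume.prod nu) := by
  induction w with
  | nil => exact MeasurePreserving.id _
  | cons i w ih =>
    exact ih.comp ((T.measurePreserving_R i).prod (T.measurePreserving_refl i))

/-- the region of the plane times directions close to the vertex -/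
def nearV (η s : ℝ) (k : Fin 3) : Set (ℂ × ℂ) := {q | an η q.2 (T.P k - q.1) < s}

lemma measurableSet_nearV (η s : ℝ) (k : Fin 3) : MeasurableSet (T.nearV η s k) :=
  measurableSet_lt (measurable_an η (T.P k)) measurable_const

lemma volume_slice {η s : ℝ} (hη : 0 < η) (hs : 0 < s) (c : ℂ) {u : ℂ} (hu : ‖u‖ = 1) :
    volume {y : ℂ | an η u (c - y) < s} ≤ ENNReal.ofReal (4 * s ^ 2) := by
  have hu' : (starRingEnd ℂ) u ∈ Submonoid.unitSphere ℂ := by
    rw [Submonoid.unitSphere]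
    simp only [Submonoid.mem_mk, Subsemigroup.mem_mk, mem_sphere_iff_norm, sub_zero, RCLike.norm_conj, hu]
  have hmp : MeasurePreserving (fun y : ℂ => (starRingEnd ℂ) u * (c - y)) volume volume :=
    (rotation (⟨(starRingEnd ℂ) u, hu'⟩ : Circle)).measurePreserving.comp
      (Measure.measurePreserving_sub_left volume c)
  have hbox : MeasurableSet ((Ioo (-(s / η)) (s / η)) ×ℂ (Ioo (-(s * η)) (s * η))) :=
    (Complex.measurable_re measurableSet_Ioo).inter (Complex.measurable_im measurableSet_Ioo)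
  have hsub : {y : ℂ | an η u (c - y) < s} ⊆ (fun y : ℂ => (starRingEnd ℂ) u * (c - y)) ⁻¹'
      ((Ioo (-(s / η)) (s / η)) ×ℂ (Ioo (-(s * η)) (s * η))) := by
    intro y hy
    have hy' : |cr (c - y) u| / η + η * |dt (c - y) u| < s := hy
    have h1 : |cr (c - y) u| / η < s := by
      have : 0 ≤ η * |dt (c - y) u| := by (clear * - hη; positivity)
      linarith
    have h2 : η * |dt (c - y) u| < s := by
      have : 0 ≤ |cr (c - y) u| / η := by (clear * - hη; positivity)
      linarith only [hy', this]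
    rw [div_lt_iff₀ hη] at h1
    have h3 : |dt (c - y) u| < s / η := by
      rw [lt_div_iff₀ hη]; linarith only [h2]
    rw [abs_lt] at h1 h3
    rw [mem_preimage, Complex.mem_reProdIm]
    have e1 : ((starRingEnd ℂ) u * (c - y)).re = dt (c - y) u := by
      simp only [dt, Complex.mul_re, Complex.conj_re, Complex.conj_im]
      ring
    have e2 : ((starRingEnd ℂ) u * (c - y)).im = - cr (c - y) u := by
      simp only [cr, Complex.mul_im, Complex.conj_re, Complex.conj_im]
      ring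
    rw [e1, e2]
    refine ⟨⟨by linarith only [h3], h3.2⟩, ⟨by linarith only [h1], by linarith only [h1]⟩⟩
  calc volume {y : ℂ | an η u (c - y) < s}
      ≤ volume ((fun y : ℂ => (starRingEnd ℂ) u * (c - y)) ⁻¹'
        ((Ioo (-(s / η)) (s / η)) ×ℂ (Ioo (-(s * η)) (s * η)))) := measure_mono hsub
    _ = volume ((Ioo (-(s / η)) (s / η)) ×ℂ (Ioo (-(s * η)) (s * η))) :=
        hmp.measure_preimage hbox.nullMeasurableSet
    _ = ENNReal.ofReal (4 * s ^ 2) := by
        have h := Complex.volume_preserving_equiv_real_prod.measure_preimage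
          ((measurableSet_Ioo.prod measurableSet_Ioo).nullMeasurableSet (μ := volume)
            (s := (Ioo (-(s / η)) (s / η)) ×ˢ (Ioo (-(s * η)) (s * η))))
        have e : Complex.measurableEquivRealProd ⁻¹'
            ((Ioo (-(s / η)) (s / η)) ×ˢ (Ioo (-(s * η)) (s * η))) =
            ((Ioo (-(s / η)) (s / η)) ×ℂ (Ioo (-(s * η)) (s * η))) := by
          ext z
          simp only [Complex.measurableEquivRealProd, Homeomorph.toMeasurableEquiv_coe, ContinuousLinearEquiv.coe_toHomeomorph, mem_preimage, Complex.equivRealProdCLM_apply, mem_prod, mem_Ioo, Complex.mem_reProdIm]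
        rw [e] at h
        rw [h, Measure.volume_eq_prod, Measure.prod_prod, Real.volume_Ioo, Real.volume_Ioo,
          ← ENNReal.ofReal_mul (by have := div_pos hs hη; linarith only [this])]
        congr 1
        field_simp
        ring

lemma measure_nearV {η s : ℝ} (hη : 0 < η) (hs : 0 < s) (k : Fin 3) :
    (volume.prod nu) (T.nearV η s k) ≤ ENNReal.ofReal (4 * s ^ 2) := by
  rw [Measure.prod_apply_symm (T.measurableSet_nearV η s k)]
  calc ∫⁻ u, volume ((fun x => (x, u)) ⁻¹' T.nearV η s k) ∂nu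
      ≤ ∫⁻ _, ENNReal.ofReal (4 * s ^ 2) ∂nu := by
        apply lintegral_mono_ae
        filter_upwards [ae_norm] with u hu
        exact volume_slice hη hs (T.P k) hu
    _ = ENNReal.ofReal (4 * s ^ 2) := by simp only [Nat.ofNat_nonneg, ENNReal.ofReal_mul, ENNReal.ofReal_ofNat, lintegral_const, measure_univ, mul_one]

/-- the pieces seen from the vertex -/
def pieceB (η s : ℝ) (k : Fin 3) (v : List (Fin 3)) : Set (ℂ × ℂ) :=
  {q | T.VisR v (T.P k) q.1} ∩ T.nearV η s k

lemma measurableSet_pieceB (η s : ℝ) (k : Fin 3) (v : List (Fin 3)) :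
    MeasurableSet (T.pieceB η s k v) := by
  apply MeasurableSet.inter _ (T.measurableSet_nearV η s k)
  have h : MeasurableSet {y | T.VisR v (T.P k) y} :=
    (T.measurableSet_chainC v (T.P k)).inter
      ((T.continuous_fold v).measurable T.isOpen_table.measurableSet)
  exact measurable_fst h

lemma disjoint_pieceB (η s : ℝ) (k : Fin 3) :
    Pairwise (Function.onFun Disjoint (T.pieceB η s k)) := by
  intro v v' hne
  rw [Function.onFun, Set.disjoint_left]
  intro q h1 h2
  exact hne (T.visR_unique v v' _ _ h1.1 h2.1)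

/-- the pieces seen from the table -/
def pieceA (η s : ℝ) (k : Fin 3) (w : List (Fin 3)) : Set (ℂ × ℂ) :=
  {q | q.1 ∈ T.table ∧ T.Vis w q.1 (T.unf w k) ∧ an η q.2 (T.unf w k - q.1) < s}

lemma measure_pieceA_le (η s : ℝ) (k : Fin 3) (w : List (Fin 3)) :
    (volume.prod nu) (T.pieceA η s k w) ≤ (volume.prod nu) (T.pieceB η s k w.reverse) := by
  rw [← (T.measurePreserving_fold w).measure_preimage
    (T.measurableSet_pieceB η s k w.reverse).nullMeasurableSet]
  apply measure_mono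
  rintro ⟨x, u⟩ ⟨hx, hv, ha⟩
  have hx' := (T.mem_table_iff x).1 hx
  have h1 := T.chainC_reverse w x (T.unf w k) (T.chainP_of_vis w _ _ hv (fun i _ => hx' i))
  rw [fold_unf] at h1
  refine ⟨⟨h1, ?_⟩, ?_⟩
  · simp only [fold_reverse]
    exact hx
  · have h2 := T.an_fold η w u (T.unf w k) x
    rw [fold_unf] at h2
    simp only [nearV, mem_ofPred_eq]
    rw [h2]
    exact ha

/-- (B4) any constant will do -/
lemma measure_D_lt : ∃ C : ℝ, 0 < C ∧ ∀ η : ℝ, 0 < η → ∀ s : ℝ, 0 < s →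
    ((volume.restrict T.table).prod nu) {p | T.D η p < s} ≤ ENNReal.ofReal (C * s ^ 2) := by
  refine ⟨12, by norm_num, fun η hη s hs => ?_⟩
  have hmeas : MeasurableSet {p : ℂ × ℂ | T.D η p < s} :=
    measurableSet_lt (T.measurable_D η) measurable_const
  have h1 : ((volume.restrict T.table).prod nu) {p | T.D η p < s} =
      (volume.prod nu) ({p | T.D η p < s} ∩ T.table ×ˢ univ) := by
    conv_lhs => rw [← Measure.restrict_univ (μ := nu)]
    rw [Measure.prod_restrict, Measure.restrict_apply hmeas]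
  have hsub : {p | T.D η p < s} ∩ T.table ×ˢ univ ⊆ ⋃ k, ⋃ w, T.pieceA η s k w := by
    rintro ⟨x, u⟩ ⟨hD, hx, -⟩
    obtain ⟨w, z, hv, hlt⟩ := T.exists_vis_of_D_lt (x, u) hD
    obtain ⟨k, rfl⟩ := T.exists_unf w _ _ hv
    simp only [mem_iUnion]
    exact ⟨k, w, hx, hv, hlt⟩
  have hk : ∀ k, (volume.prod nu) (⋃ w, T.pieceA η s k w) ≤ ENNReal.ofReal (4 * s ^ 2) := by
    intro k
    calc (volume.prod nu) (⋃ w, T.pieceA η s k w)
        ≤ ∑' w, (volume.prod nu) (T.pieceA η s k w) := measure_iUnion_le _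
      _ ≤ ∑' w, (volume.prod nu) (T.pieceB η s k w.reverse) :=
          ENNReal.tsum_le_tsum fun w => T.measure_pieceA_le η s k w
      _ = ∑' v, (volume.prod nu) (T.pieceB η s k v) :=
          (Function.Involutive.toPerm List.reverse List.reverse_involutive).tsum_eq
            (fun v => (volume.prod nu) (T.pieceB η s k v))
      _ = (volume.prod nu) (⋃ v, T.pieceB η s k v) :=
          (measure_iUnion (T.disjoint_pieceB η s k) (T.measurableSet_pieceB η s k)).symm
      _ ≤ (volume.prod nu) (T.nearV η s k) := by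
          apply measure_mono
          intro q hq
          obtain ⟨v, hv⟩ := mem_iUnion.1 hq
          exact hv.2
      _ ≤ ENNReal.ofReal (4 * s ^ 2) := T.measure_nearV hη hs k
  rw [h1]
  calc (volume.prod nu) ({p | T.D η p < s} ∩ T.table ×ˢ univ)
      ≤ (volume.prod nu) (⋃ k, ⋃ w, T.pieceA η s k w) := measure_mono hsub
    _ ≤ ∑' k, (volume.prod nu) (⋃ w, T.pieceA η s k w) := measure_iUnion_le _
    _ ≤ ∑' _ : Fin 3, ENNReal.ofReal (4 * s ^ 2) := ENNReal.tsum_le_tsum hk
    _ = ENNReal.ofReal (12 * s ^ 2) := by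
        rw [tsum_fintype, Finset.sum_const, Finset.card_univ, Fintype.card_fin,
          ← ENNReal.ofReal_nsmul]
        congr 1
        rw [nsmul_eq_mul]
        ring

end Triangle

end Vale.Agent.P099
end
end

section

section

open MeasureTheory Set Filter Topology

namespace Vale.Agent.P099

/-! ### scales and truncations -/

/-- the scales -/
noncomputable def sj (δ : ℝ) (j : ℕ) : ℝ := δ * (1 / 8) ^ j

/-- truncation to `[0,1]` -/
noncomputable def cl (t : ℝ) : ℝ := max 0 (min 1 t)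

/-- logarithmic cut-off profile -/
noncomputable def cN (N : ℕ) (δ r : ℝ) : ℝ := (∑ j ∈ Finset.range N, cl (r / sj δ j - 1)) / N

open Classical in
/-- the corresponding weight -/
noncomputable def wN (N : ℕ) (δ r : ℝ) : ℝ :=
  (∑ j ∈ Finset.range N, if sj δ j / 2 ≤ r ∧ r ≤ 3 * sj δ j then (sj δ j)⁻¹ else 0) / N

lemma sj_pos {δ : ℝ} (hδ : 0 < δ) (j : ℕ) : 0 < sj δ j := by
  unfold sj; positivity

lemma sj_le {δ : ℝ} (hδ : 0 < δ) {i j : ℕ} (h : i ≤ j) : sj δ j ≤ sj δ i := by
  unfold sj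
  apply mul_le_mul_of_nonneg_left _ hδ.le
  exact pow_le_pow_of_le_one (by norm_num) (by norm_num) h

lemma sj_lt {δ : ℝ} (hδ : 0 < δ) {i j : ℕ} (h : i < j) : 8 * sj δ j ≤ sj δ i := by
  have h1 : sj δ j ≤ sj δ (i + 1) := sj_le hδ h
  have h2 : 8 * sj δ (i + 1) = sj δ i := by
    unfold sj; rw [pow_succ]; ring
  linarith only [h1, h2]

lemma sj_zero (δ : ℝ) : sj δ 0 = δ := by simp [sj]

lemma cl_nonneg (t : ℝ) : 0 ≤ cl t := le_max_left _ _

lemma cl_le_one (t : ℝ) : cl t ≤ 1 := max_le (by norm_num) (min_le_left _ _)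

lemma cl_eq_one {t : ℝ} (h : 1 ≤ t) : cl t = 1 := by
  unfold cl; rw [min_eq_left h]; simp only [zero_le_one, sup_of_le_right]

lemma cl_eq_zero {t : ℝ} (h : t ≤ 0) : cl t = 0 := by
  unfold cl; exact max_eq_left ((min_le_right _ _).trans h)

lemma cl_lip (s t : ℝ) : |cl s - cl t| ≤ |s - t| := by
  unfold cl
  calc |max 0 (min 1 s) - max 0 (min 1 t)| ≤ max |(0:ℝ) - 0| |min 1 s - min 1 t| :=
        abs_max_sub_max_le_max _ _ _ _
    _ ≤ |min 1 s - min 1 t| := by simp only [sub_self, abs_zero, abs_nonneg, sup_of_le_right, Std.le_refl]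
    _ ≤ max |(1:ℝ) - 1| |s - t| := abs_min_sub_min_le_max _ _ _ _
    _ ≤ |s - t| := by simp only [sub_self, abs_zero, abs_nonneg, sup_of_le_right, Std.le_refl]

lemma continuous_cl : Continuous cl := by
  unfold cl; fun_prop

lemma cN_nonneg (N : ℕ) (δ r : ℝ) : 0 ≤ cN N δ r := by
  unfold cN
  exact div_nonneg (Finset.sum_nonneg fun j _ => cl_nonneg _) (Nat.cast_nonneg _)

lemma cN_le_one (N : ℕ) (δ r : ℝ) : cN N δ r ≤ 1 := by
  unfold cN
  apply div_le_one_of_le₀ _ (Nat.cast_nonneg _)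
  calc ∑ j ∈ Finset.range N, cl (r / sj δ j - 1) ≤ ∑ j ∈ Finset.range N, (1:ℝ) :=
        Finset.sum_le_sum fun j _ => cl_le_one _
    _ = N := by simp

lemma cN_eq_one {N : ℕ} (hN : 0 < N) {δ r : ℝ} (hδ : 0 < δ) (h : 2 * δ ≤ r) : cN N δ r = 1 := by
  unfold cN
  have : ∀ j ∈ Finset.range N, cl (r / sj δ j - 1) = 1 := by
    intro j _
    apply cl_eq_one
    have h1 := sj_pos hδ j
    have h2 : sj δ j ≤ δ := by simpa [sj_zero] using sj_le hδ (Nat.zero_le j)
    have : 2 ≤ r / sj δ j := by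
      rw [le_div_iff₀ h1]; linarith only [h, h2]
    linarith only [this]
  rw [Finset.sum_congr rfl this]
  have hN' : (N:ℝ) ≠ 0 := by exact_mod_cast hN.ne'
  simp only [Finset.sum_const, Finset.card_range, nsmul_eq_mul, mul_one, ne_eq, hN', not_false_eq_true, div_self]

lemma cN_eq_zero {N : ℕ} {δ r : ℝ} (hδ : 0 < δ) (h : r ≤ sj δ N) : cN N δ r = 0 := by
  unfold cN
  have : ∀ j ∈ Finset.range N, cl (r / sj δ j - 1) = 0 := by
    intro j hj
    apply cl_eq_zero
    have h1 := sj_pos hδ j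
    have h2 : sj δ N ≤ sj δ j := sj_le hδ (Finset.mem_range.1 hj).le
    have : r / sj δ j ≤ 1 := by
      rw [div_le_one h1]; linarith
    linarith only [this]
  rw [Finset.sum_congr rfl this]
  simp

lemma wN_nonneg {N : ℕ} {δ : ℝ} (hδ : 0 < δ) (r : ℝ) : 0 ≤ wN N δ r := by
  unfold wN
  refine div_nonneg (Finset.sum_nonneg fun j _ => ?_) (Nat.cast_nonneg _)
  split
  · exact inv_nonneg.2 (sj_pos hδ j).le
  · exact le_rfl

/-- the weight controls the increments of the profile -/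
lemma cN_lip {N : ℕ} {δ r r' : ℝ} (hδ : 0 < δ) (h : |r' - r| ≤ sj δ N / 2) :
    |cN N δ r' - cN N δ r| ≤ |r' - r| * wN N δ r := by
  unfold cN wN
  rw [← sub_div, abs_div, Nat.abs_cast, ← mul_div_assoc]
  apply div_le_div_of_nonneg_right _ (Nat.cast_nonneg _)
  rw [← Finset.sum_sub_distrib, Finset.mul_sum]
  apply (Finset.abs_sum_le_sum_abs _ _).trans
  apply Finset.sum_le_sum
  intro j hj
  have h1 := sj_pos hδ j
  have h2 : sj δ N ≤ sj δ j := sj_le hδ (Finset.mem_range.1 hj).le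
  have h3 : |r' - r| ≤ sj δ j / 2 := by linarith only [h2, h]
  rw [abs_le] at h3
  split
  · calc |cl (r' / sj δ j - 1) - cl (r / sj δ j - 1)| ≤ |(r' / sj δ j - 1) - (r / sj δ j - 1)| :=
          cl_lip _ _
      _ = |(r' - r) * (sj δ j)⁻¹| := by congr 1; field_simp; ring
      _ = |r' - r| * (sj δ j)⁻¹ := by rw [abs_mul, abs_of_pos (inv_pos.2 h1)]
  · rename_i hn
    rw [not_and_or, not_le, not_le] at hn
    rcases hn with hn | hn
    · rw [cl_eq_zero, cl_eq_zero]
      · simp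
      · have : r / sj δ j ≤ 1 := by
          rw [div_le_one h1]; linarith only [hn, h1]
        linarith only [this]
      · have : r' / sj δ j ≤ 1 := by
          rw [div_le_one h1]; linarith only [h3, hn]
        linarith only [this]
    · rw [cl_eq_one, cl_eq_one]
      · simp
      · have : 2 ≤ r / sj δ j := by
          rw [le_div_iff₀ h1]; linarith only [h1, hn]
        linarith only [this]
      · have : 2 ≤ r' / sj δ j := by
          rw [le_div_iff₀ h1]; linarith only [h3, hn]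
        linarith only [this]

open Classical in
lemma wN_sq {N : ℕ} {δ : ℝ} (hδ : 0 < δ) (r : ℝ) :
    wN N δ r ^ 2 ≤
      (∑ j ∈ Finset.range N, if r < 4 * sj δ j then ((sj δ j)⁻¹) ^ 2 else 0) / N ^ 2 := by
  unfold wN
  rw [div_pow]
  apply div_le_div_of_nonneg_right _ (by positivity)
  rw [sq, Finset.sum_mul_sum]
  apply Finset.sum_le_sum
  intro i hi
  have hi1 := sj_pos hδ i
  have : ∀ j ∈ Finset.range N, j ≠ i →
      (if sj δ i / 2 ≤ r ∧ r ≤ 3 * sj δ i then (sj δ i)⁻¹ else 0) *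
      (if sj δ j / 2 ≤ r ∧ r ≤ 3 * sj δ j then (sj δ j)⁻¹ else 0) = 0 := by
    intro j hj hij
    have hj1 := sj_pos hδ j
    by_cases h1 : sj δ i / 2 ≤ r ∧ r ≤ 3 * sj δ i
    · by_cases h2 : sj δ j / 2 ≤ r ∧ r ≤ 3 * sj δ j
      · exfalso
        rcases lt_or_gt_of_ne hij with h | h
        · have := sj_lt hδ h
          linarith only [hi1, h1, h2, this]
        · have := sj_lt hδ h
          linarith only [h2.2, h1.1, this, hj1]
      · rw [if_neg h2, mul_zero]
    · rw [if_neg h1, zero_mul]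
  rw [Finset.sum_eq_single i this (fun h => absurd hi h)]
  by_cases h1 : sj δ i / 2 ≤ r ∧ r ≤ 3 * sj δ i
  · rw [if_pos h1, if_pos (by linarith only [hi1, h1]), sq]
  · rw [if_neg h1]
    simp only [mul_zero, inv_pow, ge_iff_le]
    split <;> positivity

lemma wN_le {N : ℕ} {δ : ℝ} (hδ : 0 < δ) (r : ℝ) : wN N δ r ≤ (sj δ N)⁻¹ := by
  unfold wN
  rcases Nat.eq_zero_or_pos N with rfl | hN
  · simp only [Finset.range_zero, Finset.sum_empty, CharP.cast_eq_zero, div_zero, inv_nonneg]; exact (sj_pos hδ 0).le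
  have hN' : (0:ℝ) < N := by exact_mod_cast hN
  rw [div_le_iff₀ hN']
  calc (∑ j ∈ Finset.range N, if sj δ j / 2 ≤ r ∧ r ≤ 3 * sj δ j then (sj δ j)⁻¹ else 0)
      ≤ ∑ j ∈ Finset.range N, (sj δ N)⁻¹ := by
        apply Finset.sum_le_sum
        intro j hj
        have h1 := sj_pos hδ j
        have h2 := sj_pos hδ N
        have h3 : sj δ N ≤ sj δ j := sj_le hδ (Finset.mem_range.1 hj).le
        split
        · (clear * - h2 h3; gcongr)
        · positivity
    _ = (sj δ N)⁻¹ * N := by simp only [Finset.sum_const, Finset.card_range, nsmul_eq_mul]; ring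

lemma measurable_cN (N : ℕ) (δ : ℝ) : Measurable (cN N δ) := by
  unfold cN
  apply Measurable.div_const
  apply Finset.measurable_sum
  intro j _
  exact continuous_cl.measurable.comp (by fun_prop)

lemma measurable_wN (N : ℕ) (δ : ℝ) : Measurable (wN N δ) := by
  unfold wN
  apply Measurable.div_const
  apply Finset.measurable_sum
  intro j _
  apply Measurable.ite
  · exact (measurableSet_le measurable_const measurable_id).inter
      (measurableSet_le measurable_id measurable_const)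
  · exact measurable_const
  · exact measurable_const

namespace Triangle

variable (T : Triangle)

/-- (B1), free flight -/
lemma D_free {η : ℝ} (hη : 0 < η) {x u : ℂ} (hu : ‖u‖ = 1) {t : ℝ} (hx : x ∈ T.table)
    (hxt : x + t • u ∈ T.table) : |T.D η (x + t • u, u) - T.D η (x, u)| ≤ η * |t| := by
  have := T.D_lip hη u hx hxt
  rwa [add_sub_cancel_left, an_self hu] at this

lemma cross_of_E {x u : ℂ} {t : ℝ} {i : Fin 3} (hx : x ∈ T.table)
    (hE : T.E i (x, u)) (ht : T.hitT i (x, u) < t) : T.Cross i x (x + t • u) := by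
  obtain ⟨h1, h2⟩ := hE
  have h0 := (T.mem_table_iff x).1 hx
  simp only [hitT] at ht h2
  have h1' : T.ell i u ≠ 0 := ne_of_lt h1
  have h3 : T.lam i x = - (-T.lam i x / T.ell i u) * T.ell i u := by
    (clear * - h1'; field_simp)
  set τ := -T.lam i x / T.ell i u with hτ
  have hτ0 : 0 < τ := by
    rw [hτ]; exact div_pos_of_neg_of_neg (by linarith only [h0 i]) h1
  have h4 : 0 < t := hτ0.trans ht
  simp only [lam_add_smul] at h2
  refine ⟨?_, ?_⟩
  · rw [lam_add_smul]
    linarith [mul_pos (sub_pos.2 h1) (sub_pos.2 ht), h3]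
  · intro j hj
    have h5 := h2 j hj
    rw [lam_add_smul, lam_add_smul]
    have h6 : T.lam i x * (T.lam j x + t * T.ell j u) - T.lam j x * (T.lam i x + t * T.ell i u) =
        t * (- T.ell i u) * (T.lam j x + τ * T.ell j u) := by
      have : T.lam i x * (T.lam j x + t * T.ell j u) - T.lam j x * (T.lam i x + t * T.ell i u) =
        t * (T.lam i x * T.ell j u - T.lam j x * T.ell i u) := by ring
      rw [this, h3]; ring
    rw [h6]
    exact mul_pos (mul_pos h4 (by linarith only [h1])) h5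

/-- (B1), one collision -/
lemma D_bounce {η : ℝ} (hη : 0 < η) {x u : ℂ} (hu : ‖u‖ = 1) {t : ℝ} {i : Fin 3}
    (hx : x ∈ T.table) (hE : T.E i (x, u)) (ht : T.hitT i (x, u) < t)
    (hxt : T.R i (x + t • u) ∈ T.table) :
    |T.D η (T.R i (x + t • u), T.refl i u) - T.D η (x, u)| ≤ η * |t| := by
  have h := T.cross_of_E hx hE ht
  have := T.D_cross hη u hx hxt (i := i) (by rwa [R_R])
  rwa [R_R, add_sub_cancel_left, an_self hu] at this

/-- the cut-off function -/
noncomputable def chi (N : ℕ) (δ η : ℝ) (p : ℂ × ℂ) : ℝ := cN N δ (T.D η p)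

/-- its weight -/
noncomputable def wt (N : ℕ) (δ η : ℝ) (p : ℂ × ℂ) : ℝ := wN N δ (T.D η p)

lemma measurable_chi (N : ℕ) (δ η : ℝ) : Measurable (T.chi N δ η) :=
  (measurable_cN N δ).comp (T.measurable_D η)

lemma measurable_wt (N : ℕ) (δ η : ℝ) : Measurable (T.wt N δ η) :=
  (measurable_wN N δ).comp (T.measurable_D η)

lemma chi_nonneg (N : ℕ) (δ η : ℝ) (p : ℂ × ℂ) : 0 ≤ T.chi N δ η p := cN_nonneg _ _ _

lemma chi_le_one (N : ℕ) (δ η : ℝ) (p : ℂ × ℂ) : T.chi N δ η p ≤ 1 := cN_le_one _ _ _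

lemma wt_nonneg (N : ℕ) {δ : ℝ} (hδ : 0 < δ) (η : ℝ) (p : ℂ × ℂ) : 0 ≤ T.wt N δ η p :=
  wN_nonneg hδ _

lemma wt_le (N : ℕ) {δ : ℝ} (hδ : 0 < δ) (η : ℝ) (p : ℂ × ℂ) : T.wt N δ η p ≤ (sj δ N)⁻¹ :=
  wN_le hδ _

/-- the cut-off vanishes near the vertices -/
lemma chi_eq_zero (N : ℕ) {δ η : ℝ} (hδ : 0 < δ) (hη : 0 < η) (hη1 : η ≤ 1) {x u : ℂ}
    (hu : ‖u‖ = 1) (k : Fin 3) (h : ‖x - T.P k‖ < sj δ N * η / 2) :
    T.chi N δ η (x, u) = 0 := by
  apply cN_eq_zero hδ
  have h1 := T.D_le hη (x, u) k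
  have h2 := an_le hη hu (T.P k - x)
  have h3 : ‖T.P k - x‖ = ‖x - T.P k‖ := norm_sub_rev _ _
  simp only at h1
  rw [h3] at h2
  have h4 : ‖x - T.P k‖ / η + η * ‖x - T.P k‖ ≤ 2 * (‖x - T.P k‖ / η) := by
    have h5 : η * ‖x - T.P k‖ ≤ ‖x - T.P k‖ / η := by
      rw [le_div_iff₀ hη]
      have h6 : η * η ≤ 1 := by nlinarith only [hη1, hη]
      linarith only [mul_le_mul_of_nonneg_left h6 (norm_nonneg (x - T.P k))]
    linarith only [h5]
  have h6 : 2 * (‖x - T.P k‖ / η) ≤ sj δ N := by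
    rw [← mul_div_assoc, div_le_iff₀ hη]; linarith only [h]
  linarith only [h6, h4, h2, h1]

/-- the difference of the cut-off at two phase points -/
lemma chi_sub_le (N : ℕ) {δ η r : ℝ} (hδ : 0 < δ) {p q : ℂ × ℂ} (h : |T.D η q - T.D η p| ≤ r)
    (hr : r ≤ sj δ N / 2) : |T.chi N δ η q - T.chi N δ η p| ≤ r * T.wt N δ η p :=
  (cN_lip hδ (h.trans hr)).trans (mul_le_mul_of_nonneg_right h (wN_nonneg hδ _))

/-- the measure of the set where the cut-off is active -/
lemma exists_chi_const : ∃ C : ℝ, 0 < C ∧ ∀ N : ℕ, 0 < N → ∀ δ : ℝ, 0 < δ → ∀ η : ℝ, 0 < η →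
    (∫ p, T.wt N δ η p ^ 2 ∂((volume.restrict T.table).prod nu)) ≤ C / N ∧
    (((volume.restrict T.table).prod nu) {p | T.chi N δ η p < 1}).toReal ≤ C * δ ^ 2 := by
  obtain ⟨C, hC, h⟩ := T.measure_D_lt
  refine ⟨16 * C, by positivity, ?_⟩
  intro N hN δ hδ η hη
  have hN' : (0:ℝ) < N := by exact_mod_cast hN
  have htop : ∀ s : Set (ℂ × ℂ), ((volume.restrict T.table).prod nu) s ≠ ⊤ := by
    intro s
    have : IsFiniteMeasure (volume.restrict T.table) :=
      ⟨by simpa only [MeasurableSet.univ, Measure.restrict_apply, univ_inter] using T.volume_table_lt_top⟩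
    exact measure_ne_top _ _
  have hreal : ∀ s : ℝ, 0 < s → (((volume.restrict T.table).prod nu) {p | T.D η p < s}).toReal
      ≤ C * s ^ 2 := by
    intro s hs
    exact ENNReal.toReal_le_of_le_ofReal (by positivity) (h η hη s hs)
  constructor
  · classical
    have : IsFiniteMeasure (volume.restrict T.table) :=
      ⟨by simpa only [MeasurableSet.univ, Measure.restrict_apply, univ_inter] using T.volume_table_lt_top⟩
    have hm : ∀ s : ℝ, MeasurableSet {p : ℂ × ℂ | T.D η p < s} := fun s =>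
      measurableSet_lt (T.measurable_D η) measurable_const
    have hint : ∀ j, Integrable (fun p : ℂ × ℂ => if T.D η p < 4 * sj δ j then ((sj δ j)⁻¹) ^ 2
        else 0) ((volume.restrict T.table).prod nu) := by
      intro j
      have : (fun p : ℂ × ℂ => if T.D η p < 4 * sj δ j then ((sj δ j)⁻¹) ^ 2 else 0) =
        {p : ℂ × ℂ | T.D η p < 4 * sj δ j}.indicator (fun _ => ((sj δ j)⁻¹) ^ 2) := by
        ext p; simp [indicator]
      rw [this]
      exact (integrable_const _).indicator (hm _)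
    calc (∫ p, T.wt N δ η p ^ 2 ∂((volume.restrict T.table).prod nu))
        ≤ ∫ p, (∑ j ∈ Finset.range N, if T.D η p < 4 * sj δ j then ((sj δ j)⁻¹) ^ 2 else 0) / N ^ 2
          ∂((volume.restrict T.table).prod nu) := by
          apply integral_mono_of_nonneg
          · exact Eventually.of_forall fun p => sq_nonneg _
          · apply Integrable.div_const
            exact integrable_finsetSum _ fun j _ => hint j
          · exact Eventually.of_forall fun p => wN_sq hδ _
      _ = (∑ j ∈ Finset.range N, ∫ p, (if T.D η p < 4 * sj δ j then ((sj δ j)⁻¹) ^ 2 else 0)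
          ∂((volume.restrict T.table).prod nu)) / N ^ 2 := by
          rw [integral_div, integral_finsetSum _ fun j _ => hint j]
      _ ≤ (∑ j ∈ Finset.range N, 16 * C) / N ^ 2 := by
          apply div_le_div_of_nonneg_right _ (by positivity)
          apply Finset.sum_le_sum
          intro j _
          have hs := sj_pos hδ j
          have : (fun p : ℂ × ℂ => if T.D η p < 4 * sj δ j then ((sj δ j)⁻¹) ^ 2 else 0) =
            {p : ℂ × ℂ | T.D η p < 4 * sj δ j}.indicator (fun _ => ((sj δ j)⁻¹) ^ 2) := by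
            ext p; simp [indicator]
          rw [this, integral_indicator (hm _), setIntegral_const, smul_eq_mul]
          have h1 := hreal (4 * sj δ j) (by positivity)
          calc _ ≤ (C * (4 * sj δ j) ^ 2) * ((sj δ j)⁻¹) ^ 2 := by
                apply mul_le_mul_of_nonneg_right h1 (by positivity)
            _ = 16 * C := by field_simp; ring
      _ = 16 * C / N := by
          simp only [Finset.sum_const, Finset.card_range, nsmul_eq_mul]
          field_simp
  · have h1 := hreal (2 * δ) (by positivity)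
    calc _ ≤ (((volume.restrict T.table).prod nu) {p | T.D η p < 2 * δ}).toReal := by
          apply ENNReal.toReal_mono (htop _)
          apply measure_mono
          intro p hp
          simp only [mem_ofPred_eq] at hp ⊢
          by_contra hcon
          rw [not_lt] at hcon
          have := cN_eq_one hN hδ hcon
          simp only [chi] at hp
          linarith only [hp, this]
      _ ≤ C * (2 * δ) ^ 2 := h1
      _ ≤ 16 * C * δ ^ 2 := by linarith only [mul_nonneg (sq_nonneg (2 * δ : ℝ)) (le_of_lt (sub_pos.2 hC))]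

/-- the cut-off restricted to unit directions -/
noncomputable def chi' (N : ℕ) (δ η : ℝ) (p : ℂ × ℂ) : ℝ :=
  {p : ℂ × ℂ | ‖p.2‖ = 1}.indicator (T.chi N δ η) p

lemma chi'_eq {N : ℕ} {δ η : ℝ} {x u : ℂ} (hu : ‖u‖ = 1) :
    T.chi' N δ η (x, u) = T.chi N δ η (x, u) := by
  apply indicator_of_mem
  exact hu

lemma measurable_chi' (N : ℕ) (δ η : ℝ) : Measurable (T.chi' N δ η) := by
  apply (T.measurable_chi N δ η).indicator
  exact measurableSet_eq_fun (by fun_prop) measurable_const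

lemma chi'_nonneg (N : ℕ) (δ η : ℝ) (p : ℂ × ℂ) : 0 ≤ T.chi' N δ η p :=
  indicator_nonneg (fun p _ => T.chi_nonneg N δ η p) p

lemma chi'_le_one (N : ℕ) (δ η : ℝ) (p : ℂ × ℂ) : T.chi' N δ η p ≤ 1 := by
  unfold chi'
  by_cases h : p ∈ {p : ℂ × ℂ | ‖p.2‖ = 1}
  · rw [indicator_of_mem h]; exact T.chi_le_one N δ η p
  · rw [indicator_of_notMem h]; exact zero_le_one

lemma chi'_eq_zero (N : ℕ) {δ η : ℝ} (hδ : 0 < δ) (hη : 0 < η) (hη1 : η ≤ 1) {x u : ℂ}
    (k : Fin 3) (h : ‖x - T.P k‖ < sj δ N * η / 2) :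
    T.chi' N δ η (x, u) = 0 := by
  by_cases hu : ‖u‖ = 1
  · rw [T.chi'_eq hu]; exact T.chi_eq_zero N hδ hη hη1 hu k h
  · apply indicator_of_notMem
    exact hu

/-- Lipschitz property inside the table, in the form used for the gradient estimate -/
lemma chi'_lip (N : ℕ) {δ η : ℝ} (hδ : 0 < δ) (hη : 0 < η) (hη1 : η ≤ 1) {x y u : ℂ}
    (hu : ‖u‖ = 1) (hx : x ∈ T.table) (hy : y ∈ T.table) {ε : ℝ} (hε : ‖y - x‖ ≤ ε)
    (hε' : 4 * ε ≤ η * sj δ N) :
    |T.chi' N δ η (y, u) - T.chi' N δ η (x, u)| ≤ 2 * ε / η * T.wt N δ η (x, u) := by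
  rw [T.chi'_eq hu, T.chi'_eq hu]
  have hε0 : 0 ≤ ε := (norm_nonneg _).trans hε
  apply T.chi_sub_le N hδ
  · apply (T.D_lip hη u hx hy).trans ((an_le hη hu _).trans _)
    have h1 : η * ‖y - x‖ ≤ ‖y - x‖ / η := by
      rw [le_div_iff₀ hη]
      have h6 : η * η ≤ 1 := by nlinarith only [hη1, hη]
      linarith only [mul_le_mul_of_nonneg_left h6 (norm_nonneg (y - x))]
    calc ‖y - x‖ / η + η * ‖y - x‖ ≤ ‖y - x‖ / η + ‖y - x‖ / η := by linarith
      _ = 2 * ‖y - x‖ / η := by ring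
      _ ≤ 2 * ε / η := by (clear * - hε hη; gcongr)
  · rw [div_le_iff₀ hη]; linarith only [hε']

end Triangle

end Vale.Agent.P099
end
end

section

section

open MeasureTheory Set Filter Topology

namespace Vale.Agent.P099

/-! ### almost everywhere convergence of mollifications -/

lemma exists_rho_bound : ∃ M : ℝ, 0 < M ∧ ∀ ε : ℝ, 0 < ε → ∀ z, rho ε z ≤ M * ε⁻¹ ^ 2 := by
  obtain ⟨h1, h2, h3, h4, h5⟩ := exists_rho.choose_spec
  have hcs : HasCompactSupport rho1 := by
    apply HasCompactSupport.of_support_subset_isCompact (isCompact_closedBall (0 : ℂ) 1)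
    intro z hz
    rw [Metric.mem_closedBall, dist_zero_right]
    by_contra hlt
    exact hz (h3 z (le_of_lt (not_le.1 hlt)))
  obtain ⟨C, hC⟩ := hcs.exists_bound_of_continuous h1.continuous
  refine ⟨|C| + 1, by (clear * -; positivity), fun ε hε z => ?_⟩
  unfold rho
  rw [mul_comm]
  apply mul_le_mul_of_nonneg_right _ (by positivity)
  have := hC ((ε⁻¹ : ℝ) • z)
  rw [Real.norm_eq_abs] at this
  calc rho1 ((ε⁻¹ : ℝ) • z) ≤ |rho1 ((ε⁻¹ : ℝ) • z)| := le_abs_self _
    _ ≤ C := this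
    _ ≤ |C| + 1 := by linarith only [le_abs_self C]

lemma ae_tendsto_mol1 {g : ℂ → ℝ} (hg : LocallyIntegrable g) :
    ∀ᵐ x : ℂ, Tendsto (fun ε : ℝ => ∫ y, rho ε (x - y) * g y) (𝓝[>] 0) (𝓝 (g x)) := by
  obtain ⟨M, hM0, hM⟩ := exists_rho_bound
  filter_upwards [(Besicovitch.vitaliFamily (volume : Measure ℂ)).ae_tendsto_average_norm_sub hg]
    with x h0
  have hlim := h0.comp (Besicovitch.tendsto_filterAt (volume : Measure ℂ) x)
  have key := tendsto_integral_smul_of_tendsto_average_norm_sub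
    (μ := (volume : Measure ℂ)) (a := fun ε : ℝ => Metric.closedBall x ε) (l := 𝓝[>] 0)
    (f := g) (c := g x) (g := fun ε y => rho ε (x - y))
    (M * volume.real (Metric.ball (0 : ℂ) 1)) hlim ?_ ?_ ?_ ?_
  · simpa only [smul_eq_mul] using key
  · filter_upwards with ε using hg.integrableOn_isCompact (isCompact_closedBall _ _)
  · refine (tendsto_const_nhds (x := (1 : ℝ))).congr' ?_
    filter_upwards [self_mem_nhdsWithin] with ε hε
    have h1 := integral_sub_left_eq_self (fun z => rho ε z) (volume : Measure ℂ) x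
    rw [h1, integral_rho hε]
  · filter_upwards [self_mem_nhdsWithin] with ε hε y hy
    rw [Metric.mem_closedBall]
    by_contra hlt
    apply hy
    apply rho_eq_zero hε
    rw [not_le, dist_comm, dist_eq_norm] at hlt
    exact hlt.le
  · filter_upwards [self_mem_nhdsWithin] with ε hε y
    have hε' : (0 : ℝ) < ε := hε
    rw [abs_of_nonneg (rho_nonneg _ _), Measure.addHaar_real_closedBall _ _ hε'.le,
      Complex.finrank_real_complex]
    have hv : 0 < volume.real (Metric.ball (0 : ℂ) 1) :=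
      ENNReal.toReal_pos (Metric.measure_ball_pos _ _ one_pos).ne' measure_ball_lt_top.ne
    have h2 : M * volume.real (Metric.ball (0 : ℂ) 1) / (ε ^ 2 * volume.real (Metric.ball (0 : ℂ) 1))
        = M * ε⁻¹ ^ 2 := by
      (clear * - hv hε' hM0; field_simp)
    rw [h2]
    exact hM ε hε' _

end Vale.Agent.P099
end
end

section

section

open MeasureTheory Set Filter Topology

namespace Vale.Agent.P099

variable {Ω : Type} [MeasurableSpace Ω]

namespace Triangle

variable (T : Triangle)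

/-- the oscillation of the extended regular part at scale `ε` -/
lemma osc_est {Φ : ℂ → ℂ × Ω → ℝ} {CU L r : ℝ} (hΦ : ∀ x ω, |Φ x ω| ≤ CU)
    (hL : ∀ x y ω, |Φ x ω - Φ y ω| ≤ L * ‖x - y‖) (hL0 : 0 ≤ L)
    (hr : ∀ x ω, (∃ i, T.lam i x < r) → Φ x ω = 0)
    {N : ℕ} {δ η ε : ℝ} (hδ : 0 < δ) (hη : 0 < η) (hη1 : η ≤ 1) (hε : 0 < ε)
    (hε' : 4 * ε ≤ η * sj δ N) (hεr : T.Lp * ε < r) {x y : ℂ} (hx : x ∈ T.table)
    (hxy : ‖y - x‖ ≤ ε) {ω : ℂ × Ω} (hu : ‖ω.1‖ = 1) :
    |T.ext (fun x ω => T.chi' N δ η (x, ω.1) * Φ x ω) y ω -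
      T.ext (fun x ω => T.chi' N δ η (x, ω.1) * Φ x ω) x ω| ≤
      L * ε + CU * (2 * ε / η * T.wt N δ η (x, ω.1)) := by
  have hCU : 0 ≤ CU := (abs_nonneg _).trans (hΦ x ω)
  have hw := T.wt_nonneg N hδ η (x, ω.1)
  have hlam : ∀ i, |T.lam i y - T.lam i x| ≤ T.Lp * ε := fun i =>
    (T.abs_lam_sub_le i x y).trans (mul_le_mul_of_nonneg_left hxy T.Lp_pos.le)
  rw [T.ext_of_mem _ hx]
  by_cases hy : y ∈ T.table
  · rw [T.ext_of_mem _ hy]
    have h1 := T.chi'_lip N hδ hη hη1 hu hx hy hxy hε'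
    have h2 : T.chi' N δ η (y, ω.1) * Φ y ω - T.chi' N δ η (x, ω.1) * Φ x ω =
        T.chi' N δ η (y, ω.1) * (Φ y ω - Φ x ω) +
        (T.chi' N δ η (y, ω.1) - T.chi' N δ η (x, ω.1)) * Φ x ω := by ring
    rw [h2]
    apply (abs_add_le _ _).trans
    apply add_le_add
    · rw [abs_mul, abs_of_nonneg (T.chi'_nonneg _ _ _ _)]
      calc _ ≤ 1 * (L * ‖y - x‖) := mul_le_mul (T.chi'_le_one _ _ _ _) (hL _ _ _) (abs_nonneg _)
            zero_le_one
        _ ≤ L * ε := by rw [one_mul]; exact mul_le_mul_of_nonneg_left hxy hL0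
    · rw [abs_mul, mul_comm]
      exact mul_le_mul (hΦ _ _) h1 (abs_nonneg _) hCU
  · have h1 : Φ x ω = 0 := by
      apply hr
      rw [mem_table_iff] at hy
      push Not at hy
      obtain ⟨i, hi⟩ := hy
      refine ⟨i, ?_⟩
      have := abs_le.1 (hlam i)
      linarith only [hεr, hi, this]
    have h2 : T.ext (fun x ω => T.chi' N δ η (x, ω.1) * Φ x ω) y ω = 0 := by
      unfold ext
      rw [indicator_of_notMem hy, zero_add]
      apply Finset.sum_eq_zero
      intro i _
      by_cases hi : y ∈ T.R i ⁻¹' T.table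
      · rw [indicator_of_mem hi]
        have h3 : Φ (T.R i y) (T.refl i ω.1, ω.2) = 0 := by
          apply hr
          refine ⟨i, ?_⟩
          rw [lam_R]
          have := abs_le.1 (hlam i)
          have h4 := (T.mem_table_iff x).1 hx i
          linarith only [hεr, this, h4]
        simp only [h3, mul_zero]
      · exact indicator_of_notMem hi _
    rw [h1, h2]
    simp only [mul_zero, sub_zero, abs_zero]
    (clear * - hL0 hε hCU hη hw; positivity)

/-- pointwise gradient estimate for the regular part -/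
lemma grd_reg_est {K : ℝ} (hK : ∀ ε : ℝ, 0 < ε → ∫ z, ‖kap ε z‖ ≤ K / ε)
    {Φ : ℂ → ℂ × Ω → ℝ} (hΦb : Bdd Φ) {CU L r : ℝ} (hΦ : ∀ x ω, |Φ x ω| ≤ CU)
    (hL : ∀ x y ω, |Φ x ω - Φ y ω| ≤ L * ‖x - y‖) (hL0 : 0 ≤ L)
    (hr : ∀ x ω, (∃ i, T.lam i x < r) → Φ x ω = 0)
    {N : ℕ} {δ η ε : ℝ} (hδ : 0 < δ) (hη : 0 < η) (hη1 : η ≤ 1) (hε : 0 < ε)
    (hε' : 4 * ε ≤ η * sj δ N) (hεr : T.Lp * ε < r) {x : ℂ} (hx : x ∈ T.table)
    {ω : ℂ × Ω} (hu : ‖ω.1‖ = 1) :
    ‖grd ε (T.ext (fun x ω => T.chi' N δ η (x, ω.1) * Φ x ω)) x ω‖ ≤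
      K * L + 2 * K * CU / η * T.wt N δ η (x, ω.1) := by
  set f := T.ext (fun x ω => T.chi' N δ η (x, ω.1) * Φ x ω) with hf
  have hCU : 0 ≤ CU := (abs_nonneg _).trans (hΦ x ω)
  have hw := T.wt_nonneg N hδ η (x, ω.1)
  have hfb : BddSupp f := by
    apply T.bddSupp_ext
    apply Bdd.mul _ hΦb
    refine ⟨(T.measurable_chi' N δ η).comp (f := fun p : ℂ × (ℂ × Ω) => (p.1, p.2.1))
        (by fun_prop), 1, ?_⟩
    intro y ω
    rw [abs_of_nonneg (T.chi'_nonneg _ _ _ _)]
    exact T.chi'_le_one _ _ _ _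
  have hk : Integrable fun y => kap ε (x - y) := (integrable_kap hε).comp_sub_left x
  obtain ⟨C, hC⟩ := hfb.1.2
  have h1 : Integrable fun y => kap ε (x - y) * (f y ω : ℂ) :=
    hk.mul_bdd (c := C) (Complex.measurable_ofReal.comp (hfb.1.section ω)).aestronglyMeasurable
      (Eventually.of_forall fun y => by
        simp only [Complex.norm_real, Real.norm_eq_abs]; exact hC y ω)
  have h0 : ∫ y, kap ε (x - y) = 0 := by
    rw [integral_sub_left_eq_self (fun z => kap ε z) volume x, integral_kap hε]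
  have h2 : grd ε f x ω = ∫ y, kap ε (x - y) * ((f y ω - f x ω : ℝ) : ℂ) := by
    have : ∀ y, kap ε (x - y) * ((f y ω - f x ω : ℝ) : ℂ) =
        kap ε (x - y) * (f y ω : ℂ) - kap ε (x - y) * (f x ω : ℂ) := by
      intro y; push_cast; ring
    simp only [this]
    rw [integral_sub h1 (hk.mul_const _), integral_mul_const, h0, zero_mul, sub_zero]
    rfl
  set B := L * ε + CU * (2 * ε / η * T.wt N δ η (x, ω.1)) with hB
  have hB0 : 0 ≤ B := by (clear * - hL0 hε hCU hη hw; (clear * - hL0 hε hCU hη hw; positivity))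
  rw [h2]
  calc ‖∫ y, kap ε (x - y) * ((f y ω - f x ω : ℝ) : ℂ)‖
      ≤ ∫ y, ‖kap ε (x - y)‖ * B := by
        apply norm_integral_le_of_norm_le (hk.norm.mul_const B)
        refine Eventually.of_forall fun y => ?_
        rw [norm_mul, Complex.norm_real, Real.norm_eq_abs]
        by_cases hy : ‖x - y‖ < ε
        · apply mul_le_mul_of_nonneg_left _ (norm_nonneg _)
          rw [norm_sub_rev] at hy
          exact T.osc_est hΦ hL hL0 hr hδ hη hη1 hε hε' hεr hx hy.le hu
        · rw [kap_eq_zero hε (not_lt.1 hy)]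
          simp
    _ = (∫ z, ‖kap ε z‖) * B := by
        rw [integral_mul_const, integral_sub_left_eq_self (fun z => ‖kap ε z‖) volume x]
    _ ≤ (K / ε) * B := mul_le_mul_of_nonneg_right (hK ε hε) hB0
    _ = K * L + 2 * K * CU / η * T.wt N δ η (x, ω.1) := by
        rw [hB]; (clear * - hη hε; field_simp)

end Triangle

end Vale.Agent.P099
end
end

section

section

open MeasureTheory Set Filter Topology

set_option linter.unusedSectionVars false

namespace Vale.Agent.P099

variable {Ω : Type} [MeasurableSpace Ω]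

lemma integral_comp_mp {X : Type} [MeasurableSpace X] {μ : Measure X} {φ : X → X}
    (hφ : MeasurePreserving φ μ μ) {g : X → ℝ} (hg : Measurable g) :
    ∫ x, g (φ x) ∂μ = ∫ x, g x ∂μ := by
  rw [← integral_map hφ.measurable.aemeasurable (hφ.map_eq.symm ▸ hg.aestronglyMeasurable),
    hφ.map_eq]

lemma integrable_add4 {X : Type} [MeasurableSpace X] {μ : Measure X} {a b c d : X → ℝ}
    (ha : Integrable a μ) (hb : Integrable b μ) (hc : Integrable c μ) (hd : Integrable d μ) :
    Integrable (fun x => a x + b x + c x + d x) μ := ((ha.add hb).add hc).add hd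

lemma integral_add4 {X : Type} [MeasurableSpace X] {μ : Measure X} {a b c d : X → ℝ}
    (ha : Integrable a μ) (hb : Integrable b μ) (hc : Integrable c μ) (hd : Integrable d μ) :
    ∫ x, (a x + b x + c x + d x) ∂μ = ∫ x, a x ∂μ + ∫ x, b x ∂μ + ∫ x, c x ∂μ + ∫ x, d x ∂μ := by
  have h1 := integral_add ha hb
  have h2 := integral_add (ha.add hb) hc
  have h3 := integral_add ((ha.add hb).add hc) hd
  simp only [Pi.add_apply] at h1 h2 h3
  rw [h3, h2, h1]

lemma Bdd.sq {f : ℂ → ℂ × Ω → ℝ} (hf : Bdd f) : Bdd (fun x ω => f x ω ^ 2) := by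
  obtain ⟨h1, C, hC⟩ := hf
  refine ⟨h1.pow_const 2, C ^ 2, fun y ω => ?_⟩
  rw [abs_pow]
  exact pow_le_pow_left₀ (abs_nonneg _) (hC y ω) 2

lemma BddSupp.sq {f : ℂ → ℂ × Ω → ℝ} (hf : BddSupp f) : BddSupp (fun x ω => f x ω ^ 2) := by
  obtain ⟨h1, r, hr⟩ := hf
  refine ⟨h1.sq, r, fun y ω hy => ?_⟩
  change f y ω ^ 2 = 0
  rw [hr y ω hy]
  simp

namespace Triangle

variable (T : Triangle) (m : Measure Ω)

/-- mollification does not increase the squared norm -/
lemma nrm_mol_le [IsProbabilityMeasure m] {ε : ℝ} (hε : 0 < ε) {f : ℂ → ℂ × Ω → ℝ}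
    (hf : BddSupp f) :
    T.nrm m (fun x ω => (mol ε f x ω : ℂ)) ≤ ∫ ω, (∫ y, f y ω ^ 2) ∂(nu.prod m) := by
  have h1 := T.nrm_kcv_le m (κ := fun z => (rho ε z : ℂ))
    (Complex.continuous_ofReal.comp (rho_contDiff ε).continuous)
    (((hasCompactSupport_rho hε).comp_left Complex.ofReal_zero :)) hf
  have h2 : ∫ z, ‖((rho ε z : ℝ) : ℂ)‖ = 1 := by
    rw [← integral_rho hε]
    refine integral_congr_ae (Eventually.of_forall fun z => ?_)
    simp only [Complex.norm_real, Real.norm_eq_abs]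
    exact abs_of_nonneg (rho_nonneg ε z)
  rw [h2, one_pow, one_mul] at h1
  have h3 : (fun x (ω : ℂ × Ω) => ((mol ε f x ω : ℝ) : ℂ)) = kcv (fun z => (rho ε z : ℂ)) f := by
    funext x ω
    exact mol_eq_kcv ε f x ω
  rw [h3]
  exact h1

/-- the constant for gradients of mollifications -/
lemma nrm_grd_le : ∃ C : ℝ, 0 < C ∧ ∀ (m : Measure Ω) [IsProbabilityMeasure m] (ε : ℝ), 0 < ε →
    ∀ f : ℂ → ℂ × Ω → ℝ, BddSupp f →
    T.nrm m (grd ε f) ≤ (C / ε) ^ 2 * ∫ ω, (∫ y, f y ω ^ 2) ∂(nu.prod m) := by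
  obtain ⟨C, hC0, hC⟩ := exists_kap_bound
  refine ⟨C, hC0, fun m _ ε hε f hf => ?_⟩
  have h1 := T.nrm_kcv_le m (continuous_kap ε) (hasCompactSupport_kap hε) hf
  rw [grd_eq_kcv]
  refine h1.trans ?_
  apply mul_le_mul_of_nonneg_right
  · exact pow_le_pow_left₀ (integral_nonneg fun z => norm_nonneg _) (hC ε hε) 2
  · exact integral_nonneg fun ω => integral_nonneg fun y => sq_nonneg _

lemma measurePreserving_reflProd [IsProbabilityMeasure m] (i : Fin 3) :
    MeasurePreserving (fun ω : ℂ × Ω => (T.refl i ω.1, ω.2)) (nu.prod m) (nu.prod m) :=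
  (T.measurePreserving_refl i).prod (MeasurePreserving.id m)

/-- squares of sections of bounded functions, integrated over the table -/
lemma measurable_tabInt [IsProbabilityMeasure m] {f : ℂ → ℂ × Ω → ℝ} (hf : Bdd f) :
    Measurable fun ω : ℂ × Ω => ∫ x in T.table, f x ω ^ 2 := by
  have h1 : StronglyMeasurable (Function.uncurry fun (ω : ℂ × Ω) (y : ℂ) => f y ω ^ 2) :=
    ((hf.1.comp (measurable_snd.prodMk measurable_fst)).pow_const 2).stronglyMeasurable
  exact h1.integral_prod_right.measurable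

lemma integrableOn_sq {f : ℂ → ℂ × Ω → ℝ} (hf : Bdd f) (ω : ℂ × Ω) :
    IntegrableOn (fun x => f x ω ^ 2) T.table := by
  obtain ⟨C, hC⟩ := hf.2
  refine Integrable.of_bound ((hf.section ω).pow_const 2).aestronglyMeasurable (C ^ 2)
    (Eventually.of_forall fun y => ?_)
  rw [Real.norm_eq_abs, abs_pow]
  exact pow_le_pow_left₀ (abs_nonneg _) (hC y ω) 2

lemma integrable_tabInt [IsProbabilityMeasure m] {f : ℂ → ℂ × Ω → ℝ} (hf : Bdd f) :
    Integrable (fun ω : ℂ × Ω => ∫ x in T.table, f x ω ^ 2) (nu.prod m) := by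
  obtain ⟨C, hC⟩ := hf.2
  refine Integrable.of_bound (T.measurable_tabInt m hf).aestronglyMeasurable
    (C ^ 2 * volume.real T.table) (Eventually.of_forall fun ω => ?_)
  rw [Real.norm_eq_abs, abs_of_nonneg (integral_nonneg fun y => sq_nonneg _)]
  have h1 : ∫ _x in T.table, C ^ 2 = C ^ 2 * volume.real T.table := by
    rw [setIntegral_const, smul_eq_mul, mul_comm]
  rw [← h1]
  refine setIntegral_mono (T.integrableOn_sq hf ω) (integrableOn_const
    T.volume_table_lt_top.ne (by simp)) fun y => ?_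
  simp only
  rw [← sq_abs]
  exact pow_le_pow_left₀ (abs_nonneg _) (hC y ω) 2

/-- the squared norm with the integrals interchanged -/
lemma nrm_eq_swap [IsProbabilityMeasure m] {f : ℂ → ℂ × Ω → ℝ} (hf : Bdd f) :
    T.nrm m (fun x ω => (f x ω : ℂ)) = ∫ ω, (∫ x in T.table, f x ω ^ 2) ∂(nu.prod m) := by
  obtain ⟨C, hC⟩ := hf.2
  have hm : Measurable fun p : ℂ × (ℂ × Ω) => (f p.1 p.2 : ℂ) :=
    Complex.measurable_ofReal.comp hf.1
  have hb : ∀ x ω, ‖(f x ω : ℂ)‖ ≤ C := by
    intro x ω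
    rw [Complex.norm_real, Real.norm_eq_abs]
    exact hC x ω
  have hi := T.integrable_sq m (F := fun x ω => (f x ω : ℂ)) hm hb
  rw [T.nrm_eq_prod m (F := fun x ω => (f x ω : ℂ)) hm hb]
  unfold muT at hi ⊢
  rw [integral_prod_symm _ hi]
  refine integral_congr_ae (Eventually.of_forall fun ω => ?_)
  simp only
  refine integral_congr_ae (Eventually.of_forall fun x => ?_)
  simp only [Complex.norm_real, Real.norm_eq_abs, sq_abs]

/-- the extension by reflections is bounded in `L²` -/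
lemma int_ext_sq_le [IsProbabilityMeasure m] {f : ℂ → ℂ × Ω → ℝ} (hf : Bdd f) :
    ∫ ω, (∫ y, T.ext f y ω ^ 2) ∂(nu.prod m) ≤ 16 * T.nrm m (fun x ω => (f x ω : ℂ)) := by
  have hfr : ∀ i, Bdd (fun y (ω : ℂ × Ω) => f y (T.refl i ω.1, ω.2)) := by
    intro i
    obtain ⟨h1, C, hC⟩ := hf
    refine ⟨?_, C, fun y ω => hC _ _⟩
    exact h1.comp (measurable_fst.prodMk
      (((T.continuous_refl i).measurable.comp (measurable_fst.comp measurable_snd)).prodMk
        (measurable_snd.comp measurable_snd)))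
  -- the four pieces
  have e0 : ∀ ω, ∫ y, T.table.indicator (fun y => f y ω) y ^ 2 = ∫ y in T.table, f y ω ^ 2 := by
    intro ω
    rw [← integral_indicator T.measurableSet_table]
    refine integral_congr_ae (Eventually.of_forall fun y => ?_)
    by_cases hy : y ∈ T.table
    · simp only [indicator_of_mem hy]
    · simp only [indicator_of_notMem hy]
      simp
  have ei : ∀ (i : Fin 3) (ω : ℂ × Ω), ∫ y, (T.R i ⁻¹' T.table).indicator
      (fun y => f (T.R i y) (T.refl i ω.1, ω.2)) y ^ 2 =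
      ∫ y in T.table, f y (T.refl i ω.1, ω.2) ^ 2 := by
    intro i ω
    rw [← e0 (T.refl i ω.1, ω.2)]
    rw [← integral_comp_mp (T.measurePreserving_R i) (g := fun y =>
      T.table.indicator (fun y => f y (T.refl i ω.1, ω.2)) y ^ 2)
      (((hf.section _).indicator T.measurableSet_table).pow_const 2)]
    rfl
  have si : ∀ i : Fin 3, ∫ ω : ℂ × Ω, (∫ y in T.table, f y (T.refl i ω.1, ω.2) ^ 2) ∂(nu.prod m) =
      T.nrm m (fun x ω => (f x ω : ℂ)) := by
    intro i
    rw [T.nrm_eq_swap m hf]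
    exact integral_comp_mp (T.measurePreserving_reflProd m i) (g := fun ω : ℂ × Ω =>
      ∫ x in T.table, f x ω ^ 2) (T.measurable_tabInt m hf)
  have s0 : ∫ ω, (∫ y in T.table, f y ω ^ 2) ∂(nu.prod m) =
      T.nrm m (fun x ω => (f x ω : ℂ)) := (T.nrm_eq_swap m hf).symm
  -- integrability of the pieces
  have b0 := hf.bddSupp_indicator T.measurableSet_table T.isBounded_table
  have bi : ∀ i, BddSupp (fun y (ω : ℂ × Ω) => (T.R i ⁻¹' T.table).indicator
      (fun y => f (T.R i y) (T.refl i ω.1, ω.2)) y) := fun i =>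
    (T.bdd_refl hf i).bddSupp_indicator (T.measurableSet_R_table i) (T.isBounded_R_table i)
  have q0 := fun ω => (b0.sq).integrable ω
  have qi := fun i ω => ((bi i).sq).integrable ω
  have hpt : ∀ ω : ℂ × Ω, ∫ y, T.ext f y ω ^ 2 ≤ 4 * ((∫ y in T.table, f y ω ^ 2) +
      (∫ y in T.table, f y (T.refl 0 ω.1, ω.2) ^ 2) +
      (∫ y in T.table, f y (T.refl 1 ω.1, ω.2) ^ 2) +
      (∫ y in T.table, f y (T.refl 2 ω.1, ω.2) ^ 2)) := by
    intro ω
    rw [← e0 ω, ← ei 0 ω, ← ei 1 ω, ← ei 2 ω]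
    rw [← integral_add4 (q0 ω) (qi 0 ω) (qi 1 ω) (qi 2 ω), ← integral_const_mul]
    refine integral_mono ((hf.ext T).sq.integrable ω)
      ((integrable_add4 (q0 ω) (qi 0 ω) (qi 1 ω) (qi 2 ω)).const_mul 4) fun y => ?_
    simp only
    rw [T.ext_eq]
    set a := T.table.indicator (fun y => f y ω) y
    set b := (T.R 0 ⁻¹' T.table).indicator (fun y => f (T.R 0 y) (T.refl 0 ω.1, ω.2)) y
    set c := (T.R 1 ⁻¹' T.table).indicator (fun y => f (T.R 1 y) (T.refl 1 ω.1, ω.2)) y
    set d := (T.R 2 ⁻¹' T.table).indicator (fun y => f (T.R 2 y) (T.refl 2 ω.1, ω.2)) y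
    linarith only [sq_nonneg (c - d), sq_nonneg (b - d), sq_nonneg (b - c), sq_nonneg (a - d), sq_nonneg (a - c), sq_nonneg (a - b)]
  have r0 := T.integrable_tabInt m hf
  have ri := fun i => T.integrable_tabInt m (hfr i)
  calc ∫ ω, (∫ y, T.ext f y ω ^ 2) ∂(nu.prod m) ≤
      ∫ ω : ℂ × Ω, 4 * ((∫ y in T.table, f y ω ^ 2) +
      (∫ y in T.table, f y (T.refl 0 ω.1, ω.2) ^ 2) +
      (∫ y in T.table, f y (T.refl 1 ω.1, ω.2) ^ 2) +
      (∫ y in T.table, f y (T.refl 2 ω.1, ω.2) ^ 2)) ∂(nu.prod m) := by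
        refine integral_mono_of_nonneg (Eventually.of_forall fun ω =>
          integral_nonneg fun y => sq_nonneg _)
          ((integrable_add4 r0 (ri 0) (ri 1) (ri 2)).const_mul 4)
          (Eventually.of_forall hpt)
    _ = 16 * T.nrm m (fun x ω => (f x ω : ℂ)) := by
        rw [integral_const_mul, integral_add4 r0 (ri 0) (ri 1) (ri 2), si 0, si 1, si 2, s0]
        ring

end Triangle

end Vale.Agent.P099
end
end

section

section

open MeasureTheory Set Filter Topology

set_option linter.unusedSectionVars false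

namespace Vale.Agent.P099

variable {Ω : Type} [MeasurableSpace Ω]

namespace Triangle

variable (T : Triangle) (m : Measure Ω)

lemma nrm_neg (F : ℂ → ℂ × Ω → ℂ) : T.nrm m (fun x ω => - F x ω) = T.nrm m F := by
  unfold nrm
  simp only [norm_neg]

lemma nrm_const_mul (c : ℂ) (F : ℂ → ℂ × Ω → ℂ) :
    T.nrm m (fun x ω => c * F x ω) = ‖c‖ ^ 2 * T.nrm m F := by
  unfold nrm
  simp only [norm_mul, mul_pow, integral_const_mul]

/-- mollifications converge in `L²` over the table -/
lemma tendsto_nrm_mol [IsProbabilityMeasure m] {f : ℂ → ℂ × Ω → ℝ} (hf : Bdd f) :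
    Tendsto (fun ε : ℝ => T.nrm m (fun x ω => ((mol ε f x ω - f x ω : ℝ) : ℂ))) (𝓝[>] 0)
      (𝓝 0) := by
  obtain ⟨C, hC⟩ := hf.2
  have hC0 : ∀ x ω, 0 ≤ C := fun x ω => (abs_nonneg _).trans (hC x ω)
  have hsub : ∀ ε : ℝ, 0 < ε → Bdd (fun x (ω : ℂ × Ω) => mol ε f x ω - f x ω) := fun ε hε =>
    (hf.mol hε).sub hf
  have hb : ∀ ε : ℝ, 0 < ε → ∀ x ω, (mol ε f x ω - f x ω) ^ 2 ≤ (2 * C) ^ 2 := by
    intro ε hε x ω
    rw [← sq_abs]
    refine pow_le_pow_left₀ (abs_nonneg _) ?_ 2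
    calc |mol ε f x ω - f x ω| ≤ |mol ε f x ω| + |f x ω| := abs_sub _ _
      _ ≤ C + C := add_le_add (abs_mol_le hε hC x ω) (hC x ω)
      _ = 2 * C := by ring
  have h1 : Tendsto (fun ε : ℝ => ∫ ω, (∫ x in T.table, (mol ε f x ω - f x ω) ^ 2) ∂(nu.prod m))
      (𝓝[>] 0) (𝓝 (∫ _ω : ℂ × Ω, (0 : ℝ) ∂(nu.prod m))) := by
    refine tendsto_integral_filter_of_dominated_convergence
      (fun _ => (2 * C) ^ 2 * volume.real T.table) ?_ ?_ (integrable_const _) ?_
    · filter_upwards [self_mem_nhdsWithin] with ε hε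
      exact (T.measurable_tabInt m (hsub ε hε)).aestronglyMeasurable
    · filter_upwards [self_mem_nhdsWithin] with ε hε
      refine Eventually.of_forall fun ω => ?_
      rw [Real.norm_eq_abs, abs_of_nonneg (integral_nonneg fun y => sq_nonneg _)]
      have h1 : ∫ _x in T.table, (2 * C) ^ 2 = (2 * C) ^ 2 * volume.real T.table := by
        rw [setIntegral_const, smul_eq_mul, mul_comm]
      rw [← h1]
      exact setIntegral_mono (T.integrableOn_sq (hsub ε hε) ω) (integrable_const _)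
        fun y => hb ε hε y ω
    · refine Eventually.of_forall fun ω => ?_
      have h2 : Tendsto (fun ε : ℝ => ∫ x in T.table, (mol ε f x ω - f x ω) ^ 2)
          (𝓝[>] 0) (𝓝 (∫ _x in T.table, (0 : ℝ))) := by
        refine tendsto_integral_filter_of_dominated_convergence
          (fun _ => (2 * C) ^ 2) ?_ ?_ (integrable_const _) ?_
        · filter_upwards [self_mem_nhdsWithin] with ε hε
          exact (((hsub ε hε).section ω).pow_const 2).aestronglyMeasurable
        · filter_upwards [self_mem_nhdsWithin] with ε hε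
          refine Eventually.of_forall fun x => ?_
          rw [Real.norm_eq_abs, abs_of_nonneg (sq_nonneg _)]
          exact hb ε hε x ω
        · have h3 := ae_tendsto_mol1 (hf.locallyIntegrable ω)
          filter_upwards [ae_restrict_of_ae h3] with x hx
          have h4 : Tendsto (fun ε : ℝ => mol ε f x ω - f x ω) (𝓝[>] 0) (𝓝 (f x ω - f x ω)) :=
            hx.sub_const _
          rw [sub_self] at h4
          have h5 := h4.pow 2
          simpa only [ne_eq, OfNat.ofNat_ne_zero, not_false_eq_true, zero_pow] using h5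
      simpa only [integral_zero] using h2
  rw [integral_zero] at h1
  refine h1.congr' ?_
  filter_upwards [self_mem_nhdsWithin] with ε hε
  exact (T.nrm_eq_swap m (hsub ε hε)).symm

/-- mollifications of the extension converge in `L²` over the table -/
lemma tendsto_nrm_mol_ext [IsProbabilityMeasure m] {f : ℂ → ℂ × Ω → ℝ} (hf : Bdd f) :
    Tendsto (fun ε : ℝ => T.nrm m (fun x ω => ((mol ε (T.ext f) x ω - f x ω : ℝ) : ℂ)))
      (𝓝[>] 0) (𝓝 0) := by
  refine (T.tendsto_nrm_mol m (hf.ext T).1).congr fun ε => ?_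
  refine T.nrm_congr m fun x hx ω => ?_
  rw [T.ext_of_mem_table f hx]

/-- the part of the table away from the boundary -/
def core (r : ℝ) : Set ℂ := {x | ∀ i, r ≤ T.lam i x}

lemma continuous_lamY (i : Fin 3) : Continuous (T.lam i) := by
  have h : T.lam i = fun x => T.lam i 0 + T.ell i x := by
    funext x
    rw [← T.lam_add, zero_add]
  rw [h]
  unfold ell cr
  fun_prop

lemma measurableSet_core (r : ℝ) : MeasurableSet (T.core r) := by
  have h : T.core r = ⋂ i, (T.lam i) ⁻¹' (Ici r) := by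
    ext x
    simp only [core, mem_ofPred_eq, mem_iInter, mem_preimage, mem_Ici]
  rw [h]
  exact MeasurableSet.iInter fun i => (T.continuous_lamY i).measurable measurableSet_Ici

lemma core_subset {r : ℝ} (hr : 0 < r) : T.core r ⊆ T.table := fun x hx =>
  (T.mem_table_iff x).2 fun i => hr.trans_le (hx i)

/-- the complement of the core is small -/
lemma exists_core {δ : ℝ} (hδ : 0 < δ) : ∃ r : ℝ, 0 < r ∧ volume.real (T.table \ T.core r) ≤ δ := by
  have h1 : Tendsto (fun n : ℕ => volume (T.table \ T.core (1 / ((n : ℝ) + 1)))) atTop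
      (𝓝 (volume (⋂ n : ℕ, (T.table \ T.core (1 / ((n : ℝ) + 1)))))) := by
    apply tendsto_measure_iInter_atTop
    · intro n
      exact (T.measurableSet_table.diff (T.measurableSet_core _)).nullMeasurableSet
    · intro a b hab x hx
      refine ⟨hx.1, fun h => hx.2 fun i => ?_⟩
      refine le_trans ?_ (h i)
      apply one_div_le_one_div_of_le (by positivity)
      have : (a : ℝ) ≤ b := by exact_mod_cast hab
      linarith only [this]
    · exact ⟨0, ne_top_of_le_ne_top T.volume_table_lt_top.ne (measure_mono sdiff_subset)⟩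
  have h2 : (⋂ n : ℕ, (T.table \ T.core (1 / ((n : ℝ) + 1)))) = ∅ := by
    apply Set.eq_empty_iff_forall_notMem.2
    intro x hx
    rw [mem_iInter] at hx
    have hxt := (hx 0).1
    have hpos := (T.mem_table_iff x).1 hxt
    obtain ⟨n0, hn0⟩ := exists_nat_one_div_lt (hpos 0)
    obtain ⟨n1, hn1⟩ := exists_nat_one_div_lt (hpos 1)
    obtain ⟨n2, hn2⟩ := exists_nat_one_div_lt (hpos 2)
    apply (hx (max n0 (max n1 n2))).2
    have hm : ∀ k : ℕ, k ≤ max n0 (max n1 n2) →
        1 / (((max n0 (max n1 n2) : ℕ) : ℝ) + 1) ≤ 1 / ((k : ℝ) + 1) := by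
      intro k hk
      apply one_div_le_one_div_of_le (by (clear * -; positivity))
      have : (k : ℝ) ≤ ((max n0 (max n1 n2) : ℕ) : ℝ) := by exact_mod_cast hk
      linarith only [this]
    intro i
    match i with
    | 0 => exact (hm n0 (le_max_left _ _)).trans hn0.le
    | 1 => exact (hm n1 ((le_max_left _ _).trans (le_max_right _ _))).trans hn1.le
    | 2 => exact (hm n2 ((le_max_right _ _).trans (le_max_right _ _))).trans hn2.le
  rw [h2, measure_empty] at h1
  have h3 : ∀ᶠ n : ℕ in atTop, volume (T.table \ T.core (1 / ((n : ℝ) + 1))) < ENNReal.ofReal δ :=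
    h1.eventually (gt_mem_nhds (ENNReal.ofReal_pos.2 hδ))
  obtain ⟨n, hn⟩ := h3.exists
  refine ⟨1 / ((n : ℝ) + 1), by (clear * -; positivity), ?_⟩
  have h4 := ENNReal.toReal_mono ENNReal.ofReal_ne_top hn.le
  rwa [ENNReal.toReal_ofReal hδ.le] at h4

end Triangle

/-- mollifications of bounded functions with bounded support are Lipschitz -/
lemma mol_lip {ε : ℝ} (hε : 0 < ε) {f : ℂ → ℂ × Ω → ℝ} (hf : BddSupp f) :
    ∃ L : ℝ, 0 < L ∧ ∀ x y ω, |mol ε f x ω - mol ε f y ω| ≤ L * ‖x - y‖ := by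
  obtain ⟨hb, r, hr⟩ := hf
  obtain ⟨C, hC⟩ := hb.2
  obtain ⟨K, hK⟩ := (rho_contDiff ε).lipschitzWith_of_hasCompactSupport
    (hasCompactSupport_rho hε) (by simp)
  have hfb : IsFiniteMeasure (volume.restrict (Metric.closedBall (0 : ℂ) r)) :=
    ⟨by rw [Measure.restrict_apply_univ]; exact measure_closedBall_lt_top⟩
  have hk : ∀ x : ℂ, Integrable fun y => rho ε (x - y) := fun x =>
    (((rho_contDiff ε).continuous.integrable_of_hasCompactSupport
      (hasCompactSupport_rho hε))).comp_sub_left x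
  refine ⟨K * |C| * volume.real (Metric.closedBall (0 : ℂ) r) + 1, by (clear * -; positivity),
    fun x y ω => ?_⟩
  have hi : ∀ x : ℂ, Integrable fun z => rho ε (x - z) * f z ω := fun x =>
    (hk x).mul_bdd (c := C) (hb.section ω).aestronglyMeasurable
      (Eventually.of_forall fun y => hC y ω)
  have h1 : mol ε f x ω - mol ε f y ω = ∫ z, (rho ε (x - z) - rho ε (y - z)) * f z ω := by
    unfold mol
    rw [← integral_sub (hi x) (hi y)]
    refine integral_congr_ae (Eventually.of_forall fun z => ?_)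
    simp only
    ring
  have h2 : ∫ z, (rho ε (x - z) - rho ε (y - z)) * f z ω =
      ∫ z in Metric.closedBall (0 : ℂ) r, (rho ε (x - z) - rho ε (y - z)) * f z ω := by
    rw [setIntegral_eq_integral_of_forall_compl_eq_zero]
    intro z hz
    rw [Metric.mem_closedBall, dist_zero_right, not_le] at hz
    rw [hr z ω hz.le, mul_zero]
  have h3 : ∀ z, ‖(rho ε (x - z) - rho ε (y - z)) * f z ω‖ ≤ K * ‖x - y‖ * |C| := by
    intro z
    rw [norm_mul]
    apply mul_le_mul _ ((hC z ω).trans (le_abs_self _)) (abs_nonneg _) (by (clear * -; positivity))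
    have h4 := hK.dist_le_mul (x - z) (y - z)
    rw [dist_eq_norm, dist_eq_norm, sub_sub_sub_cancel_right] at h4
    exact h4
  have h5 : |mol ε f x ω - mol ε f y ω| ≤
      K * ‖x - y‖ * |C| * volume.real (Metric.closedBall (0 : ℂ) r) := by
    rw [h1, h2, ← Real.norm_eq_abs]
    exact norm_setIntegral_le_of_norm_le_const measure_closedBall_lt_top fun z _ => h3 z
  refine h5.trans ?_
  linarith only [norm_nonneg (x - y)]

namespace Triangle

variable (T : Triangle) (m : Measure Ω)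

/-- approximation by functions which are Lipschitz in the position and vanish near the boundary -/
lemma exists_lip [IsProbabilityMeasure m] {U : ℂ → ℂ × Ω → ℝ} (hU : Bdd U) {C : ℝ}
    (hC : ∀ x ω, |U x ω| ≤ C) {τ : ℝ} (hτ : 0 < τ) :
    ∃ Φ : ℂ → ℂ × Ω → ℝ, BddSupp Φ ∧ (∀ x ω, |Φ x ω| ≤ C) ∧
      (∃ L : ℝ, 0 < L ∧ ∀ x y ω, |Φ x ω - Φ y ω| ≤ L * ‖x - y‖) ∧
      (∃ r : ℝ, 0 < r ∧ ∀ x ω i, T.lam i x ≤ r → Φ x ω = 0) ∧
      T.nrm m (fun x ω => ((U x ω - Φ x ω : ℝ) : ℂ)) ≤ τ := by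
  by_cases hne : Nonempty Ω
  swap
  · have hemp : IsEmpty Ω := not_nonempty_iff.1 hne
    exfalso
    have h1 : m univ = 0 := by
      rw [Set.univ_eq_empty_iff.2 hemp, measure_empty]
    rw [measure_univ] at h1
    exact one_ne_zero h1
  have hC0 : 0 ≤ C := (abs_nonneg _).trans (hC 0 (0, hne.some))
  -- choose the core
  obtain ⟨s, hs0, hs⟩ := T.exists_core (δ := τ / (4 * (C ^ 2 + 1))) (by positivity)
  set K := T.core s with hK
  have hKt : K ⊆ T.table := T.core_subset hs0
  set f : ℂ → ℂ × Ω → ℝ := fun x ω => K.indicator (fun y => U y ω) x with hf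
  have hfb : BddSupp f := hU.bddSupp_indicator (T.measurableSet_core s)
    (T.isBounded_table.subset hKt)
  have hfC : ∀ x ω, |f x ω| ≤ C := by
    intro x ω
    simp only [hf]
    by_cases hx : x ∈ K
    · rw [indicator_of_mem hx]
      exact hC x ω
    · rw [indicator_of_notMem hx, abs_zero]
      exact hC0
  -- first term
  have hd1 : Bdd (fun x (ω : ℂ × Ω) => U x ω - f x ω) := hU.sub hfb.1
  have t1 : T.nrm m (fun x ω => ((U x ω - f x ω : ℝ) : ℂ)) ≤ τ / 4 := by
    rw [T.nrm_eq_swap m hd1]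
    have h1 : ∀ ω, ∫ x in T.table, (U x ω - f x ω) ^ 2 ≤ C ^ 2 * volume.real (T.table \ K) := by
      intro ω
      have h2 : ∫ x in T.table, (U x ω - f x ω) ^ 2 =
          ∫ x in T.table \ K, (U x ω - f x ω) ^ 2 := by
        rw [← integral_indicator T.measurableSet_table,
          ← integral_indicator (T.measurableSet_table.diff (T.measurableSet_core s))]
        refine integral_congr_ae (Eventually.of_forall fun x => ?_)
        by_cases hx : x ∈ T.table
        · by_cases hxK : x ∈ K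
          · rw [indicator_of_mem hx, indicator_of_notMem (fun h => h.2 hxK)]
            simp only [hf]
            rw [indicator_of_mem hxK]
            simp
          · rw [indicator_of_mem hx, indicator_of_mem (show x ∈ T.table \ K from ⟨hx, hxK⟩)]
        · rw [indicator_of_notMem hx, indicator_of_notMem (fun h => hx h.1)]
      rw [h2]
      have h3 : ∫ x in T.table \ K, (U x ω - f x ω) ^ 2 ≤ ∫ _x in T.table \ K, C ^ 2 := by
        refine setIntegral_mono_on ((T.integrableOn_sq hd1 ω).mono_set sdiff_subset)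
          (integrableOn_const ?_ (by simp)) (T.measurableSet_table.diff (T.measurableSet_core s)) ?_
        · exact ne_top_of_le_ne_top T.volume_table_lt_top.ne (measure_mono sdiff_subset)
        · intro x hx
          simp only [hf]
          rw [indicator_of_notMem hx.2, sub_zero, ← sq_abs]
          exact pow_le_pow_left₀ (abs_nonneg _) (hC x ω) 2
      refine h3.trans ?_
      rw [setIntegral_const, smul_eq_mul, mul_comm]
    have h4 : ∫ ω, (∫ x in T.table, (U x ω - f x ω) ^ 2) ∂(nu.prod m) ≤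
        ∫ _ω : ℂ × Ω, C ^ 2 * volume.real (T.table \ K) ∂(nu.prod m) :=
      integral_mono (T.integrable_tabInt m hd1) (integrable_const _) h1
    refine h4.trans ?_
    rw [integral_const, smul_eq_mul, probReal_univ, one_mul]
    calc C ^ 2 * volume.real (T.table \ K) ≤ C ^ 2 * (τ / (4 * (C ^ 2 + 1))) := by (clear * - hs; gcongr)
      _ ≤ τ / 4 := by
          rw [mul_div_assoc', div_le_div_iff₀ (by (clear * -; positivity)) (by norm_num)]
          linarith only [hτ]
  -- second term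
  have h2 := T.tendsto_nrm_mol m hfb.1
  have h3 : ∀ᶠ ε : ℝ in 𝓝[>] 0,
      T.nrm m (fun x ω => ((mol ε f x ω - f x ω : ℝ) : ℂ)) < τ / 4 :=
    h2.eventually (gt_mem_nhds (by positivity))
  have hLp := T.Lp_pos
  have h4 : ∀ᶠ ε : ℝ in 𝓝[>] 0, ε < s / (2 * T.Lp) := by
    apply mem_nhdsWithin_of_mem_nhds
    exact gt_mem_nhds (by (clear * - hs0 hLp; positivity))
  obtain ⟨δ, ⟨hδ1, hδ2⟩, hδ0⟩ := ((h3.and h4).and self_mem_nhdsWithin).exists
  have hδ0 : 0 < δ := hδ0
  refine ⟨mol δ f, hfb.mol hδ0, fun x ω => abs_mol_le hδ0 hfC x ω, mol_lip hδ0 hfb,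
    ⟨s / 2, by positivity, fun x ω i hx => ?_⟩, ?_⟩
  · unfold mol
    have h5 : ∀ y, rho δ (x - y) * f y ω = 0 := by
      intro y
      by_cases hy : y ∈ K
      · rw [rho_eq_zero hδ0, zero_mul]
        by_contra hlt
        rw [not_le] at hlt
        have h6 : T.lam i y = T.lam i x + T.ell i (y - x) := by
          rw [← T.lam_add, add_sub_cancel]
        have h7 := T.abs_ell_le i (y - x)
        rw [norm_sub_rev] at h7
        have h8 : T.Lp * ‖x - y‖ < s / 2 := by
          calc T.Lp * ‖x - y‖ < T.Lp * δ := by (clear * - hlt hLp; gcongr)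
            _ < T.Lp * (s / (2 * T.Lp)) := by (clear * - hδ2 hLp; gcongr)
            _ = s / 2 := by (clear * - hLp hs0; field_simp)
        have h9 : s ≤ T.lam i y := hy i
        have h10 := le_abs_self (T.ell i (y - x))
        linarith only [hx, h6, h7, h8, h9, h10]
      · simp only [hf]
        rw [indicator_of_notMem hy, mul_zero]
    simp only [h5, integral_zero]
  · have hd2 : Bdd (fun x (ω : ℂ × Ω) => mol δ f x ω - f x ω) := (hfb.1.mol hδ0).sub hfb.1
    obtain ⟨m1, C1, hC1⟩ := hd1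
    obtain ⟨m2, C2, hC2⟩ := hd2
    have h5 := T.nrm_add_le m (F := fun x ω => ((U x ω - f x ω : ℝ) : ℂ))
      (G := fun x ω => - ((mol δ f x ω - f x ω : ℝ) : ℂ))
      (Complex.measurable_ofReal.comp m1) (Complex.measurable_ofReal.comp m2).neg
      (C := C1) (D := C2)
      (fun x ω => by rw [Complex.norm_real, Real.norm_eq_abs]; exact hC1 x ω)
      (fun x ω => by rw [norm_neg, Complex.norm_real, Real.norm_eq_abs]; exact hC2 x ω)
    rw [T.nrm_neg] at h5
    have h6 : (fun x (ω : ℂ × Ω) => ((U x ω - f x ω : ℝ) : ℂ) +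
        - ((mol δ f x ω - f x ω : ℝ) : ℂ)) =
        fun x (ω : ℂ × Ω) => ((U x ω - mol δ f x ω : ℝ) : ℂ) := by
      funext x ω
      push_cast
      ring
    rw [h6] at h5
    linarith only [h5, hδ1, t1]

/-- the phase space without parameter -/
lemma measurePreserving_muT [IsProbabilityMeasure m] :
    MeasurePreserving (fun p : ℂ × (ℂ × Ω) => (p.1, p.2.1)) (T.muT m)
      ((volume.restrict T.table).prod nu) := by
  unfold muT
  exact (MeasurePreserving.id _).prod measurePreserving_fst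

/-- the effect of a cut-off -/
lemma nrm_cut_le [IsProbabilityMeasure m] {χ : ℂ × ℂ → ℝ} (hχ : Measurable χ)
    (hχ1 : ∀ p, 0 ≤ χ p ∧ χ p ≤ 1) {U : ℂ → ℂ × Ω → ℝ} (hU : Bdd U) {C : ℝ}
    (hC : ∀ x ω, |U x ω| ≤ C) {S : Set (ℂ × ℂ)} (hS : MeasurableSet S)
    (hχS : ∀ p, p ∉ S → χ p = 1) :
    T.nrm m (fun x ω => ((χ (x, ω.1) * U x ω - U x ω : ℝ) : ℂ)) ≤
      C ^ 2 * ((volume.restrict T.table).prod nu).real S := by
  have hχm : Measurable (fun p : ℂ × (ℂ × Ω) => χ (p.1, p.2.1)) :=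
    hχ.comp (measurable_fst.prodMk (measurable_fst.comp measurable_snd))
  have hm : Measurable (fun p : ℂ × (ℂ × Ω) => ((χ (p.1, p.2.1) * U p.1 p.2 - U p.1 p.2 : ℝ) : ℂ)) :=
    Complex.measurable_ofReal.comp ((hχm.mul hU.1).sub hU.1)
  have hpt : ∀ x (ω : ℂ × Ω), |χ (x, ω.1) * U x ω - U x ω| ≤ |U x ω| := by
    intro x ω
    have h1 : χ (x, ω.1) * U x ω - U x ω = (χ (x, ω.1) - 1) * U x ω := by ring
    rw [h1, abs_mul]
    obtain ⟨h2, h3⟩ := hχ1 (x, ω.1)
    have h4 : |χ (x, ω.1) - 1| ≤ 1 := by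
      rw [abs_le]
      constructor <;> linarith
    calc |χ (x, ω.1) - 1| * |U x ω| ≤ 1 * |U x ω| := by (clear * - h4; gcongr)
      _ = |U x ω| := one_mul _
  have hb : ∀ x (ω : ℂ × Ω), ‖((χ (x, ω.1) * U x ω - U x ω : ℝ) : ℂ)‖ ≤ C := by
    intro x ω
    rw [Complex.norm_real, Real.norm_eq_abs]
    exact (hpt x ω).trans (hC x ω)
  rw [T.nrm_eq_prod m (F := fun x ω => ((χ (x, ω.1) * U x ω - U x ω : ℝ) : ℂ)) hm hb]
  have h5 : ((volume.restrict T.table).prod nu).real S =
      (T.muT m).real ((fun p : ℂ × (ℂ × Ω) => (p.1, p.2.1)) ⁻¹' S) := by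
    unfold Measure.real
    rw [(T.measurePreserving_muT m).measure_preimage hS.nullMeasurableSet]
  set S' := (fun p : ℂ × (ℂ × Ω) => (p.1, p.2.1)) ⁻¹' S with hS'
  have hS'm : MeasurableSet S' := (T.measurePreserving_muT m).measurable hS
  rw [h5]
  have h6 : ∫ p, S'.indicator (fun _ => C ^ 2) p ∂(T.muT m) = C ^ 2 * (T.muT m).real S' := by
    rw [integral_indicator_const _ hS'm, smul_eq_mul, mul_comm]
  rw [← h6]
  refine integral_mono (T.integrable_sq m (F := fun x ω =>
    ((χ (x, ω.1) * U x ω - U x ω : ℝ) : ℂ)) hm hb)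
    ((integrable_const _).indicator hS'm) fun p => ?_
  simp only
  by_cases hp : p ∈ S'
  · rw [indicator_of_mem hp]
    exact pow_le_pow_left₀ (norm_nonneg _) (hb p.1 p.2) 2
  · rw [indicator_of_notMem hp, hχS (p.1, p.2.1) hp]
    simp

end Triangle

end Vale.Agent.P099
end
end

section

section

open MeasureTheory Set Filter Topology

namespace Vale.Agent.P099

variable {Ω : Type} [MeasurableSpace Ω]

namespace Triangle

variable (T : Triangle) (m : Measure Ω)

lemma bdd_chi' (N : ℕ) (δ η : ℝ) {U : ℂ → ℂ × Ω → ℝ} (hU : Bdd U) :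
    Bdd (fun x (ω : ℂ × Ω) => T.chi' N δ η (x, ω.1) * U x ω) := by
  apply Bdd.mul _ hU
  refine ⟨(T.measurable_chi' N δ η).comp (f := fun p : ℂ × (ℂ × Ω) => (p.1, p.2.1))
      (by fun_prop), 1, ?_⟩
  intro y ω
  rw [abs_of_nonneg (T.chi'_nonneg _ _ _ _)]
  exact T.chi'_le_one _ _ _ _

lemma bdd_wt (N : ℕ) {δ : ℝ} (hδ : 0 < δ) (η : ℝ) :
    Bdd (fun x (ω : ℂ × Ω) => T.wt N δ η (x, ω.1)) := by
  refine ⟨(T.measurable_wt N δ η).comp (f := fun p : ℂ × (ℂ × Ω) => (p.1, p.2.1))
      (by fun_prop), (sj δ N)⁻¹, ?_⟩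
  intro y ω
  rw [abs_of_nonneg (T.wt_nonneg N hδ η _)]
  exact T.wt_le N hδ η _

/-- the norm of a function of position and direction -/
lemma nrm_eq_nu [IsProbabilityMeasure m] {w : ℂ × ℂ → ℝ} (hw : Measurable w) {C : ℝ}
    (hC : ∀ p, |w p| ≤ C) :
    T.nrm m (fun x ω => ((w (x, ω.1) : ℝ) : ℂ)) =
      ∫ p, w p ^ 2 ∂((volume.restrict T.table).prod nu) := by
  rw [T.nrm_eq_prod m (F := fun x ω => ((w (x, ω.1) : ℝ) : ℂ)) (C := C)
    (Complex.measurable_ofReal.comp (hw.comp (f := fun p : ℂ × (ℂ × Ω) => (p.1, p.2.1))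
      (by fun_prop))) (fun x ω => by
        rw [Complex.norm_real, Real.norm_eq_abs]; exact hC _)]
  have h := (T.measurePreserving_muT m)
  rw [← h.map_eq, integral_map h.measurable.aemeasurable
    (hw.pow_const 2).aestronglyMeasurable]
  apply integral_congr_ae
  refine Eventually.of_forall fun p => ?_
  simp only [Complex.norm_real, Real.norm_eq_abs, sq_abs]

lemma nrm_const [IsProbabilityMeasure m] (c : ℝ) :
    T.nrm m (fun _ _ => (c : ℂ)) = c ^ 2 * volume.real T.table := by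
  unfold nrm
  simp [Complex.norm_real, mul_comm]

lemma ae_muT_norm [IsProbabilityMeasure m] : ∀ᵐ p ∂(T.muT m), ‖p.2.1‖ = 1 := by
  have h1 : ∀ᵐ q ∂((volume.restrict T.table).prod nu), ‖q.2‖ = 1 :=
    Measure.quasiMeasurePreserving_snd.ae ae_norm
  exact (T.measurePreserving_muT m).quasiMeasurePreserving.ae h1

lemma ae_muT_table : ∀ᵐ p ∂(T.muT m), p.1 ∈ T.table := by
  unfold muT
  exact Measure.quasiMeasurePreserving_fst.ae (ae_restrict_mem T.measurableSet_table)

/-- the weight in norm -/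
lemma nrm_wt_le [IsProbabilityMeasure m] (N : ℕ) {δ : ℝ} (hδ : 0 < δ) (η : ℝ) {B : ℝ}
    (hB : (∫ p, T.wt N δ η p ^ 2 ∂((volume.restrict T.table).prod nu)) ≤ B) :
    T.nrm m (fun x ω => ((T.wt N δ η (x, ω.1) : ℝ) : ℂ)) ≤ B := by
  rw [T.nrm_eq_nu m (T.measurable_wt N δ η) (C := (sj δ N)⁻¹) (fun p => by
    rw [abs_of_nonneg (T.wt_nonneg N hδ η _)]
    exact T.wt_le N hδ η _)]
  exact hB

/-- the regular part -/
lemma nrm_grd_reg [IsProbabilityMeasure m] {K : ℝ}
    (hK : ∀ ε : ℝ, 0 < ε → ∫ z, ‖kap ε z‖ ≤ K / ε)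
    {Φ : ℂ → ℂ × Ω → ℝ} (hΦb : Bdd Φ) {CU L r : ℝ} (hΦ : ∀ x ω, |Φ x ω| ≤ CU)
    (hL : ∀ x y ω, |Φ x ω - Φ y ω| ≤ L * ‖x - y‖) (hL0 : 0 ≤ L)
    (hr : ∀ x ω, (∃ i, T.lam i x < r) → Φ x ω = 0)
    {N : ℕ} {δ η ε B : ℝ} (hδ : 0 < δ) (hη : 0 < η) (hη1 : η ≤ 1) (hε : 0 < ε)
    (hε' : 4 * ε ≤ η * sj δ N) (hεr : T.Lp * ε < r)
    (hB : (∫ p, T.wt N δ η p ^ 2 ∂((volume.restrict T.table).prod nu)) ≤ B) :
    T.nrm m (grd ε (T.ext (fun x ω => T.chi' N δ η (x, ω.1) * Φ x ω))) ≤
      2 * (K * L) ^ 2 * volume.real T.table + 8 * K ^ 2 * CU ^ 2 / η ^ 2 * B := by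
  have hfb := T.bdd_chi' N δ η hΦb
  have hfe := T.bddSupp_ext hfb
  obtain ⟨C, hC⟩ := exists_norm_grd_le hε hfe.1
  have hm := measurable_grd ε hfe.1
  have hw := T.bdd_wt (Ω := Ω) N hδ η
  obtain ⟨D, hD⟩ := hw.2
  have hmono : T.nrm m (grd ε (T.ext (fun x ω => T.chi' N δ η (x, ω.1) * Φ x ω))) ≤
      T.nrm m (fun x ω => ((K * L : ℝ) : ℂ) +
        ((2 * K * CU / η : ℝ) : ℂ) * ((T.wt N δ η (x, ω.1) : ℝ) : ℂ)) := by
    refine T.nrm_mono m hm ?_ hC (D := |K * L| + |2 * K * CU / η| * D) ?_ ?_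
    · exact measurable_const.add (measurable_const.mul (Complex.measurable_ofReal.comp hw.1))
    · intro x ω
      refine (norm_add_le _ _).trans ?_
      rw [norm_mul, Complex.norm_real, Complex.norm_real, Complex.norm_real, Real.norm_eq_abs,
        Real.norm_eq_abs, Real.norm_eq_abs]
      gcongr
      exact hD x ω
    · filter_upwards [T.ae_muT_norm m, T.ae_muT_table m] with p hp1 hp2
      refine (T.grd_reg_est hK hΦb hΦ hL hL0 hr hδ hη hη1 hε hε' hεr hp2 hp1).trans ?_
      rw [← Complex.ofReal_mul, ← Complex.ofReal_add, Complex.norm_real, Real.norm_eq_abs]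
      exact le_abs_self _
  refine hmono.trans ?_
  refine (T.nrm_add_le m (F := fun _ _ => ((K * L : ℝ) : ℂ))
    (G := fun x ω => ((2 * K * CU / η : ℝ) : ℂ) * ((T.wt N δ η (x, ω.1) : ℝ) : ℂ))
    measurable_const (measurable_const.mul (Complex.measurable_ofReal.comp hw.1))
    (C := |K * L|) (D := |2 * K * CU / η| * D) (fun x ω => by
      rw [Complex.norm_real, Real.norm_eq_abs]) (fun x ω => by
      rw [norm_mul, Complex.norm_real, Complex.norm_real, Real.norm_eq_abs, Real.norm_eq_abs]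
      gcongr
      exact hD x ω)).trans ?_
  rw [T.nrm_const_mul m, T.nrm_const m, Complex.norm_real, Real.norm_eq_abs, sq_abs]
  have h1 := T.nrm_wt_le m N hδ η hB
  have h2 : (2 * K * CU / η) ^ 2 * T.nrm m (fun x ω => ((T.wt N δ η (x, ω.1) : ℝ) : ℂ)) ≤
      (2 * K * CU / η) ^ 2 * B := mul_le_mul_of_nonneg_left h1 (sq_nonneg _)
  have h3 : 2 * ((2 * K * CU / η) ^ 2 * B) = 8 * K ^ 2 * CU ^ 2 / η ^ 2 * B := by
    field_simp; ring
  linarith only [h2, h3]

/-- the gradient of the mollified cut-off function, in norm -/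
lemma nrm_grd_est [IsProbabilityMeasure m] {K : ℝ}
    (hK : ∀ ε : ℝ, 0 < ε → ∫ z, ‖kap ε z‖ ≤ K / ε) {K2 : ℝ}
    (hK2 : ∀ (ε : ℝ), 0 < ε → ∀ f : ℂ → ℂ × Ω → ℝ, BddSupp f →
      T.nrm m (grd ε f) ≤ (K2 / ε) ^ 2 * ∫ ω, (∫ y, f y ω ^ 2) ∂(nu.prod m))
    {U : ℂ → ℂ × Ω → ℝ} (hU : Bdd U)
    {Φ : ℂ → ℂ × Ω → ℝ} (hΦb : Bdd Φ) {CU L r τ : ℝ} (hΦ : ∀ x ω, |Φ x ω| ≤ CU)
    (hL : ∀ x y ω, |Φ x ω - Φ y ω| ≤ L * ‖x - y‖) (hL0 : 0 ≤ L)
    (hr : ∀ x ω, (∃ i, T.lam i x < r) → Φ x ω = 0)
    (hτ : T.nrm m (fun x ω => ((U x ω - Φ x ω : ℝ) : ℂ)) ≤ τ)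
    {N : ℕ} {δ η ε B : ℝ} (hδ : 0 < δ) (hη : 0 < η) (hη1 : η ≤ 1) (hε : 0 < ε)
    (hε' : 4 * ε ≤ η * sj δ N) (hεr : T.Lp * ε < r)
    (hB : (∫ p, T.wt N δ η p ^ 2 ∂((volume.restrict T.table).prod nu)) ≤ B) :
    T.nrm m (grd ε (T.ext (fun x ω => T.chi' N δ η (x, ω.1) * U x ω))) ≤
      4 * (K * L) ^ 2 * volume.real T.table + 16 * K ^ 2 * CU ^ 2 / η ^ 2 * B +
        32 * (K2 / ε) ^ 2 * τ := by
  have hR : Bdd (fun x ω => U x ω - Φ x ω) := hU.sub hΦb
  have f1 := T.bddSupp_ext (T.bdd_chi' N δ η hU)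
  have f2 := T.bddSupp_ext (T.bdd_chi' N δ η hΦb)
  have f3 := T.bddSupp_ext (T.bdd_chi' N δ η hR)
  have e1 : T.ext (fun x ω => T.chi' N δ η (x, ω.1) * (U x ω - Φ x ω)) =
      fun x ω => T.ext (fun x ω => T.chi' N δ η (x, ω.1) * U x ω) x ω -
        T.ext (fun x ω => T.chi' N δ η (x, ω.1) * Φ x ω) x ω := by
    have h := T.ext_sub (fun x (ω : ℂ × Ω) => T.chi' N δ η (x, ω.1) * U x ω)
      (fun x (ω : ℂ × Ω) => T.chi' N δ η (x, ω.1) * Φ x ω)
    rw [← h]
    congr 1
    funext x ω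
    ring
  have e2 : grd ε (T.ext (fun x ω => T.chi' N δ η (x, ω.1) * U x ω)) =
      fun x ω => grd ε (T.ext (fun x ω => T.chi' N δ η (x, ω.1) * Φ x ω)) x ω +
        grd ε (T.ext (fun x ω => T.chi' N δ η (x, ω.1) * (U x ω - Φ x ω))) x ω := by
    funext x ω
    rw [e1, grd_sub hε f1.1 f2.1]
    ring
  rw [e2]
  obtain ⟨C2, hC2⟩ := exists_norm_grd_le hε f2.1
  obtain ⟨C3, hC3⟩ := exists_norm_grd_le hε f3.1
  refine (T.nrm_add_le m (measurable_grd ε f2.1) (measurable_grd ε f3.1) hC2 hC3).trans ?_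
  have b1 := T.nrm_grd_reg m hK hΦb hΦ hL hL0 hr hδ hη hη1 hε hε' hεr hB
  have b2 : T.nrm m (grd ε (T.ext (fun x ω => T.chi' N δ η (x, ω.1) * (U x ω - Φ x ω)))) ≤
      (K2 / ε) ^ 2 * (16 * τ) := by
    refine (hK2 ε hε _ f3).trans ?_
    apply mul_le_mul_of_nonneg_left _ (sq_nonneg _)
    refine (T.int_ext_sq_le m (T.bdd_chi' N δ η hR)).trans ?_
    apply mul_le_mul_of_nonneg_left _ (by norm_num)
    refine le_trans ?_ hτ
    obtain ⟨C4, hC4⟩ := hR.2
    obtain ⟨C5, hC5⟩ := (T.bdd_chi' N δ η hR).2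
    refine T.nrm_mono m (Complex.measurable_ofReal.comp (T.bdd_chi' N δ η hR).1)
      (Complex.measurable_ofReal.comp hR.1) (C := C5) (D := C4) ?_ ?_ ?_
    · intro x ω; rw [Complex.norm_real, Real.norm_eq_abs]; exact hC5 x ω
    · intro x ω; rw [Complex.norm_real, Real.norm_eq_abs]; exact hC4 x ω
    · refine Eventually.of_forall fun p => ?_
      rw [Complex.norm_real, Complex.norm_real, Real.norm_eq_abs, Real.norm_eq_abs, abs_mul,
        abs_of_nonneg (T.chi'_nonneg _ _ _ _)]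
      calc _ ≤ 1 * |U p.1 p.2 - Φ p.1 p.2| :=
            mul_le_mul_of_nonneg_right (T.chi'_le_one _ _ _ _) (abs_nonneg _)
        _ = _ := one_mul _
  have e3 : 2 * (8 * K ^ 2 * CU ^ 2 / η ^ 2 * B) = 16 * K ^ 2 * CU ^ 2 / η ^ 2 * B := by ring
  linarith

end Triangle

end Vale.Agent.P099
end
end

section

section

open MeasureTheory Set Filter Topology

namespace Vale.Agent.P099

variable {Ω : Type} [MeasurableSpace Ω]

namespace Triangle

variable (T : Triangle) (m : Measure Ω)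

/-- the mollified cut-off function is close to the function -/
lemma nrm_app_est [IsProbabilityMeasure m] {U : ℂ → ℂ × Ω → ℝ} (hU : Bdd U) {CU : ℝ}
    (hCU : ∀ x ω, |U x ω| ≤ CU) {N : ℕ} {δ η ε B τ : ℝ} (hε : 0 < ε)
    (hB : (((volume.restrict T.table).prod nu) {p | T.chi N δ η p < 1}).toReal ≤ B)
    (hτ : T.nrm m (fun x ω => ((mol ε (T.ext U) x ω - U x ω : ℝ) : ℂ)) ≤ τ) :
    T.nrm m (fun x ω =>
      ((mol ε (T.ext (fun x ω => T.chi' N δ η (x, ω.1) * U x ω)) x ω - U x ω : ℝ) : ℂ)) ≤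
      32 * CU ^ 2 * B + 2 * τ := by
  have f1 := T.bdd_chi' N δ η hU
  have f2 : Bdd (fun x (ω : ℂ × Ω) => T.chi' N δ η (x, ω.1) * U x ω - U x ω) := f1.sub hU
  have g1 := T.bddSupp_ext f1
  have g2 := T.bddSupp_ext f2
  have g3 := T.bddSupp_ext hU
  have m2 := g2.1.mol hε
  have m3 := (g3.1.mol hε).sub hU
  obtain ⟨C2, hC2⟩ := m2.2
  obtain ⟨C3, hC3⟩ := m3.2
  have e1 : T.ext (fun x ω => T.chi' N δ η (x, ω.1) * U x ω - U x ω) =
      fun x ω => T.ext (fun x ω => T.chi' N δ η (x, ω.1) * U x ω) x ω - T.ext U x ω :=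
    T.ext_sub (fun x (ω : ℂ × Ω) => T.chi' N δ η (x, ω.1) * U x ω) U
  have e2 : (fun x ω =>
      ((mol ε (T.ext (fun x ω => T.chi' N δ η (x, ω.1) * U x ω)) x ω - U x ω : ℝ) : ℂ)) =
      fun x ω =>
        ((mol ε (T.ext (fun x ω => T.chi' N δ η (x, ω.1) * U x ω - U x ω)) x ω : ℝ) : ℂ) +
        ((mol ε (T.ext U) x ω - U x ω : ℝ) : ℂ) := by
    funext x ω
    rw [e1, mol_sub hε g1.1 g3.1]
    push_cast
    ring
  rw [e2]
  refine (T.nrm_add_le m (Complex.measurable_ofReal.comp m2.1)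
    (Complex.measurable_ofReal.comp m3.1) (C := C2) (D := C3) (fun x ω => by
      rw [Complex.norm_real, Real.norm_eq_abs]; exact hC2 x ω) (fun x ω => by
      rw [Complex.norm_real, Real.norm_eq_abs]; exact hC3 x ω)).trans ?_
  have b1 : T.nrm m (fun x ω =>
      ((mol ε (T.ext (fun x ω => T.chi' N δ η (x, ω.1) * U x ω - U x ω)) x ω : ℝ) : ℂ)) ≤
      16 * (CU ^ 2 * B) := by
    refine (T.nrm_mol_le m hε g2).trans ?_
    refine (T.int_ext_sq_le m f2).trans ?_
    apply mul_le_mul_of_nonneg_left _ (by norm_num)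
    refine (T.nrm_cut_le m (T.measurable_chi' N δ η)
      (fun p => ⟨T.chi'_nonneg _ _ _ _, T.chi'_le_one _ _ _ _⟩) hU hCU
      (S := {p | T.chi' N δ η p < 1})
      (measurableSet_lt (T.measurable_chi' N δ η) measurable_const) ?_).trans ?_
    · intro p hp
      exact le_antisymm (T.chi'_le_one _ _ _ _) (not_lt.1 hp)
    · apply mul_le_mul_of_nonneg_left _ (sq_nonneg _)
      refine le_trans ?_ hB
      rw [measureReal_def]
      apply ENNReal.toReal_mono (measure_ne_top _ _)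
      apply measure_mono_ae
      have h1 : ∀ᵐ q ∂((volume.restrict T.table).prod nu), ‖q.2‖ = 1 :=
        Measure.quasiMeasurePreserving_snd.ae ae_norm
      filter_upwards [h1] with p hp hpS
      have : T.chi' N δ η p < 1 := hpS
      rw [show p = (p.1, p.2) from rfl, T.chi'_eq hp] at this
      exact this
  linarith only [hτ, b1]

/-- from the pointwise estimate of the derivative along the motion to the norm -/
lemma nrm_Xd_est [IsProbabilityMeasure m] {U V : ℂ → ℂ × Ω → ℝ} (hU : Bdd U) (hV : Bdd V)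
    {CU : ℝ} {N : ℕ} {δ η ε B : ℝ} (hδ : 0 < δ) (hε : 0 < ε)
    (hB : (∫ p, T.wt N δ η p ^ 2 ∂((volume.restrict T.table).prod nu)) ≤ B)
    (h : ∀ᵐ ω ∂(nu.prod m), ∀ x ∈ T.table,
      |Xd ε (T.ext (fun x ω => T.chi' N δ η (x, ω.1) * U x ω)) x ω -
        mol ε (T.ext (fun x ω => T.chi' N δ η (x, ω.1) * V x ω)) x ω| ≤
      η * CU * mol ε (T.ext (fun x ω => T.wt N δ η (x, ω.1))) x ω) :
    T.nrm m (fun x ω => ((Xd ε (T.ext (fun x ω => T.chi' N δ η (x, ω.1) * U x ω)) x ω -
          mol ε (T.ext (fun x ω => T.chi' N δ η (x, ω.1) * V x ω)) x ω : ℝ) : ℂ)) ≤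
      16 * (η * CU) ^ 2 * B := by
  set f := T.ext (fun x (ω : ℂ × Ω) => T.chi' N δ η (x, ω.1) * U x ω) with hf
  set g := T.ext (fun x (ω : ℂ × Ω) => T.chi' N δ η (x, ω.1) * V x ω) with hg
  set w := T.ext (fun x (ω : ℂ × Ω) => T.wt N δ η (x, ω.1)) with hw
  have f1 : BddSupp f := T.bddSupp_ext (T.bdd_chi' N δ η hU)
  have g1 : BddSupp g := T.bddSupp_ext (T.bdd_chi' N δ η hV)
  have w0 := T.bdd_wt (Ω := Ω) N hδ η
  have w1 : BddSupp w := T.bddSupp_ext w0
  obtain ⟨C1, hC1⟩ := exists_norm_grd_le hε f1.1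
  obtain ⟨C2, hC2⟩ := (g1.1.mol hε).2
  obtain ⟨C3, hC3⟩ := (w1.1.mol hε).2
  have hae : ∀ᵐ ω : ℂ × Ω ∂(nu.prod m), ‖ω.1‖ = 1 :=
    Measure.quasiMeasurePreserving_fst.ae ae_norm
  have hS : MeasurableSet {ω : ℂ × Ω | ‖ω.1‖ = 1} :=
    measurableSet_eq_fun (measurable_fst.norm) measurable_const
  set F : ℂ → ℂ × Ω → ℂ := fun x ω => ((Xd ε f x ω - mol ε g x ω : ℝ) : ℂ) with hF
  set F' : ℂ → ℂ × Ω → ℂ := fun x ω => {ω : ℂ × Ω | ‖ω.1‖ = 1}.indicator (F x) ω with hF'
  have e1 : T.nrm m F = T.nrm m F' := by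
    unfold nrm
    congr 1
    funext x
    apply integral_congr_ae
    filter_upwards [hae] with ω hω
    rw [hF']
    simp only
    rw [indicator_of_mem (by exact hω)]
  have hFm : Measurable fun p : ℂ × (ℂ × Ω) => F p.1 p.2 := by
    rw [hF]
    apply Complex.measurable_ofReal.comp
    apply Measurable.sub _ (g1.1.mol hε).1
    unfold Xd
    exact (Complex.measurable_re.comp ((measurable_fst.comp measurable_snd).mul
      (measurable_grd ε f1.1))).const_mul 2
  have hFm' : Measurable fun p : ℂ × (ℂ × Ω) => F' p.1 p.2 := by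
    have : (fun p : ℂ × (ℂ × Ω) => F' p.1 p.2) =
        (Prod.snd ⁻¹' {ω : ℂ × Ω | ‖ω.1‖ = 1}).indicator (fun p : ℂ × (ℂ × Ω) => F p.1 p.2) := by
      funext p
      simp only [hF', indicator, mem_preimage]
    rw [this]
    exact hFm.indicator (measurable_snd hS)
  have e2 : T.nrm m F' ≤ T.nrm m (fun x ω => ((η * CU : ℝ) : ℂ) * ((mol ε w x ω : ℝ) : ℂ)) := by
    refine T.nrm_mono m hFm' (measurable_const.mul
      (Complex.measurable_ofReal.comp (w1.1.mol hε).1)) (C := 2 * |C1| + |C2|)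
      (D := |η * CU| * |C3|) ?_ ?_ ?_
    · intro x ω
      by_cases hω : ‖ω.1‖ = 1
      · simp only [hF']
        rw [indicator_of_mem (by exact hω)]
        simp only [hF]
        rw [Complex.norm_real, Real.norm_eq_abs]
        refine (abs_sub _ _).trans ?_
        apply add_le_add
        · unfold Xd
          rw [abs_mul, abs_two]
          apply mul_le_mul_of_nonneg_left _ (by norm_num)
          refine (Complex.abs_re_le_norm _).trans ?_
          rw [norm_mul, hω, one_mul]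
          exact (hC1 x ω).trans (le_abs_self _)
        · exact (hC2 x ω).trans (le_abs_self _)
      · simp only [hF']
        rw [indicator_of_notMem (by exact hω), norm_zero]
        (clear * -; positivity)
    · intro x ω
      rw [norm_mul, Complex.norm_real, Complex.norm_real, Real.norm_eq_abs, Real.norm_eq_abs]
      apply mul_le_mul_of_nonneg_left _ (abs_nonneg _)
      exact (hC3 x ω).trans (le_abs_self _)
    · have h2 : ∀ᵐ p ∂(T.muT m), ∀ x ∈ T.table, |Xd ε f x p.2 - mol ε g x p.2| ≤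
          η * CU * mol ε w x p.2 := by
        unfold muT
        exact Measure.quasiMeasurePreserving_snd.ae h
      filter_upwards [h2, T.ae_muT_table m, T.ae_muT_norm m] with p hp hp2 hp3
      simp only [hF']
      rw [indicator_of_mem (by exact hp3)]
      simp only [hF]
      rw [Complex.norm_real, Real.norm_eq_abs, ← Complex.ofReal_mul, Complex.norm_real,
        Real.norm_eq_abs]
      exact (hp p.1 hp2).trans (le_abs_self _)
  rw [e1]
  refine e2.trans ?_
  rw [T.nrm_const_mul m, Complex.norm_real, Real.norm_eq_abs, sq_abs]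
  have e3 : T.nrm m (fun x ω => ((mol ε w x ω : ℝ) : ℂ)) ≤ 16 * B := by
    refine (T.nrm_mol_le m hε w1).trans ?_
    refine (T.int_ext_sq_le m w0).trans ?_
    apply mul_le_mul_of_nonneg_left _ (by norm_num)
    exact T.nrm_wt_le m N hδ η hB
  calc (η * CU) ^ 2 * T.nrm m (fun x ω => ((mol ε w x ω : ℝ) : ℂ))
      ≤ (η * CU) ^ 2 * (16 * B) := mul_le_mul_of_nonneg_left e3 (sq_nonneg _)
    _ = 16 * (η * CU) ^ 2 * B := by ring

end Triangle

end Vale.Agent.P099
end
end

section

section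

open MeasureTheory Set Filter Topology

namespace Vale.Agent.P099

set_option linter.unusedSectionVars false

variable {Ω : Type} [MeasurableSpace Ω]

namespace Triangle

variable (T : Triangle) (m : Measure Ω)

/-- properties of a cut-off function which are used in the estimates -/
structure IsCut (η σ r0 : ℝ) (χ M : ℂ × ℂ → ℝ) : Prop where
  meas : Measurable χ
  measM : Measurable M
  nonneg : ∀ s, 0 ≤ χ s
  le_one : ∀ s, χ s ≤ 1
  nonnegM : ∀ s, 0 ≤ M s
  bddM : ∃ C, ∀ s, M s ≤ C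
  lip : ∀ x ∈ T.table, ∀ y ∈ T.table, ∀ u, ‖u‖ = 1 → an η u (y - x) ≤ σ →
    |χ (y, u) - χ (x, u)| ≤ an η u (y - x) * M (x, u)
  cross : ∀ i, ∀ x ∈ T.table, ∀ y ∈ T.table, ∀ u, ‖u‖ = 1 → T.Cross i x (T.R i y) →
    an η u (T.R i y - x) ≤ σ →
    |χ (y, T.refl i u) - χ (x, u)| ≤ an η u (T.R i y - x) * M (x, u)
  near : ∀ k, ∀ x ∈ T.table, ‖x - T.P k‖ < r0 → ∀ u, χ (x, u) = 0

/-! ### almost everywhere statements -/

lemma ae_table_to_global [SFinite m] {P : ℂ × (ℂ × Ω) → Prop}
    (h : ∀ᵐ p ∂((volume.restrict T.table).prod (nu.prod m)), P p) :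
    ∀ᵐ p ∂((volume : Measure ℂ).prod (nu.prod m)), p.1 ∈ T.table → P p := by
  have h1 : (volume.restrict T.table).prod (nu.prod m) =
      ((volume : Measure ℂ).prod (nu.prod m)).restrict (T.table ×ˢ univ) := by
    rw [← Measure.prod_restrict, Measure.restrict_univ]
  rw [h1, ae_restrict_iff' (T.isOpen_table.measurableSet.prod MeasurableSet.univ)] at h
  filter_upwards [h] with p hp hp1
  exact hp ⟨hp1, mem_univ _⟩

lemma measurePreserving_refl_prod [SFinite m] (i : Fin 3) :
    MeasurePreserving (fun p : ℂ × (ℂ × Ω) => (T.R i p.1, (T.refl i p.2.1, p.2.2)))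
      ((volume : Measure ℂ).prod (nu.prod m)) ((volume : Measure ℂ).prod (nu.prod m)) :=
  (T.measurePreserving_R i).prod ((T.measurePreserving_refl i).prod (MeasurePreserving.id m))

lemma ae_reflect [SFinite m] (i : Fin 3) {P : ℂ × (ℂ × Ω) → Prop}
    (h : ∀ᵐ p ∂((volume : Measure ℂ).prod (nu.prod m)), P p) :
    ∀ᵐ p ∂((volume : Measure ℂ).prod (nu.prod m)), P (T.R i p.1, (T.refl i p.2.1, p.2.2)) :=
  (T.measurePreserving_refl_prod m i).quasiMeasurePreserving.ae h

lemma ae_fiber [SFinite m] {P : ℂ × (ℂ × Ω) → Prop}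
    (h : ∀ᵐ p ∂((volume : Measure ℂ).prod (nu.prod m)), P p) :
    ∀ᵐ ω ∂(nu.prod m), ∀ᵐ y ∂(volume : Measure ℂ), P (y, ω) := by
  have h1 : ∀ᵐ p ∂((nu.prod m).prod (volume : Measure ℂ)), P p.swap :=
    Measure.measurePreserving_swap.quasiMeasurePreserving.ae h
  exact (Measure.ae_ae_of_ae_prod h1 :)

lemma volume_lam_eq_zero (i : Fin 3) : volume {y : ℂ | T.lam i y = 0} = 0 := by
  let L : ℂ →ₗ[ℝ] ℝ :=
    { toFun := T.ell i
      map_add' := T.ell_add i
      map_smul' := fun r u => by simpa only [Complex.real_smul, Real.ringHom_apply, smul_eq_mul] using T.ell_smul i r u }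
  have hker : LinearMap.ker L ≠ ⊤ := by
    intro htop
    have h1 : L (T.P i - T.P (i + 1)) = 0 := by
      rw [← LinearMap.mem_ker, htop]
      exact Submodule.mem_top
    have h2 := T.lam_add i (T.P (i + 1)) (T.P i - T.P (i + 1))
    rw [add_sub_cancel, T.lam_P, T.lam_P, if_pos rfl, if_neg] at h2
    · have h3 : L (T.P i - T.P (i + 1)) = T.ell i (T.P i - T.P (i + 1)) := rfl
      rw [h3] at h1
      linarith only [h1, h2]
    · fin_cases i <;> decide
  have h1 : volume (LinearMap.ker L : Set ℂ) = 0 := Measure.addHaar_submodule _ _ hker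
  have h2 : {y : ℂ | T.lam i y = 0} = (fun y => y + (- T.P (i + 1))) ⁻¹' (LinearMap.ker L : Set ℂ) := by
    ext y
    simp only [mem_ofPred_eq, mem_preimage, SetLike.mem_coe, LinearMap.mem_ker]
    have h3 := T.lam_add i (T.P (i + 1)) (y - T.P (i + 1))
    rw [add_sub_cancel, T.lam_P, if_neg (by fin_cases i <;> decide), zero_add] at h3
    rw [h3]
    rfl
  rw [h2, measure_preimage_add_right]
  exact h1

lemma ae_lam_ne (i : Fin 3) (v : ℂ) : ∀ᵐ y ∂(volume : Measure ℂ), T.lam i (y + v) ≠ 0 := by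
  rw [ae_iff]
  simp only [ne_eq, not_not]
  have : {a : ℂ | T.lam i (a + v) = 0} = (fun y => y + v) ⁻¹' {y : ℂ | T.lam i y = 0} := rfl
  rw [this, measure_preimage_add_right]
  exact T.volume_lam_eq_zero i

/-! ### the extension along short straight segments -/

variable {T} {m}

lemma LocAt.ext_mul {f g : ℂ → ℂ × Ω → ℝ} {i : Fin 3} {y : ℂ} (h : T.LocAt i y) (ω : ℂ × Ω) :
    T.ext (fun x ω => f x ω * g x ω) y ω = T.ext f y ω * T.ext g y ω := by
  rcases lt_trichotomy (T.lam i y) 0 with h0 | h0 | h0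
  · rw [h.ext_of_neg h0, h.ext_of_neg h0, h.ext_of_neg h0]
  · rw [h.ext_of_zero h0, h.ext_of_zero h0, zero_mul]
  · rw [ext_of_pos (h.mem_table h0), ext_of_pos (h.mem_table h0), ext_of_pos (h.mem_table h0)]

/-- the hitting time of the line of side `i` -/
lemma lam_add_smul_eq {i : Fin 3} {y u : ℂ} (hu : T.ell i u ≠ 0) (s : ℝ) :
    T.lam i (y + s • u) = (s - T.hitT i (y, u)) * T.ell i u := by
  rw [T.lam_add_smul]
  unfold hitT
  field_simp
  ring

/-- crossing from inside to outside: all the facts -/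
lemma cross_facts {i : Fin 3} {y u : ℂ} {t : ℝ} (ht : 0 < t)
    (hloc : ∀ s ∈ Icc (0:ℝ) t, T.LocAt i (y + s • u)) (h0 : 0 < T.lam i y)
    (h1 : T.lam i (y + t • u) < 0) :
    T.ell i u < 0 ∧ 0 < T.hitT i (y, u) ∧ T.hitT i (y, u) < t ∧ T.E i (y, u) := by
  have he : T.ell i u < 0 := by
    rw [T.lam_add_smul] at h1
    by_contra hcon
    push Not at hcon
    have := mul_nonneg ht.le hcon
    linarith only [h0, h1, this]
  have hpos : 0 < T.hitT i (y, u) := by
    unfold hitT
    exact div_pos_of_neg_of_neg (by linarith only [h0]) he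
  have hlt : T.hitT i (y, u) < t := by
    rw [lam_add_smul_eq he.ne] at h1
    by_contra hcon
    push Not at hcon
    have : 0 ≤ (t - T.hitT i (y, u)) * T.ell i u :=
      mul_nonneg_of_nonpos_of_nonpos (by linarith) he.le
    linarith
  exact ⟨he, hpos, hlt, he, fun j hj => (hloc _ ⟨hpos.le, hlt.le⟩).1 j hj⟩


variable (T)

/-- free-flight identity at the state `p` -/
def FreeAt (U V : ℂ → ℂ × Ω → ℝ) (t : ℝ) (p : ℂ × (ℂ × Ω)) : Prop :=
  p.1 + t • p.2.1 ∈ T.table →
    U (p.1 + t • p.2.1) p.2 - U p.1 p.2 = ∫ s in (0:ℝ)..t, V (p.1 + s • p.2.1) p.2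

/-- one-collision identity at the state `p` -/
def BounceAt (U V : ℂ → ℂ × Ω → ℝ) (t : ℝ) (i : Fin 3) (p : ℂ × (ℂ × Ω)) : Prop :=
  T.E i (p.1, p.2.1) → T.hitT i (p.1, p.2.1) < t → T.R i (p.1 + t • p.2.1) ∈ T.table →
      U (T.R i (p.1 + t • p.2.1)) (T.refl i p.2.1, p.2.2) - U p.1 p.2 =
        (∫ s in (0:ℝ)..(T.hitT i (p.1, p.2.1)), V (p.1 + s • p.2.1) p.2) +
        ∫ s in (T.hitT i (p.1, p.2.1))..t, V (T.R i (p.1 + s • p.2.1)) (T.refl i p.2.1, p.2.2)

variable {T}

lemma Bdd.intervalIntegrable {V : ℂ → ℂ × Ω → ℝ} (hV : Bdd V) (y v : ℂ) (ω : ℂ × Ω) (a b : ℝ) :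
    IntervalIntegrable (fun s : ℝ => V (y + s • v) ω) volume a b := by
  obtain ⟨hm, C, hC⟩ := hV
  have h1 : Measurable (fun s : ℝ => V (y + s • v) ω) := by
    have : Measurable (fun s : ℝ => ((y + s • v, ω) : ℂ × (ℂ × Ω))) := by
      apply Measurable.prodMk _ measurable_const
      fun_prop
    exact hm.comp this
  rw [intervalIntegrable_iff]
  exact Measure.integrableOn_of_bounded (M := C) (by simp only [Real.volume_uIoc, ne_eq, ENNReal.ofReal_ne_top, not_false_eq_true]) h1.aestronglyMeasurable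
    (ae_of_all _ fun s => by simpa only [Complex.real_smul, Real.norm_eq_abs] using hC _ _)

lemma lam_pos_of_ends {i : Fin 3} {y u : ℂ} {t s : ℝ} (hs : s ∈ Icc (0:ℝ) t)
    (h0 : 0 < T.lam i y) (h1 : 0 < T.lam i (y + t • u)) : 0 < T.lam i (y + s • u) := by
  rw [T.lam_add_smul] at h1 ⊢
  rcases le_or_gt 0 (T.ell i u) with h | h
  · have := mul_nonneg hs.1 h
    linarith only [h0, this]
  · have : t * T.ell i u ≤ s * T.ell i u := mul_le_mul_of_nonpos_right hs.2 h.le
    linarith only [h1, this]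

lemma lam_neg_of_ends {i : Fin 3} {y u : ℂ} {t s : ℝ} (hs : s ∈ Icc (0:ℝ) t)
    (h0 : T.lam i y < 0) (h1 : T.lam i (y + t • u) < 0) : T.lam i (y + s • u) < 0 := by
  rw [T.lam_add_smul] at h1 ⊢
  rcases le_or_gt 0 (T.ell i u) with h | h
  · have : s * T.ell i u ≤ t * T.ell i u := mul_le_mul_of_nonneg_right hs.2 h
    linarith only [h1, this]
  · have := mul_nonneg hs.1 (neg_nonneg.mpr h.le)
    linarith only [h0, this]

lemma R_add_smul (i : Fin 3) (y u : ℂ) (s : ℝ) :
    T.R i (y + s • u) = T.R i y + s • T.refl i u := by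
  rw [T.R_add, T.refl_smul]

/-- the derivative of the extension along straight segments near one side -/
lemma ext_der_of {U V : ℂ → ℂ × Ω → ℝ} (hV : Bdd V) {t : ℝ} (ht : 0 < t) {y : ℂ} {ω : ℂ × Ω}
    {i : Fin 3}
    (hF : y ∈ T.table → T.FreeAt U V t (y, ω) ∧ T.BounceAt U V t i (y, ω))
    (hR : T.R i y ∈ T.table → T.FreeAt U V t (T.R i y, (T.refl i ω.1, ω.2)) ∧
      T.BounceAt U V t i (T.R i y, (T.refl i ω.1, ω.2)))
    (h0 : T.lam i y ≠ 0) (h1 : T.lam i (y + t • ω.1) ≠ 0)
    (hloc : ∀ s ∈ Icc (0:ℝ) t, T.LocAt i (y + s • ω.1)) :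
    T.ext U (y + t • ω.1) ω - T.ext U y ω = ∫ s in (0:ℝ)..t, T.ext V (y + s • ω.1) ω := by
  obtain ⟨u, q⟩ := ω
  simp only at *
  have hl0 : T.LocAt i y := by simpa only [zero_smul, add_zero] using hloc 0 ⟨le_rfl, ht.le⟩
  have hlt : T.LocAt i (y + t • u) := hloc t ⟨ht.le, le_rfl⟩
  have hVe : ∀ a b, IntervalIntegrable (fun s : ℝ => T.ext V (y + s • u) (u, q)) volume a b :=
    fun a b => Bdd.intervalIntegrable (T.bddSupp_ext hV).1 y u (u, q) a b
  rcases lt_or_gt_of_ne h0 with h0 | h0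
  · -- starts outside
    have hy' := hl0.R_mem_table h0
    obtain ⟨hF', hB'⟩ := hR hy'
    rw [hl0.ext_of_neg h0]
    rcases lt_or_gt_of_ne h1 with h1 | h1
    · -- stays outside
      rw [hlt.ext_of_neg h1]
      have h2 := hF' (by
        show T.R i y + t • T.refl i u ∈ T.table
        rw [← R_add_smul]
        exact hlt.R_mem_table h1)
      simp only at h2 ⊢
      rw [R_add_smul, h2]
      apply intervalIntegral.integral_congr
      intro s hs
      rw [uIcc_of_le ht.le] at hs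
      simp only
      rw [(hloc s hs).ext_of_neg (lam_neg_of_ends hs h0 h1)]
      simp only
      rw [R_add_smul]
    · -- enters
      rw [ext_of_pos (hlt.mem_table h1)]
      have he : 0 < T.ell i u := by
        rw [T.lam_add_smul] at h1
        by_contra hcon
        push Not at hcon
        have := mul_nonneg ht.le (neg_nonneg.mpr hcon)
        linarith
      set h := T.hitT i (y, u) with hh
      have hpos : 0 < h := by
        rw [hh]; unfold hitT
        simp only
        apply div_pos (by linarith) he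
      have hlth : h < t := by
        rw [lam_add_smul_eq he.ne'] at h1
        by_contra hcon
        push Not at hcon
        have : (t - h) * T.ell i u ≤ 0 :=
          mul_nonpos_of_nonpos_of_nonneg (by linarith) he.le
        linarith
      have hh' : T.hitT i (T.R i y, T.refl i u) = h := by
        rw [hh]
        unfold hitT
        simp only
        rw [T.lam_R, T.ell_refl, neg_div_neg_eq]
      have hz : T.lam i (y + h • u) = 0 := by
        rw [lam_add_smul_eq he.ne', sub_self, zero_mul]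
      have hR2 : ∀ s : ℝ, T.R i (T.R i y + s • T.refl i u) = y + s • u := by
        intro s
        rw [← R_add_smul, T.R_R]
      have hE : T.E i (T.R i y, T.refl i u) := by
        refine ⟨by simp only; rw [T.ell_refl]; linarith, fun j hj => ?_⟩
        rw [hh']
        simp only
        rw [← R_add_smul, T.R_of_lam_eq_zero hz]
        exact (hloc h ⟨hpos.le, hlth.le⟩).1 j hj
      have h2 := hB' hE (by simpa only [hh'] using hlth) (by
        simp only
        rw [hR2]
        exact hlt.mem_table h1)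
      simp only [hR2, T.refl_refl, hh'] at h2
      rw [h2, ← intervalIntegral.integral_add_adjacent_intervals (hVe 0 h) (hVe h t)]
      congr 1
      · apply intervalIntegral.integral_congr_ae
        have h3 : ∀ᵐ s : ℝ, s ≠ h := by
          rw [ae_iff]; simp
        filter_upwards [h3] with s hs hs2
        rw [uIoc_of_le hpos.le] at hs2
        have hs3 : s < h := lt_of_le_of_ne hs2.2 hs
        have h4 : T.lam i (y + s • u) < 0 := by
          rw [lam_add_smul_eq he.ne']
          exact mul_neg_of_neg_of_pos (by linarith only [hs3]) he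
        rw [(hloc s ⟨hs2.1.le, by linarith⟩).ext_of_neg h4]
        simp only
        rw [R_add_smul]
      · apply intervalIntegral.integral_congr_ae
        refine ae_of_all _ fun s hs => ?_
        rw [uIoc_of_le hlth.le] at hs
        have h4 : 0 < T.lam i (y + s • u) := by
          rw [lam_add_smul_eq he.ne']
          exact mul_pos (by linarith [hs.1]) he
        rw [ext_of_pos ((hloc s ⟨by linarith only [hpos, hs.1], hs.2⟩).mem_table h4)]
  · -- starts inside
    have hy := hl0.mem_table h0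
    obtain ⟨hF', hB'⟩ := hF hy
    rw [ext_of_pos hy]
    rcases lt_or_gt_of_ne h1 with h1 | h1
    · -- leaves
      obtain ⟨he, hpos, hlth, hE⟩ := cross_facts ht hloc h0 h1
      rw [hlt.ext_of_neg h1]
      have h2 := hB' hE hlth (hlt.R_mem_table h1)
      simp only at h2 ⊢
      set h := T.hitT i (y, u) with hh
      rw [h2, ← intervalIntegral.integral_add_adjacent_intervals (hVe 0 h) (hVe h t)]
      congr 1
      · apply intervalIntegral.integral_congr_ae
        have h3 : ∀ᵐ s : ℝ, s ≠ h := by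
          rw [ae_iff]; simp
        filter_upwards [h3] with s hs hs2
        rw [uIoc_of_le hpos.le] at hs2
        have hs3 : s < h := lt_of_le_of_ne hs2.2 hs
        have h4 : 0 < T.lam i (y + s • u) := by
          rw [lam_add_smul_eq he.ne]
          exact mul_pos_of_neg_of_neg (by linarith only [hs3]) he
        rw [ext_of_pos ((hloc s ⟨hs2.1.le, by linarith⟩).mem_table h4)]
      · apply intervalIntegral.integral_congr_ae
        refine ae_of_all _ fun s hs => ?_
        rw [uIoc_of_le hlth.le] at hs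
        have h4 : T.lam i (y + s • u) < 0 := by
          rw [lam_add_smul_eq he.ne]
          exact mul_neg_of_pos_of_neg (by linarith [hs.1]) he
        rw [(hloc s ⟨by linarith [hs.1], hs.2⟩).ext_of_neg h4]
    · -- stays inside
      rw [ext_of_pos (hlt.mem_table h1)]
      have h2 := hF' (hlt.mem_table h1)
      simp only at h2
      rw [h2]
      apply intervalIntegral.integral_congr
      intro s hs
      rw [uIcc_of_le ht.le] at hs
      simp only
      rw [ext_of_pos ((hloc s hs).mem_table (lam_pos_of_ends hs h0 h1))]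

/-! ### the extended cut-off along short straight segments -/

/-- a ray which leaves through side `i` before time `t` crosses side `i` -/
lemma cross_of_exit {i : Fin 3} {a v : ℂ} {t : ℝ} (hE : T.E i (a, v)) (ht : 0 < t)
    (hh : T.hitT i (a, v) < t) : T.Cross i a (a + t • v) := by
  obtain ⟨he, hj⟩ := hE
  simp only at he hj
  refine ⟨?_, fun j hji => ?_⟩
  · rw [lam_add_smul_eq he.ne]
    exact mul_neg_of_pos_of_neg (by linarith only [hh]) he
  · have h1 := hj j hji
    have h2 : T.lam i a = - T.hitT i (a, v) * T.ell i v := by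
      have := lam_add_smul_eq (T := T) (y := a) he.ne 0
      simpa only [neg_mul, zero_smul, add_zero, zero_sub] using this
    rw [T.lam_add_smul] at h1
    have h3 : T.lam i a * T.lam j (a + t • v) - T.lam j a * T.lam i (a + t • v) =
        (- T.ell i v) * t * (T.lam j a + T.hitT i (a, v) * T.ell j v) := by
      rw [T.lam_add_smul, T.lam_add_smul, h2]
      ring
    rw [h3]
    exact mul_pos (mul_pos (by linarith only [he]) ht) h1

/-- crossing from outside to inside: all the facts -/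
lemma enter_facts {i : Fin 3} {y u : ℂ} {t : ℝ} (ht : 0 < t)
    (hloc : ∀ s ∈ Icc (0:ℝ) t, T.LocAt i (y + s • u)) (h0 : T.lam i y < 0)
    (h1 : 0 < T.lam i (y + t • u)) :
    0 < T.ell i u ∧ 0 < T.hitT i (y, u) ∧ T.hitT i (y, u) < t ∧
      T.hitT i (T.R i y, T.refl i u) = T.hitT i (y, u) ∧ T.E i (T.R i y, T.refl i u) := by
  have he : 0 < T.ell i u := by
    rw [T.lam_add_smul] at h1
    by_contra hcon
    push Not at hcon
    have := mul_nonneg ht.le (neg_nonneg.mpr hcon)
    linarith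
  have hpos : 0 < T.hitT i (y, u) := by
    unfold hitT
    simp only
    apply div_pos (by linarith) he
  have hlth : T.hitT i (y, u) < t := by
    rw [lam_add_smul_eq he.ne'] at h1
    by_contra hcon
    push Not at hcon
    have : (t - T.hitT i (y, u)) * T.ell i u ≤ 0 :=
      mul_nonpos_of_nonpos_of_nonneg (by linarith only [hcon]) he.le
    linarith
  have hh' : T.hitT i (T.R i y, T.refl i u) = T.hitT i (y, u) := by
    unfold hitT
    simp only
    rw [T.lam_R, T.ell_refl, neg_div_neg_eq]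
  have hz : T.lam i (y + T.hitT i (y, u) • u) = 0 := by
    rw [lam_add_smul_eq he.ne', sub_self, zero_mul]
  refine ⟨he, hpos, hlth, hh', by simp only; rw [T.ell_refl]; linarith, fun j hj => ?_⟩
  rw [hh']
  simp only
  rw [← R_add_smul, T.R_of_lam_eq_zero hz]
  exact (hloc _ ⟨hpos.le, hlth.le⟩).1 j hj

/-- the extended cut-off is Lipschitz along straight segments near one side -/
lemma IsCut.ext_lip {η σ r0 : ℝ} {χ M : ℂ × ℂ → ℝ} (h : T.IsCut η σ r0 χ M) {t : ℝ}
    (ht : 0 < t) (hts : η * t ≤ σ) {y : ℂ} {ω : ℂ × Ω} (hω : ‖ω.1‖ = 1) {i : Fin 3}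
    (h0 : T.lam i y ≠ 0) (h1 : T.lam i (y + t • ω.1) ≠ 0)
    (hloc : ∀ s ∈ Icc (0:ℝ) t, T.LocAt i (y + s • ω.1)) :
    |T.ext (fun x (ω : ℂ × Ω) => χ (x, ω.1)) (y + t • ω.1) ω -
        T.ext (fun x (ω : ℂ × Ω) => χ (x, ω.1)) y ω| ≤
      η * t * T.ext (fun x (ω : ℂ × Ω) => M (x, ω.1)) y ω := by
  obtain ⟨u, q⟩ := ω
  simp only at *
  have hl0 : T.LocAt i y := by simpa using hloc 0 ⟨le_rfl, ht.le⟩
  have hlt : T.LocAt i (y + t • u) := hloc t ⟨ht.le, le_rfl⟩
  have hu' : ‖T.refl i u‖ = 1 := by rw [T.norm_refl]; exact hω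
  have ha1 : an η u (t • u) = η * t := by rw [an_self hω, abs_of_pos ht]
  have ha2 : an η (T.refl i u) (t • T.refl i u) = η * t := by rw [an_self hu', abs_of_pos ht]
  rcases lt_or_gt_of_ne h0 with h0 | h0
  · have hy' := hl0.R_mem_table h0
    rw [hl0.ext_of_neg h0, hl0.ext_of_neg h0]
    simp only
    rcases lt_or_gt_of_ne h1 with h1 | h1
    · -- stays outside
      have hz := hlt.R_mem_table h1
      rw [hlt.ext_of_neg h1]
      simp only
      have h2 := h.lip (T.R i y) hy' (T.R i (y + t • u)) hz (T.refl i u) hu'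
      rw [R_add_smul, add_sub_cancel_left, ha2] at h2
      rw [R_add_smul]
      exact h2 hts
    · -- enters
      obtain ⟨he, hpos, hlth, hh', hE⟩ := enter_facts ht hloc h0 h1
      have hz := hlt.mem_table h1
      rw [ext_of_pos hz]
      simp only
      have hRz : T.R i (y + t • u) = T.R i y + t • T.refl i u := R_add_smul i y u t
      have hc : T.Cross i (T.R i y) (T.R i (y + t • u)) := by
        rw [hRz]
        exact cross_of_exit hE ht (by rw [hh']; exact hlth)
      have h2 := h.cross i (T.R i y) hy' (y + t • u) hz (T.refl i u) hu' hc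
      rw [hRz, add_sub_cancel_left, ha2, T.refl_refl] at h2
      exact h2 hts
  · have hy := hl0.mem_table h0
    rw [ext_of_pos hy, ext_of_pos hy]
    simp only
    rcases lt_or_gt_of_ne h1 with h1 | h1
    · -- leaves
      obtain ⟨he, hpos, hlth, hE⟩ := cross_facts ht hloc h0 h1
      have hz := hlt.R_mem_table h1
      rw [hlt.ext_of_neg h1]
      simp only
      have hc : T.Cross i y (T.R i (T.R i (y + t • u))) := by
        rw [T.R_R]
        exact cross_of_exit hE ht hlth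
      have h2 := h.cross i y hy (T.R i (y + t • u)) hz u hω hc
      rw [T.R_R, add_sub_cancel_left, ha1] at h2
      exact h2 hts
    · -- stays inside
      have hz := hlt.mem_table h1
      rw [ext_of_pos hz]
      simp only
      have h2 := h.lip y hy (y + t • u) hz u hω
      rw [add_sub_cancel_left, ha1] at h2
      exact h2 hts

/-- calculus lemma -/
lemma prod_increment {c w : ℝ → ℝ} {U0 U1 A CU CV t : ℝ} (ht : 0 < t) (hA : 0 ≤ A)
    (hw : IntervalIntegrable w volume 0 t)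
    (hcw : IntervalIntegrable (fun s => c s * w s) volume 0 t)
    (hU : U1 - U0 = ∫ s in (0:ℝ)..t, w s) (hc : ∀ᵐ s : ℝ, s ∈ Ioc 0 t → |c s - c 0| ≤ A)
    (hct : |c t - c 0| ≤ A) (hwb : ∀ s, |w s| ≤ CV) (hU1 : |U1| ≤ CU) :
    |c t * U1 - c 0 * U0 - ∫ s in (0:ℝ)..t, c s * w s| ≤ A * CU + A * CV * t := by
  have h1 : c t * U1 - c 0 * U0 - ∫ s in (0:ℝ)..t, c s * w s =
      (c t - c 0) * U1 - ∫ s in (0:ℝ)..t, (c s - c 0) * w s := by
    have h2 : ∫ s in (0:ℝ)..t, (c s - c 0) * w s =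
        (∫ s in (0:ℝ)..t, c s * w s) - c 0 * ∫ s in (0:ℝ)..t, w s := by
      rw [← intervalIntegral.integral_const_mul, ← intervalIntegral.integral_sub hcw
        (hw.const_mul _)]
      apply intervalIntegral.integral_congr
      intro s _
      simp only
      ring
    rw [h2, ← hU]
    ring
  rw [h1]
  have hCU : 0 ≤ CU := (abs_nonneg _).trans hU1
  have hCV : 0 ≤ CV := (abs_nonneg _).trans (hwb 0)
  have h3 : |(c t - c 0) * U1| ≤ A * CU := by
    rw [abs_mul]
    (clear * - hct hU1 hA; gcongr)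
  have h4 : |∫ s in (0:ℝ)..t, (c s - c 0) * w s| ≤ A * CV * t := by
    have := intervalIntegral.norm_integral_le_of_norm_le_const_ae (a := 0) (b := t) (C := A * CV)
      (f := fun s => (c s - c 0) * w s) (by
        filter_upwards [hc] with s hs hs2
        rw [uIoc_of_le ht.le] at hs2
        rw [norm_mul, Real.norm_eq_abs, Real.norm_eq_abs]
        have := hs hs2
        have := hwb s
        (clear U0 U1 CU ht hw hcw hU hc hct hU1 h1 hCU hCV h3; gcongr))
    rw [sub_zero, abs_of_pos ht] at this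
    exact this
  calc _ ≤ |(c t - c 0) * U1| + |∫ s in (0:ℝ)..t, (c s - c 0) * w s| := abs_sub _ _
    _ ≤ _ := by linarith only [h3, h4]

lemma IsCut.nonneg_extM {η σ r0 : ℝ} {χ M : ℂ × ℂ → ℝ} (h : T.IsCut η σ r0 χ M) (y : ℂ)
    (ω : ℂ × Ω) : 0 ≤ T.ext (fun x (ω : ℂ × Ω) => M (x, ω.1)) y ω := by
  unfold ext
  apply add_nonneg
  · exact indicator_nonneg (fun z _ => h.nonnegM _) y
  · exact Finset.sum_nonneg fun i _ => indicator_nonneg (fun z _ => h.nonnegM _) y

lemma IsCut.bdd_chi {η σ r0 : ℝ} {χ M : ℂ × ℂ → ℝ} (h : T.IsCut η σ r0 χ M) :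
    Bdd (fun x (ω : ℂ × Ω) => χ (x, ω.1)) := by
  refine ⟨h.meas.comp (measurable_fst.prodMk (measurable_fst.comp measurable_snd)), 1,
    fun y ω => ?_⟩
  rw [abs_of_nonneg (h.nonneg _)]
  exact h.le_one _

lemma IsCut.bdd_M {η σ r0 : ℝ} {χ M : ℂ × ℂ → ℝ} (h : T.IsCut η σ r0 χ M) :
    Bdd (fun x (ω : ℂ × Ω) => M (x, ω.1)) := by
  obtain ⟨C, hC⟩ := h.bddM
  refine ⟨h.measM.comp (measurable_fst.prodMk (measurable_fst.comp measurable_snd)), C,
    fun y ω => ?_⟩
  rw [abs_of_nonneg (h.nonnegM _)]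
  exact hC _

/-- pointwise estimate -/
lemma IsCut.ext_incr {η σ r0 : ℝ} {χ M : ℂ × ℂ → ℝ} (h : T.IsCut η σ r0 χ M) (hη : 0 < η)
    {U V : ℂ → ℂ × Ω → ℝ} (hV : Bdd V) {CU CV : ℝ}
    (hCU : ∀ y ω, |T.ext U y ω| ≤ CU) (hCV : ∀ y ω, |T.ext V y ω| ≤ CV) {t : ℝ} (ht : 0 < t)
    (hts : η * t ≤ σ) {y : ℂ} {ω : ℂ × Ω} (hω : ‖ω.1‖ = 1) {i : Fin 3}
    (hF : y ∈ T.table → T.FreeAt U V t (y, ω) ∧ T.BounceAt U V t i (y, ω))
    (hR : T.R i y ∈ T.table → T.FreeAt U V t (T.R i y, (T.refl i ω.1, ω.2)) ∧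
      T.BounceAt U V t i (T.R i y, (T.refl i ω.1, ω.2)))
    (h0 : T.lam i y ≠ 0) (h1 : T.lam i (y + t • ω.1) ≠ 0)
    (hloc : ∀ s ∈ Icc (0:ℝ) t, T.LocAt i (y + s • ω.1)) :
    |T.ext (fun x ω => χ (x, ω.1) * U x ω) (y + t • ω.1) ω -
        T.ext (fun x ω => χ (x, ω.1) * U x ω) y ω -
        ∫ s in (0:ℝ)..t, T.ext (fun x ω => χ (x, ω.1) * V x ω) (y + s • ω.1) ω| ≤
      η * t * (CU + CV * t) * T.ext (fun x (ω : ℂ × Ω) => M (x, ω.1)) y ω := by
  set cc : ℝ → ℝ := fun s => T.ext (fun x (ω : ℂ × Ω) => χ (x, ω.1)) (y + s • ω.1) ω with hcc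
  set w : ℝ → ℝ := fun s => T.ext V (y + s • ω.1) ω with hw
  have hl0 : T.LocAt i y := by simpa using hloc 0 ⟨le_rfl, ht.le⟩
  have hlt : T.LocAt i (y + t • ω.1) := hloc t ⟨ht.le, le_rfl⟩
  have e1 : T.ext (fun x ω => χ (x, ω.1) * U x ω) (y + t • ω.1) ω =
      cc t * T.ext U (y + t • ω.1) ω := hlt.ext_mul ω
  have e2 : T.ext (fun x ω => χ (x, ω.1) * U x ω) y ω = cc 0 * T.ext U y ω := by
    rw [hl0.ext_mul ω, hcc]
    simp
  have e3 : ∫ s in (0:ℝ)..t, T.ext (fun x ω => χ (x, ω.1) * V x ω) (y + s • ω.1) ω =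
      ∫ s in (0:ℝ)..t, cc s * w s := by
    apply intervalIntegral.integral_congr
    intro s hs
    rw [uIcc_of_le ht.le] at hs
    exact (hloc s hs).ext_mul ω
  have hder := ext_der_of hV ht hF hR h0 h1 hloc
  have hbχ : Bdd (fun x (ω : ℂ × Ω) => χ (x, ω.1)) := h.bdd_chi
  have hMnn := h.nonneg_extM y ω
  have hA : 0 ≤ η * t * T.ext (fun x (ω : ℂ × Ω) => M (x, ω.1)) y ω := by (clear * - hη ht hMnn; positivity)
  have key := prod_increment (c := cc) (w := w) (U0 := T.ext U y ω)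
    (U1 := T.ext U (y + t • ω.1) ω)
    (A := η * t * T.ext (fun x (ω : ℂ × Ω) => M (x, ω.1)) y ω) (CU := CU) (CV := CV) ht hA
    (Bdd.intervalIntegrable (T.bddSupp_ext hV).1 y ω.1 ω 0 t)
    (by
      have h5 : Bdd (fun x ω => T.ext (fun x (ω : ℂ × Ω) => χ (x, ω.1)) x ω * T.ext V x ω) :=
        (T.bddSupp_ext hbχ).1.mul (T.bddSupp_ext hV).1
      exact Bdd.intervalIntegrable h5 y ω.1 ω 0 t)
    hder ?_ ?_ (fun s => hCV _ _) (hCU _ _)
  · rw [e1, e2, e3]
    refine key.trans (le_of_eq (by ring))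
  · -- a.e. bound
    have h6 : ∀ᵐ s : ℝ, T.lam i (y + s • ω.1) ≠ 0 := by
      by_cases he : T.ell i ω.1 = 0
      · refine ae_of_all _ fun s => ?_
        rw [T.lam_add_smul, he, mul_zero, add_zero]
        exact h0
      · have h7 : ∀ᵐ s : ℝ, s ≠ T.hitT i (y, ω.1) := by
          rw [ae_iff]; simp
        filter_upwards [h7] with s hs
        rw [lam_add_smul_eq he]
        exact mul_ne_zero (sub_ne_zero.mpr hs) he
    filter_upwards [h6] with s hs hs2
    have h8 := h.ext_lip hs2.1 (le_trans (by gcongr; exact hs2.2) hts) hω h0 hs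
      (fun s' hs' => hloc s' ⟨hs'.1, hs'.2.trans hs2.2⟩)
    rw [hcc]
    simp only [zero_smul, add_zero]
    refine h8.trans ?_
    gcongr
    exact hs2.2
  · have h8 := h.ext_lip ht hts hω h0 h1 hloc
    rw [hcc]
    simp only [zero_smul, add_zero]
    exact h8

/-! ### integration -/

variable (T)

/-- the geometric input: local structure at scale `ε` -/
def LocScale (ε r0 : ℝ) : Prop :=
  ∀ x, (∀ i, 0 ≤ T.lam i x) →
    (∃ k, ∀ y, ‖y - x‖ < 2 * ε → ‖y - T.P k‖ < r0) ∨ (∃ i, ∀ y, ‖y - x‖ < 2 * ε → T.LocAt i y)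

variable {T}

/-- for almost every parameter the pointwise estimate holds at almost all positions near the
table -/
lemma IsCut.ae_incr [SFinite m] {η σ r0 : ℝ} {χ M : ℂ × ℂ → ℝ} (h : T.IsCut η σ r0 χ M)
    (hη : 0 < η) {U V : ℂ → ℂ × Ω → ℝ} (hV : Bdd V) {CU CV : ℝ}
    (hCU : ∀ y ω, |T.ext U y ω| ≤ CU) (hCV : ∀ y ω, |T.ext V y ω| ≤ CV)
    (hF : T.FreeDer m U V) (hB : T.BounceDer m U V) {ε t : ℝ} (ht : 0 < t)
    (htε : t ≤ ε) (hts : η * t ≤ σ) (hr : T.Lp * r0 ≤ 1) (hloc : T.LocScale ε r0) :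
    ∀ᵐ ω ∂(nu.prod m), ∀ᵐ y ∂(volume : Measure ℂ), (∃ x ∈ T.table, ‖y - x‖ < ε) →
      |T.ext (fun x ω => χ (x, ω.1) * U x ω) (y + t • ω.1) ω -
        T.ext (fun x ω => χ (x, ω.1) * U x ω) y ω -
        ∫ s in (0:ℝ)..t, T.ext (fun x ω => χ (x, ω.1) * V x ω) (y + s • ω.1) ω| ≤
      η * t * (CU + CV * t) * T.ext (fun x (ω : ℂ × Ω) => M (x, ω.1)) y ω := by
  have a1 : ∀ᵐ p ∂((volume : Measure ℂ).prod (nu.prod m)), p.1 ∈ T.table → T.FreeAt U V t p :=
    T.ae_table_to_global m (hF t ht)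
  have a2 : ∀ i, ∀ᵐ p ∂((volume : Measure ℂ).prod (nu.prod m)),
      p.1 ∈ T.table → T.BounceAt U V t i p := fun i => T.ae_table_to_global m (hB t ht i)
  have b1 := ae_fiber m a1
  have b2 := fun i => ae_fiber m (a2 i)
  have b3 := fun i => ae_fiber m (T.ae_reflect m i a1)
  have b4 := fun i => ae_fiber m (T.ae_reflect m i (a2 i))
  rw [← ae_all_iff] at b2 b3 b4
  have b5 : ∀ᵐ ω ∂(nu.prod m), ‖ω.1‖ = 1 :=
    Measure.quasiMeasurePreserving_fst.ae ae_norm
  filter_upwards [b1, b2, b3, b4, b5] with ω c1 c2 c3 c4 c5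
  rw [← ae_all_iff] at c2 c3 c4
  have c6 : ∀ᵐ y ∂(volume : Measure ℂ), ∀ i, T.lam i (y + (0:ℝ) • ω.1) ≠ 0 :=
    ae_all_iff.mpr fun i => T.ae_lam_ne i _
  have c7 : ∀ᵐ y ∂(volume : Measure ℂ), ∀ i, T.lam i (y + t • ω.1) ≠ 0 :=
    ae_all_iff.mpr fun i => T.ae_lam_ne i _
  filter_upwards [c1, c2, c3, c4, c6, c7] with y d1 d2 d3 d4 d6 d7
  rintro ⟨x, hx, hyx⟩
  have hM := h.nonneg_extM y ω
  have hCU0 : 0 ≤ CU := (abs_nonneg _).trans (hCU y ω)
  have hCV0 : 0 ≤ CV := (abs_nonneg _).trans (hCV y ω)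
  have hseg : ∀ s ∈ Icc (0:ℝ) t, ‖y + s • ω.1 - x‖ < 2 * ε := by
    intro s hs
    calc ‖y + s • ω.1 - x‖ = ‖(y - x) + s • ω.1‖ := by congr 1; ring
      _ ≤ ‖y - x‖ + ‖s • ω.1‖ := norm_add_le _ _
      _ = ‖y - x‖ + s := by rw [norm_smul, c5, mul_one, Real.norm_of_nonneg hs.1]
      _ < 2 * ε := by linarith only [htε, hyx, hs.2]
  rcases hloc x (fun i => ((T.mem_table_iff x).mp hx i).le) with ⟨k, hk⟩ | ⟨i, hi⟩
  · have hz : ∀ (W : ℂ → ℂ × Ω → ℝ), ∀ s ∈ Icc (0:ℝ) t,
        T.ext (fun x ω => χ (x, ω.1) * W x ω) (y + s • ω.1) ω = 0 := by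
      intro W s hs
      apply T.ext_eq_zero_near hr _ (hk _ (hseg s hs))
      intro k' z hz hzk ω'
      rw [h.near k' z hz hzk, zero_mul]
    have e0 := hz U 0 ⟨le_rfl, ht.le⟩
    rw [zero_smul, add_zero] at e0
    rw [hz U t ⟨ht.le, le_rfl⟩, e0]
    have e1 : ∫ s in (0:ℝ)..t, T.ext (fun x ω => χ (x, ω.1) * V x ω) (y + s • ω.1) ω = 0 := by
      rw [intervalIntegral.integral_congr (g := fun _ => (0:ℝ))]
      · simp
      · intro s hs
        rw [uIcc_of_le ht.le] at hs
        exact hz V s hs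
    rw [e1]
    simp only [sub_self, abs_zero]
    (clear * - hη ht hCU0 hCV0 hM; positivity)
  · apply h.ext_incr hη hV hCU hCV ht hts c5 (i := i)
    · intro hy
      exact ⟨d1 hy, d2 i hy⟩
    · intro hy
      exact ⟨d3 i hy, d4 i hy⟩
    · simpa using d6 i
    · exact d7 i
    · intro s hs
      exact hi _ (hseg s hs)

lemma mol_shift {ε : ℝ} (f : ℂ → ℂ × Ω → ℝ) (x v : ℂ) (ω : ℂ × Ω) :
    mol ε f (x + v) ω = ∫ y, rho ε (x - y) * f (y + v) ω := by
  unfold mol
  rw [← integral_add_right_eq_self _ v]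
  congr 1
  funext y
  congr 2
  ring

lemma integrable_rho_mul {ε : ℝ} (hε : 0 < ε) {f : ℂ → ℂ × Ω → ℝ} (hf : Bdd f) (x v : ℂ)
    (ω : ℂ × Ω) : Integrable fun y => rho ε (x - y) * f (y + v) ω := by
  obtain ⟨hm, C, hC⟩ := hf
  have h1 : Integrable fun y => rho ε (x - y) :=
    ((rho_contDiff ε).continuous.integrable_of_hasCompactSupport
      (hasCompactSupport_rho hε)).comp_sub_left x
  have h2 : Measurable fun y => f (y + v) ω :=
    hm.comp ((measurable_id.add_const v).prodMk measurable_const)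
  exact h1.mul_bdd (c := C) h2.aestronglyMeasurable (ae_of_all _ fun y => by simpa using hC _ _)

lemma hasDerivAt_mol {ε : ℝ} (hε : 0 < ε) {f : ℂ → ℂ × Ω → ℝ} (hf : Bdd f) (x : ℂ) (ω : ℂ × Ω) :
    HasDerivAt (fun s : ℝ => mol ε f (x + s • ω.1) ω) (Xd ε f x ω) 0 := by
  set g : ℂ → ℂ := fun y => (f y ω : ℂ) with hg
  have hgl : LocallyIntegrable g := by
    have h1 := Bdd.locallyIntegrable hf ω
    rw [locallyIntegrable_iff] at h1 ⊢
    intro K hK
    exact (h1 K hK).ofReal
  have h2 : HasFDerivAt (conv (fun z => (rho ε z : ℂ)) g)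
      (fderiv ℝ (conv (fun z => (rho ε z : ℂ)) g) x) x :=
    (((contDiff_conv hε hgl).differentiable (by simp)).differentiableAt).hasFDerivAt
  have h3 : HasDerivAt (fun s : ℝ => x + s • ω.1) ω.1 0 := by
    have := ((hasDerivAt_id (0:ℝ)).smul_const ω.1).const_add x
    simpa using this
  have h4 : HasDerivAt (fun s : ℝ => conv (fun z => (rho ε z : ℂ)) g (x + s • ω.1))
      (fderiv ℝ (conv (fun z => (rho ε z : ℂ)) g) x ω.1) 0 := by
    have h5 : HasFDerivAt (conv (fun z => (rho ε z : ℂ)) g)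
      (fderiv ℝ (conv (fun z => (rho ε z : ℂ)) g) x) ((fun s : ℝ => x + s • ω.1) 0) := by
      simpa using h2
    exact h5.comp_hasDerivAt 0 h3
  have h6 := Complex.reCLM.hasFDerivAt.comp_hasDerivAt (0:ℝ) h4
  have h7 : (Complex.reCLM ∘ fun s : ℝ => conv (fun z => (rho ε z : ℂ)) g (x + s • ω.1)) =
      fun s : ℝ => mol ε f (x + s • ω.1) ω := by
    funext s
    have h8 := mol_eq_kcv ε f (x + s • ω.1) ω
    have h9 : kcv (fun z => (rho ε z : ℂ)) f (x + s • ω.1) ω =
        conv (fun z => (rho ε z : ℂ)) g (x + s • ω.1) := rfl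
    rw [h9] at h8
    simp only [Function.comp_apply]
    rw [← h8]
    simp
  rw [h7] at h6
  have h10 : Complex.reCLM (fderiv ℝ (conv (fun z => (rho ε z : ℂ)) g) x ω.1) = Xd ε f x ω := by
    rw [fderiv_conv hε hgl]
    have h11 : conv (fun z => (starRingEnd ℂ) (kap ε z)) g x = (starRingEnd ℂ) (conv (kap ε) g x) := by
      unfold conv
      rw [← integral_conj]
      congr 1
      funext y
      rw [map_mul, hg]
      simp
    rw [h11, ← map_mul, Complex.add_conj]
    unfold Xd grd conv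
    simp only [hg, Complex.mul_re, Complex.ofReal_mul, Complex.ofReal_ofNat, Complex.ofReal_sub, Complex.reCLM_apply, Complex.re_ofNat, Complex.sub_re, Complex.ofReal_re, Complex.ofReal_im, mul_zero, sub_zero, Complex.im_ofNat, Complex.sub_im, Complex.mul_im, zero_mul, add_zero, sub_self]
  rw [h10] at h6
  exact h6

lemma continuous_mol {ε : ℝ} (hε : 0 < ε) {f : ℂ → ℂ × Ω → ℝ} (hf : Bdd f) (ω : ℂ × Ω) :
    Continuous (fun x => mol ε f x ω) := by
  set g : ℂ → ℂ := fun y => (f y ω : ℂ) with hg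
  have hgl : LocallyIntegrable g := by
    have h1 := Bdd.locallyIntegrable hf ω
    rw [locallyIntegrable_iff] at h1 ⊢
    intro K hK
    exact (h1 K hK).ofReal
  have h2 := Complex.continuous_re.comp (contDiff_conv hε hgl).continuous
  have h3 : (Complex.re ∘ conv (fun z => (rho ε z : ℂ)) g) = fun x => mol ε f x ω := by
    funext x
    have h8 := mol_eq_kcv ε f x ω
    have h9 : kcv (fun z => (rho ε z : ℂ)) f x ω = conv (fun z => (rho ε z : ℂ)) g x := rfl
    rw [h9] at h8
    simp only [Function.comp_apply]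
    rw [← h8, Complex.ofReal_re]
  rw [h3] at h2
  exact h2

lemma integral_mol_segment {ε : ℝ} (hε : 0 < ε) {f : ℂ → ℂ × Ω → ℝ} (hf : Bdd f) (x v : ℂ)
    (ω : ℂ × Ω) {t : ℝ} (ht : 0 < t) :
    ∫ s in (0:ℝ)..t, mol ε f (x + s • v) ω =
      ∫ y, rho ε (x - y) * ∫ s in (0:ℝ)..t, f (y + s • v) ω := by
  obtain ⟨hm, C, hC⟩ := id hf
  have h1 : ∀ s : ℝ, mol ε f (x + s • v) ω = ∫ y, rho ε (x - y) * f (y + s • v) ω :=
    fun s => mol_shift f x (s • v) ω
  simp only [h1]
  have hρ : Integrable fun y => rho ε (x - y) :=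
    ((rho_contDiff ε).continuous.integrable_of_hasCompactSupport
      (hasCompactSupport_rho hε)).comp_sub_left x
  have hmeas : Measurable fun p : ℝ × ℂ => f (p.2 + p.1 • v) ω := by
    have : Measurable fun p : ℝ × ℂ => ((p.2 + p.1 • v, ω) : ℂ × (ℂ × Ω)) := by
      apply Measurable.prodMk _ measurable_const
      fun_prop
    exact hm.comp this
  rw [intervalIntegral_integral_swap]
  · congr 1
    funext y
    rw [intervalIntegral.integral_const_mul]
  · have hfin : IsFiniteMeasure (volume.restrict (uIoc 0 t)) := by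
      rw [uIoc_of_le ht.le]
      exact ⟨by rw [Measure.restrict_apply_univ]; simp only [Real.volume_Ioc, sub_zero, ENNReal.ofReal_lt_top]⟩
    have h2 : Integrable (fun p : ℝ × ℂ => (1:ℝ) * rho ε (x - p.2))
        ((volume.restrict (uIoc 0 t)).prod volume) :=
      Integrable.mul_prod (integrable_const (1:ℝ)) hρ
    have h3 : Integrable (fun p : ℝ × ℂ => ((1:ℝ) * rho ε (x - p.2)) * f (p.2 + p.1 • v) ω)
        ((volume.restrict (uIoc 0 t)).prod volume) :=
      h2.mul_bdd (c := C) hmeas.aestronglyMeasurable (ae_of_all _ fun y => by simpa only [Complex.real_smul, Real.norm_eq_abs] using hC _ _)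
    simp only [one_mul] at h3
    exact h3

/-- The estimate for the derivative of the mollification along the direction of motion. -/
theorem IsCut.Xd_est [SFinite m] {η σ r0 : ℝ} {χ M : ℂ × ℂ → ℝ} (h : T.IsCut η σ r0 χ M)
    (hη : 0 < η) (hσ : 0 < σ) {U V : ℂ → ℂ × Ω → ℝ} (hU : Bdd U) (hV : Bdd V) {CU : ℝ}
    (hCU : ∀ y ω, |T.ext U y ω| ≤ CU) (hF : T.FreeDer m U V) (hB : T.BounceDer m U V) {ε : ℝ}
    (hε : 0 < ε) (hr : T.Lp * r0 ≤ 1) (hloc : T.LocScale ε r0) :
    ∀ᵐ ω ∂(nu.prod m), ∀ x ∈ T.table,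
      |Xd ε (T.ext (fun x ω => χ (x, ω.1) * U x ω)) x ω -
        mol ε (T.ext (fun x ω => χ (x, ω.1) * V x ω)) x ω| ≤
      η * CU * mol ε (T.ext (fun x (ω : ℂ × Ω) => M (x, ω.1))) x ω := by
  obtain ⟨CV, hCV⟩ := (T.bddSupp_ext hV).1.2
  set t0 : ℝ := min ε (σ / η) with ht0
  have ht0p : 0 < t0 := by (clear * - hε hσ hη; positivity)
  set tn : ℕ → ℝ := fun n => t0 / (n + 1) with htn
  have htnp : ∀ n, 0 < tn n := fun n => by rw [htn]; (clear * - hε hσ hη; positivity)
  have htn0 : ∀ n, tn n ≤ t0 := fun n => by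
    rw [htn]
    apply div_le_self ht0p.le
    have : (0:ℝ) ≤ n := Nat.cast_nonneg n
    linarith only []
  have htnlim : Tendsto tn atTop (𝓝 0) := by
    rw [htn]
    have := tendsto_one_div_add_atTop_nhds_zero_nat (𝕜 := ℝ)
    have h2 := this.const_mul t0
    rw [mul_zero] at h2
    refine h2.congr fun n => ?_
    ring
  have hae : ∀ᵐ ω ∂(nu.prod m), ∀ n : ℕ, ∀ᵐ y ∂(volume : Measure ℂ),
      (∃ x ∈ T.table, ‖y - x‖ < ε) →
      |T.ext (fun x ω => χ (x, ω.1) * U x ω) (y + tn n • ω.1) ω -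
        T.ext (fun x ω => χ (x, ω.1) * U x ω) y ω -
        ∫ s in (0:ℝ)..(tn n), T.ext (fun x ω => χ (x, ω.1) * V x ω) (y + s • ω.1) ω| ≤
      η * tn n * (CU + CV * tn n) * T.ext (fun x (ω : ℂ × Ω) => M (x, ω.1)) y ω := by
    rw [ae_all_iff]
    intro n
    apply h.ae_incr hη hV hCU hCV hF hB (htnp n) ((htn0 n).trans (min_le_left _ _)) _ hr hloc
    have h1 : tn n ≤ σ / η := (htn0 n).trans (min_le_right _ _)
    rw [le_div_iff₀ hη] at h1
    linarith only [h1]
  filter_upwards [hae] with ω hω x hx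
  have hχ : Bdd (fun x (ω : ℂ × Ω) => χ (x, ω.1)) := h.bdd_chi
  have hH : Bdd (T.ext (fun x ω => χ (x, ω.1) * U x ω)) := (T.bddSupp_ext (hχ.mul hU)).1
  have hK : Bdd (T.ext (fun x ω => χ (x, ω.1) * V x ω)) := (T.bddSupp_ext (hχ.mul hV)).1
  have hE : Bdd (T.ext (fun x (ω : ℂ × Ω) => M (x, ω.1))) := (T.bddSupp_ext h.bdd_M).1
  set H := T.ext (fun x ω => χ (x, ω.1) * U x ω) with hHdef
  set K := T.ext (fun x ω => χ (x, ω.1) * V x ω) with hKdef
  set E := T.ext (fun x (ω : ℂ × Ω) => M (x, ω.1)) with hEdef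
  -- finite differences
  have step1 : ∀ n, |mol ε H (x + tn n • ω.1) ω - mol ε H x ω -
      ∫ s in (0:ℝ)..(tn n), mol ε K (x + s • ω.1) ω| ≤
        η * tn n * (CU + CV * tn n) * mol ε E x ω := by
    intro n
    set t := tn n with ht
    have htp : 0 < t := htnp n
    have i1 : Integrable fun y => rho ε (x - y) * H (y + t • ω.1) ω :=
      integrable_rho_mul hε hH x _ ω
    have i2 : Integrable fun y => rho ε (x - y) * H y ω := by
      simpa only [add_zero] using integrable_rho_mul hε hH x 0 ω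
    have hIK : Bdd (fun y ω => ∫ s in (0:ℝ)..t, K (y + s • ω.1) ω) := by
      obtain ⟨hKm, CK, hCK⟩ := id hK
      refine ⟨?_, CK * t, fun y ω => ?_⟩
      · have h1 : StronglyMeasurable (Function.uncurry fun (p : ℂ × (ℂ × Ω)) (s : ℝ) =>
            K (p.1 + s • p.2.1) p.2) := by
          apply Measurable.stronglyMeasurable
          have h2 : Measurable fun q : (ℂ × (ℂ × Ω)) × ℝ =>
              ((q.1.1 + q.2 • q.1.2.1, q.1.2) : ℂ × (ℂ × Ω)) := by
            apply Measurable.prodMk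
            · fun_prop
            · fun_prop
          exact (hKm.comp h2 :)
        have h3 := (h1.integral_prod_right (ν := volume.restrict (Ioc 0 t))).measurable
        simp only [intervalIntegral.integral_of_le htp.le]
        exact h3
      · have := intervalIntegral.norm_integral_le_of_norm_le_const (a := 0) (b := t) (C := CK)
          (f := fun s => K (y + s • ω.1) ω) (fun s _ => by simpa only [Complex.real_smul, Real.norm_eq_abs] using hCK _ _)
        rw [sub_zero, abs_of_pos htp] at this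
        exact this
    have i12 : Integrable fun y => rho ε (x - y) * H (y + t • ω.1) ω - rho ε (x - y) * H y ω :=
      i1.sub i2
    have i3 : Integrable fun y => rho ε (x - y) * ∫ s in (0:ℝ)..t, K (y + s • ω.1) ω := by
      simpa only [Complex.real_smul, add_zero] using integrable_rho_mul hε hIK x 0 ω
    have i4 : Integrable fun y => rho ε (x - y) * E y ω := by
      simpa only [add_zero] using integrable_rho_mul hε hE x 0 ω
    rw [mol_shift, integral_mol_segment hε hK x ω.1 ω htp]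
    have e1 : mol ε H x ω = ∫ y, rho ε (x - y) * H y ω := rfl
    have e2 : mol ε E x ω = ∫ y, rho ε (x - y) * E y ω := rfl
    rw [e1, e2, ← integral_sub i1 i2, ← integral_sub i12 i3, ← integral_const_mul]
    rw [← Real.norm_eq_abs]
    apply norm_integral_le_of_norm_le (i4.const_mul _)
    filter_upwards [hω n] with y hy
    by_cases hyx : ‖y - x‖ < ε
    · have h2 := hy ⟨x, hx, hyx⟩
      have h3 : rho ε (x - y) * H (y + t • ω.1) ω - rho ε (x - y) * H y ω -
          rho ε (x - y) * ∫ s in (0:ℝ)..t, K (y + s • ω.1) ω =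
          rho ε (x - y) * (H (y + t • ω.1) ω - H y ω - ∫ s in (0:ℝ)..t, K (y + s • ω.1) ω) := by
        ring
      rw [h3, norm_mul, Real.norm_eq_abs, Real.norm_eq_abs, abs_of_nonneg (rho_nonneg _ _)]
      calc rho ε (x - y) * |H (y + t • ω.1) ω - H y ω - ∫ s in (0:ℝ)..t, K (y + s • ω.1) ω|
          ≤ rho ε (x - y) * (η * t * (CU + CV * t) * E y ω) := by
            apply mul_le_mul_of_nonneg_left h2 (rho_nonneg _ _)
        _ = η * t * (CU + CV * t) * (rho ε (x - y) * E y ω) := by ring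
    · push Not at hyx
      rw [norm_sub_rev] at hyx
      rw [rho_eq_zero hε hyx]
      simp
  -- the limit
  set F : ℝ → ℝ := fun s => mol ε H (x + s • ω.1) ω - mol ε H x ω -
      ∫ r in (0:ℝ)..s, mol ε K (x + r • ω.1) ω with hFdef
  have hF0 : F 0 = 0 := by
    rw [hFdef]
    simp
  have hcont : Continuous (fun r : ℝ => mol ε K (x + r • ω.1) ω) :=
    (continuous_mol hε hK ω).comp (by fun_prop)
  have hFd : HasDerivAt F (Xd ε H x ω - mol ε K x ω) 0 := by
    have h1 := (hasDerivAt_mol hε hH x ω).sub_const (mol ε H x ω)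
    have h2 := (hcont.integral_hasStrictDerivAt 0 0).hasDerivAt
    rw [zero_smul, add_zero] at h2
    exact h1.sub h2
  have hlim : Tendsto (fun n => (tn n)⁻¹ • (F (0 + tn n) - F 0)) atTop
      (𝓝 (Xd ε H x ω - mol ε K x ω)) := by
    have h1 := hasDerivAt_iff_tendsto_slope_zero.mp hFd
    apply h1.comp
    rw [tendsto_nhdsWithin_iff]
    exact ⟨htnlim, Eventually.of_forall fun n => (htnp n).ne'⟩
  have hlim2 : Tendsto (fun n => η * (CU + CV * tn n) * mol ε E x ω) atTop
      (𝓝 (η * CU * mol ε E x ω)) := by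
    have h1 : Tendsto (fun n => η * (CU + CV * tn n) * mol ε E x ω) atTop
        (𝓝 (η * (CU + CV * 0) * mol ε E x ω)) :=
      ((htnlim.const_mul CV).const_add CU |>.const_mul η).mul_const _
    simpa only [mul_zero, add_zero] using h1
  refine le_of_tendsto_of_tendsto' hlim.abs hlim2 fun n => ?_
  rw [hF0, zero_add, sub_zero, smul_eq_mul, abs_mul, abs_of_pos (inv_pos.mpr (htnp n)),
    inv_mul_le_iff₀ (htnp n)]
  refine (step1 n).trans (le_of_eq (by ring))

/-! ### the concrete cut-off -/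

open Classical in
/-- the cut-off, restricted to unit directions -/
noncomputable def chi1 (T : Triangle) (N : ℕ) (δ η : ℝ) (p : ℂ × ℂ) : ℝ :=
  if ‖p.2‖ = 1 then T.chi N δ η p else 0

lemma chi1_of_unit (T : Triangle) (N : ℕ) (δ η : ℝ) {x u : ℂ} (hu : ‖u‖ = 1) :
    T.chi1 N δ η (x, u) = T.chi N δ η (x, u) := if_pos hu

lemma isCut_chi1 (T : Triangle) (N : ℕ) {δ η : ℝ} (hδ : 0 < δ) (hη : 0 < η) (hη1 : η ≤ 1) :
    T.IsCut η (sj δ N / 2) (sj δ N * η / 2) (T.chi1 N δ η) (T.wt N δ η) where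
  meas := by
    unfold chi1
    exact Measurable.ite (measurableSet_eq_fun measurable_snd.norm measurable_const)
      (T.measurable_chi N δ η) measurable_const
  measM := T.measurable_wt N δ η
  nonneg := fun s => by
    unfold chi1
    split_ifs
    · exact T.chi_nonneg _ _ _ _
    · exact le_rfl
  le_one := fun s => by
    unfold chi1
    split_ifs
    · exact T.chi_le_one _ _ _ _
    · exact zero_le_one
  nonnegM := fun s => T.wt_nonneg N hδ η s
  bddM := ⟨_, fun s => T.wt_le N hδ η s⟩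
  lip := fun x hx y hy u hu ha => by
    rw [chi1_of_unit _ _ _ _ hu, chi1_of_unit _ _ _ _ hu]
    exact T.chi_sub_le N hδ (T.D_lip hη u hx hy) ha
  cross := fun i x hx y hy u hu hc ha => by
    rw [chi1_of_unit _ _ _ _ hu, chi1_of_unit _ _ _ _ (by rw [T.norm_refl]; exact hu)]
    exact T.chi_sub_le N hδ (T.D_cross hη u hx hy hc) ha
  near := fun k x _ hk u => by
    by_cases hu : ‖u‖ = 1
    · rw [chi1_of_unit _ _ _ _ hu]
      exact T.chi_eq_zero N hδ hη hη1 hu k hk
    · unfold chi1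
      rw [if_neg hu]

/-- Existence of the scales: all the local geometric input in one statement. -/
lemma exists_locScale (T : Triangle) : ∃ κ : ℝ, 0 < κ ∧ κ ≤ 1 / 4 ∧
    ∀ r0 : ℝ, 0 < r0 → ∀ ε : ℝ, 0 < ε → ε ≤ κ * r0 → T.LocScale ε r0 := by
  obtain ⟨κ1, hκ1, hloc⟩ := T.exists_locAt
  refine ⟨min (1 / 4) κ1, by positivity, min_le_left _ _, ?_⟩
  intro r0 hr0 ε hε hεκ x hx
  have h1 : ε ≤ κ1 * r0 := by
    refine hεκ.trans ?_
    gcongr
    exact min_le_right _ _
  have h2 : ε ≤ 1 / 4 * r0 := by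
    refine hεκ.trans ?_
    gcongr
    exact min_le_left _ _
  by_cases hm : ∀ m, r0 / 2 ≤ ‖x - T.P m‖
  · exact Or.inr (hloc r0 hr0 ε hε h1 x hx hm)
  · push Not at hm
    obtain ⟨k, hk⟩ := hm
    refine Or.inl ⟨k, fun y hy => ?_⟩
    calc ‖y - T.P k‖ = ‖(y - x) + (x - T.P k)‖ := by congr 1; ring
      _ ≤ ‖y - x‖ + ‖x - T.P k‖ := norm_add_le _ _
      _ < r0 := by linarith only [hy, hk, h2]

end Triangle

end Vale.Agent.P099
end
end

section

section

open MeasureTheory Set Filter Topology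

namespace Vale.Agent.P099

variable {Ω : Type} [MeasurableSpace Ω]

namespace Triangle

variable (T : Triangle) (m : Measure Ω)

lemma chi1_eq_chi' (N : ℕ) (δ η : ℝ) : T.chi1 N δ η = T.chi' N δ η := by
  classical
  funext s
  unfold chi1 chi'
  by_cases h : ‖s.2‖ = 1
  · rw [if_pos h, indicator_of_mem (by exact h)]
  · rw [if_neg h, indicator_of_notMem (by exact h)]

/-- The approximation theorem. -/
theorem approx [IsProbabilityMeasure m] (U V : ℂ → ℂ × Ω → ℝ) (hU : Bdd U) (hV : Bdd V)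
    (h1 : T.FreeDer m U V) (h2 : T.BounceDer m U V) (tol : ℝ) (htol : 0 < tol) :
    ∃ ε : ℝ, 0 < ε ∧ ∃ χ : ℂ × ℂ → ℝ, Measurable χ ∧ (∀ p, 0 ≤ χ p ∧ χ p ≤ 1) ∧
      BddSupp (T.ext (fun x ω => χ (x, ω.1) * U x ω)) ∧
      BddSupp (T.ext (fun x ω => χ (x, ω.1) * V x ω)) ∧
      T.Sym ε (T.ext (fun x ω => χ (x, ω.1) * U x ω)) ∧
      T.Sym ε (T.ext (fun x ω => χ (x, ω.1) * V x ω)) ∧
      T.nrm m (fun x ω =>
        ((mol ε (T.ext (fun x ω => χ (x, ω.1) * U x ω)) x ω - U x ω : ℝ) : ℂ)) ≤ tol ∧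
      T.nrm m (fun x ω =>
        ((mol ε (T.ext (fun x ω => χ (x, ω.1) * V x ω)) x ω - V x ω : ℝ) : ℂ)) ≤ tol ∧
      ∃ a e : ℝ, 0 ≤ a ∧ 0 ≤ e ∧ e ≤ tol ∧ e * a ≤ tol ∧
        T.nrm m (grd ε (T.ext (fun x ω => χ (x, ω.1) * U x ω))) ≤ a ^ 2 ∧
        T.nrm m (fun x ω => ((Xd ε (T.ext (fun x ω => χ (x, ω.1) * U x ω)) x ω -
          mol ε (T.ext (fun x ω => χ (x, ω.1) * V x ω)) x ω : ℝ) : ℂ)) ≤ e ^ 2 := by
  obtain ⟨CU0, hCU0⟩ := hU.2
  obtain ⟨CV0, hCV0⟩ := hV.2
  obtain ⟨CE0, hCE0⟩ := (T.bddSupp_ext hU).1.2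
  obtain ⟨M, hM0, hMU, hMV, hME⟩ : ∃ M : ℝ, 0 < M ∧ (∀ x ω, |U x ω| ≤ M) ∧
      (∀ x ω, |V x ω| ≤ M) ∧ (∀ x ω, |T.ext U x ω| ≤ M) := by
    refine ⟨|CU0| + |CV0| + |CE0| + 1, by (clear * -; positivity), fun x ω => ?_, fun x ω => ?_,
      fun x ω => ?_⟩
    · have := (hCU0 x ω).trans (le_abs_self CU0)
      linarith [abs_nonneg CV0, abs_nonneg CE0]
    · have := (hCV0 x ω).trans (le_abs_self CV0)
      linarith [abs_nonneg CU0, abs_nonneg CE0]
    · have := (hCE0 x ω).trans (le_abs_self CE0)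
      linarith [abs_nonneg CU0, abs_nonneg CV0]
  obtain ⟨κ, r1, hκ, hκ4, hr1, hl1, hsym, hloc⟩ := T.exists_loc (Ω := Ω)
  obtain ⟨K1, hK1, hK1'⟩ := exists_kap_bound
  obtain ⟨K2, hK2, hK2'⟩ := T.nrm_grd_le (Ω := Ω)
  obtain ⟨C, hC, hCC⟩ := T.exists_chi_const
  have hA : 0 ≤ volume.real T.table := measureReal_nonneg
  set A := volume.real T.table with hAdef
  -- choice of N
  obtain ⟨N, hN, hN2⟩ : ∃ N : ℕ, 0 < N ∧
      16 * M ^ 2 * (C / N) * (16 * K1 ^ 2 * M ^ 2 * (C / N)) ≤ tol ^ 2 / 3 := by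
    obtain ⟨n, hn⟩ := exists_nat_gt (768 * M ^ 4 * K1 ^ 2 * C ^ 2 / tol ^ 2)
    have hn0 : (0:ℝ) < n := lt_of_le_of_lt (by (clear * - hM0 hK1 hC htol; positivity)) hn
    have hn1 : 0 < n := by exact_mod_cast hn0
    have hn2 : (1:ℝ) ≤ n := by exact_mod_cast hn1
    refine ⟨n, hn1, ?_⟩
    rw [div_lt_iff₀ (by positivity)] at hn
    have e : 16 * M ^ 2 * (C / n) * (16 * K1 ^ 2 * M ^ 2 * (C / n)) =
        256 * M ^ 4 * K1 ^ 2 * C ^ 2 / (n * n) := by
      field_simp; ring
    rw [e, div_le_iff₀ (by (clear * - hn1; positivity))]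
    have : (n:ℝ) * tol ^ 2 ≤ n * n * tol ^ 2 := by
      apply mul_le_mul_of_nonneg_right _ (by positivity)
      nlinarith only [hn2]
    linarith only [this, hn]
  have hN' : (0:ℝ) < N := by exact_mod_cast hN
  -- choice of δ
  obtain ⟨δ, hδ, hδ2⟩ : ∃ δ : ℝ, 0 < δ ∧ 32 * M ^ 2 * (C * δ ^ 2) ≤ tol / 2 := by
    refine ⟨min 1 (tol / (64 * M ^ 2 * C)), by (clear * - htol hM0 hC; positivity), ?_⟩
    set δ := min 1 (tol / (64 * M ^ 2 * C)) with hδ
    have h0 : 0 < δ := by positivity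
    have h1 : δ ≤ 1 := min_le_left _ _
    have h2 : δ ≤ tol / (64 * M ^ 2 * C) := min_le_right _ _
    rw [le_div_iff₀ (by (clear * - hM0 hC; positivity))] at h2
    have h3 : δ ^ 2 ≤ δ := by nlinarith only [h0, h1]
    have h4 : 32 * M ^ 2 * (C * δ ^ 2) ≤ 32 * M ^ 2 * (C * δ) := by (clear * - h3 hC hM0; gcongr)
    linarith only [h4, h2]
  have hσ := sj_pos hδ N
  set σ := sj δ N with hσdef
  -- choice of τ
  set c3 : ℝ := 16 * M ^ 2 * (C / N) * (32 * K2 ^ 2 * (2 / (κ * σ)) ^ 2) with hc3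
  have hc3' : 0 ≤ c3 := by (clear * - hM0 hC hN hK2 hκ hσ; positivity)
  obtain ⟨τ, hτ, hτ2⟩ : ∃ τ : ℝ, 0 < τ ∧ c3 * τ ≤ tol ^ 2 / 3 := by
    refine ⟨tol ^ 2 / 3 / (c3 + 1), by (clear * - htol hM0 hC hN hK2 hκ hσ; positivity), ?_⟩
    rw [mul_div_assoc', div_le_iff₀ (by (clear * - hM0 hC hN hK2 hκ hσ; positivity))]
    nlinarith only []
  obtain ⟨Φ, hΦs, hΦM, ⟨L, hL, hL'⟩, ⟨r, hr, hr'⟩, hΦτ⟩ := T.exists_lip m hU hMU hτ
  -- choice of η
  have hη_ev : ∀ᶠ η in 𝓝[>] (0:ℝ), (0 < η ∧ η ≤ 1 ∧ σ * η / 2 < r1 ∧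
      T.Lp * (κ * (σ * η / 2)) < r ∧ T.Lp * (σ * η / 2) < 1 ∧
      16 * M ^ 2 * (C / N) * (4 * (K1 * L) ^ 2 * A) * η ^ 2 ≤ tol ^ 2 / 3 ∧
      16 * (η * M) ^ 2 * (C / N) ≤ tol ^ 2) ∧
      T.nrm m (fun x ω => ((mol (κ * (σ * η / 2)) (T.ext U) x ω - U x ω : ℝ) : ℂ)) ≤ tol / 4 ∧
      T.nrm m (fun x ω => ((mol (κ * (σ * η / 2)) (T.ext V) x ω - V x ω : ℝ) : ℂ)) ≤ tol / 4 := by
    have small : ∀ (φ : ℝ → ℝ), Continuous φ → φ 0 = 0 → ∀ b : ℝ, 0 < b →
        ∀ᶠ η in 𝓝[>] (0:ℝ), φ η < b := by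
      intro φ hφ h0 b hb
      have : Tendsto φ (𝓝[>] 0) (𝓝 (φ 0)) :=
        (hφ.continuousAt (x := 0)).tendsto.mono_left nhdsWithin_le_nhds
      rw [h0] at this
      exact this.eventually_lt_const hb
    have hlim : Tendsto (fun η : ℝ => κ * (σ * η / 2)) (𝓝[>] 0) (𝓝[>] 0) := by
      apply tendsto_nhdsWithin_of_tendsto_nhds_of_eventually_within
      · have : Continuous fun η : ℝ => κ * (σ * η / 2) := by fun_prop
        have h0 := this.continuousAt (x := 0).tendsto
        simp only [mul_zero, zero_div] at h0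
        exact h0.mono_left nhdsWithin_le_nhds
      · filter_upwards [self_mem_nhdsWithin] with η hη
        have hη' : 0 < η := hη
        simp only [mem_Ioi]
        (clear * - hκ hσ hη'; positivity)
    have t1 := ((T.tendsto_nrm_mol_ext m hU).comp hlim).eventually_lt_const
      (show (0:ℝ) < tol / 4 by positivity)
    have t2 := ((T.tendsto_nrm_mol_ext m hV).comp hlim).eventually_lt_const
      (show (0:ℝ) < tol / 4 by positivity)
    filter_upwards [self_mem_nhdsWithin, small (fun η => η) (by fun_prop) rfl 1 one_pos,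
      small (fun η => σ * η / 2) (by fun_prop) (by simp) r1 hr1,
      small (fun η => T.Lp * (κ * (σ * η / 2))) (by fun_prop) (by simp) r hr,
      small (fun η => T.Lp * (σ * η / 2)) (by fun_prop) (by simp) 1 one_pos,
      small (fun η => 16 * M ^ 2 * (C / N) * (4 * (K1 * L) ^ 2 * A) * η ^ 2) (by fun_prop)
        (by simp) (tol ^ 2 / 3) (by positivity),
      small (fun η => 16 * (η * M) ^ 2 * (C / N)) (by fun_prop) (by simp) (tol ^ 2)
        (by positivity), t1, t2] with η h1 h2 h3 h4 h4' h5 h6 h7 h8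
    exact ⟨⟨h1, h2.le, h3, h4, h4', h5.le, h6.le⟩, h7.le, h8.le⟩
  obtain ⟨η, ⟨hη, hη1, hηr1, hηr, hηL, hη5, hη6⟩, hη7, hη8⟩ := hη_ev.exists
  set ε := κ * (σ * η / 2) with hε
  have hε0 : 0 < ε := by (clear * - hκ hσ hη; positivity)
  have hr0 : 0 < σ * η / 2 := by (clear * - hσ hη; positivity)
  have hε4 : 4 * ε ≤ η * σ := by
    rw [hε]
    have : κ * (σ * η / 2) ≤ 1 / 4 * (σ * η / 2) := by (clear * - hκ4 hσ hη; gcongr)
    have : 0 < σ * η := by (clear * - hσ hη; positivity)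
    nlinarith
  obtain ⟨hB1, hB2⟩ := hCC N hN δ hδ η hη
  have hzero : ∀ W : ℂ → ℂ × Ω → ℝ, ∀ x (ω : ℂ × Ω), x ∈ T.table →
      (∃ k, ‖x - T.P k‖ < σ * η / 2) → T.chi' N δ η (x, ω.1) * W x ω = 0 := by
    intro W x ω _ ⟨k, hk⟩
    rw [T.chi'_eq_zero N hδ hη hη1 k hk, zero_mul]
  have hcut := isCut_chi1 T N hδ hη hη1
  rw [T.chi1_eq_chi'] at hcut
  have hXd := hcut.Xd_est (m := m) hη (by (clear * - hσ; positivity)) hU hV hME h1 h2 hε0 hηL.le
    (fun x hx => hloc _ ε hr0 hηr1 hε0 le_rfl x hx)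
  refine ⟨ε, hε0, T.chi' N δ η, T.measurable_chi' N δ η,
    fun p => ⟨T.chi'_nonneg _ _ _ _, T.chi'_le_one _ _ _ _⟩,
    T.bddSupp_ext (T.bdd_chi' N δ η hU), T.bddSupp_ext (T.bdd_chi' N δ η hV),
    hsym _ _ ε hr0 hηr1 hε0 le_rfl (hzero U), hsym _ _ ε hr0 hηr1 hε0 le_rfl (hzero V),
    ?_, ?_, ?_⟩
  · have := T.nrm_app_est m hU hMU hε0 hB2 hη7
    linarith only [this, hδ2]
  · have := T.nrm_app_est m hV hMV hε0 hB2 hη8
    linarith only [hδ2, this]
  · set A2 := 4 * (K1 * L) ^ 2 * A + 16 * K1 ^ 2 * M ^ 2 / η ^ 2 * (C / N) +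
        32 * (K2 / ε) ^ 2 * τ with hA2
    set E2 := 16 * (η * M) ^ 2 * (C / N) with hE2
    have hA20 : 0 ≤ A2 := by (clear * - hK1 hL hM0 hη hC hN hK2 hκ hσ hτ; (clear * - hK1 hL hM0 hη hC hN hK2 hκ hσ hτ; positivity))
    have hE20 : 0 ≤ E2 := by (clear * - hη hM0 hC hN; positivity)
    refine ⟨√A2, √E2, Real.sqrt_nonneg _, Real.sqrt_nonneg _, ?_, ?_, ?_, ?_⟩
    · exact (Real.sqrt_le_sqrt hη6).trans (by rw [Real.sqrt_sq htol.le])
    · rw [← Real.sqrt_mul hE20]
      refine (Real.sqrt_le_sqrt (y := tol ^ 2) ?_).trans (by rw [Real.sqrt_sq htol.le])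
      have e : E2 * A2 = 16 * M ^ 2 * (C / N) * (4 * (K1 * L) ^ 2 * A) * η ^ 2 +
          16 * M ^ 2 * (C / N) * (16 * K1 ^ 2 * M ^ 2 * (C / N)) + c3 * τ := by
        rw [hE2, hA2, hc3, hε]
        (clear * - hN hη hσ hκ hK1 hL hA hM0 hC hK2 hτ; field_simp)
      rw [e]
      linarith only [hN2, hτ2, hη5]
    · rw [Real.sq_sqrt hA20]
      exact T.nrm_grd_est m hK1' (fun ε hε f hf => hK2' m ε hε f hf) hU hΦs.1 hΦM hL' hL.le
        (fun x ω ⟨i, hi⟩ => hr' x ω i hi.le) hΦτ hδ hη hη1 hε0 hε4 hηr hB1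
    · rw [Real.sq_sqrt hE20]
      exact T.nrm_Xd_est m hU hV hδ hε0 hB1 hXd

end Triangle

end Vale.Agent.P099
end
end

section

section

open MeasureTheory Set Filter Topology

namespace Vale.Agent.P099

variable {Ω : Type} [MeasurableSpace Ω]

namespace Rig

variable {A : Set ℂ} {m : Measure Ω}

lemma md_add {F G : ℂ → ℂ × Ω → ℂ} (hF : BC F) (hG : BC G) (k : ℤ) (x : ℂ) (q : Ω) :
    md k (fun x ω => F x ω + G x ω) x q = md k F x q + md k G x q := by
  obtain ⟨C, hC0, hC⟩ := hF.2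
  obtain ⟨C', hC0', hC'⟩ := hG.2
  unfold md
  rw [← integral_add]
  · simp only [add_mul]
  · refine int_bdd ((meas_slice hF.1 x q).mul (meas_zpow _)) (C := C) ?_
    filter_upwards [norm_zpow_ae (-k)] with u hz
    rw [norm_mul, hz, mul_one]; exact hC _ _
  · refine int_bdd ((meas_slice hG.1 x q).mul (meas_zpow _)) (C := C') ?_
    filter_upwards [norm_zpow_ae (-k)] with u hz
    rw [norm_mul, hz, mul_one]; exact hC' _ _

lemma N2_md_add_le [IsFiniteMeasure (volume.restrict A)] [IsProbabilityMeasure m]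
    {F G : ℂ → ℂ × Ω → ℂ} (hF : BC F) (hG : BC G) (k : ℤ) :
    N2 A m (md k (fun x ω => F x ω + G x ω)) ≤ 2 * N2 A (nu.prod m) F + 2 * N2 A m (md k G) := by
  have e : md k (fun x ω => F x ω + G x ω) = fun x q => md k F x q + md k G x q := by
    funext x q; exact md_add hF hG k x q
  rw [e]
  have h1 := N2_add_le (A := A) (κ := m) (hF.md k) (hG.md k)
  have h2 := N2_md_le (A := A) (m := m) hF k
  linarith only [h1, h2]

section skew

set_option linter.unusedSectionVars false

variable (T : Triangle)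

open Classical in
noncomputable def cc (χ : ℂ × ℂ → ℝ) : Option (Fin 3) → ℂ → ℂ → ℝ
  | none, y, u => if y ∈ T.table then χ (y, u) else 0
  | some i, y, u => if T.R i y ∈ T.table then χ (T.R i y, T.refl i u) else 0

noncomputable def yy : Option (Fin 3) → ℂ → ℂ
  | none, y => y
  | some i, y => T.R i y

noncomputable def ww : Option (Fin 3) → ℂ → ℂ
  | none, u => u
  | some i, u => T.refl i u

lemma ext_eq_sum (χ : ℂ × ℂ → ℝ) (F : ℂ → ℂ × Ω → ℝ) (y u : ℂ) (q : Ω) :
    T.ext (fun x ω => χ (x, ω.1) * F x ω) y (u, q) =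
      ∑ j, cc T χ j y u * F (yy T j y) (ww T j u, q) := by
  classical
  rw [Fintype.sum_option]
  unfold Triangle.ext
  congr 1
  · unfold cc yy ww
    by_cases h : y ∈ T.table
    · simp [h]
    · simp [h]
  · refine Finset.sum_congr rfl fun i _ => ?_
    unfold cc yy ww
    by_cases h : T.R i y ∈ T.table
    · have h' : y ∈ T.R i ⁻¹' T.table := h
      simp [h, h']
    · have h' : y ∉ T.R i ⁻¹' T.table := h
      simp [h, h']

lemma int_sec [IsProbabilityMeasure m] {F G : ℂ → ℂ × Ω → ℝ} (hF : Bdd F) (hG : Bdd G)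
    (y y' u u' : ℂ) : Integrable (fun q => F y (u, q) * G y' (u', q)) m := by
  obtain ⟨hm, C, hC⟩ := hF
  obtain ⟨hm', C', hC'⟩ := hG
  have h1 : Measurable (fun q => F y (u, q)) :=
    hm.comp (Measurable.prodMk measurable_const (Measurable.prodMk measurable_const measurable_id))
  have h2 : Measurable (fun q => G y' (u', q)) :=
    hm'.comp (Measurable.prodMk measurable_const (Measurable.prodMk measurable_const measurable_id))
  refine int_bdd (h1.mul h2) (C := C * C') (Eventually.of_forall fun q => ?_)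
  rw [norm_mul]
  exact mul_le_mul (hC _ _) (hC' _ _) (norm_nonneg _) ((abs_nonneg _).trans (hC y (u, q)))

lemma int_ext_mul [IsProbabilityMeasure m] (χ : ℂ × ℂ → ℝ) {F G : ℂ → ℂ × Ω → ℝ} (hF : Bdd F)
    (hG : Bdd G) (y y' u u' : ℂ) :
    ∫ q, T.ext (fun x ω => χ (x, ω.1) * F x ω) y (u, q) *
        T.ext (fun x ω => χ (x, ω.1) * G x ω) y' (u', q) ∂m =
      ∑ j, ∑ l, cc T χ j y u * cc T χ l y' u' *
        ∫ q, F (yy T j y) (ww T j u, q) * G (yy T l y') (ww T l u', q) ∂m := by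
  simp only [ext_eq_sum, Finset.sum_mul_sum]
  rw [integral_finsetSum]
  · refine Finset.sum_congr rfl fun j _ => ?_
    rw [integral_finsetSum]
    · refine Finset.sum_congr rfl fun l _ => ?_
      rw [← integral_const_mul]
      congr 1
      funext q
      ring
    · intro l _
      have := (int_sec (m := m) hF hG (yy T j y) (yy T l y') (ww T j u) (ww T l u')).const_mul
        (cc T χ j y u * cc T χ l y' u')
      refine this.congr (Eventually.of_forall fun q => ?_)
      show _ = _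
      ring
  · intro j _
    refine integrable_finsetSum _ fun l _ => ?_
    have := (int_sec (m := m) hF hG (yy T j y) (yy T l y') (ww T j u) (ww T l u')).const_mul
      (cc T χ j y u * cc T χ l y' u')
    refine this.congr (Eventually.of_forall fun q => ?_)
    show _ = _
    ring

lemma ext_skew [IsProbabilityMeasure m] (χ : ℂ × ℂ → ℝ) {U V : ℂ → ℂ × Ω → ℝ} (hU : Bdd U)
    (hV : Bdd V) (hskew : ∀ y y' u u', ∫ q, V y (u, q) * U y' (u', q) ∂m =
      - ∫ q, U y (u, q) * V y' (u', q) ∂m) (y y' u u' : ℂ) :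
    ∫ q, T.ext (fun x ω => χ (x, ω.1) * V x ω) y (u, q) *
        T.ext (fun x ω => χ (x, ω.1) * U x ω) y' (u', q) ∂m =
    - ∫ q, T.ext (fun x ω => χ (x, ω.1) * U x ω) y (u, q) *
        T.ext (fun x ω => χ (x, ω.1) * V x ω) y' (u', q) ∂m := by
  rw [int_ext_mul T χ hV hU, int_ext_mul T χ hU hV, ← Finset.sum_neg_distrib]
  refine Finset.sum_congr rfl fun j _ => ?_
  rw [← Finset.sum_neg_distrib]
  refine Finset.sum_congr rfl fun l _ => ?_
  rw [hskew]
  ring

end skew

lemma le_of_affine {S B M : ℝ} (hM : 0 ≤ M) (h : ∀ t : ℝ, 0 < t → t ≤ 1 → S ≤ B + M * t) :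
    S ≤ B := by
  by_contra hcon
  push Not at hcon
  have h1 := h (min 1 ((S - B) / (2 * (M + 1)))) (by
    apply lt_min one_pos
    apply div_pos (by linarith only [hcon]) (by positivity)) (min_le_left _ _)
  have h2 : M * min 1 ((S - B) / (2 * (M + 1))) ≤ M * ((S - B) / (2 * (M + 1))) := by
    gcongr; exact min_le_right _ _
  have h3 : M * ((S - B) / (2 * (M + 1))) ≤ (S - B) / 2 := by
    rw [← mul_div_assoc, div_le_div_iff₀ (by positivity) (by positivity)]
    nlinarith only [hcon]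
  linarith

end Rig

open Rig

namespace Triangle

variable (T : Triangle) (m : Measure Ω)

/-- The rigidity theorem: `U` does not vary in the direction orthogonal to the motion. -/
theorem rigid [IsProbabilityMeasure m] (U V : ℂ → ℂ × Ω → ℝ) (hU : Bdd U) (hV : Bdd V)
    (h1 : T.FreeDer m U V) (h2 : T.BounceDer m U V)
    (hskew : ∀ y y' u u', ∫ q, V y (u, q) * U y' (u', q) ∂m =
      - ∫ q, U y (u, q) * V y' (u', q) ∂m)
    (φ : ℂ → ℝ) (hφ : ContDiff ℝ (⊤ : ℕ∞) φ) (hφc : HasCompactSupport φ) (hφs : tsupport φ ⊆ T.table) :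
    ∀ᵐ ω ∂(nu.prod m), ∫ x in T.table, U x ω * fderiv ℝ φ x (Complex.I * ω.1) = 0 := by
  have hfin : IsFiniteMeasure (volume.restrict T.table) :=
    ⟨by rw [Measure.restrict_apply_univ]; exact T.volume_table_lt_top⟩
  obtain ⟨K, hK⟩ := (hφc.fderiv (𝕜 := ℝ)).exists_bound_of_continuous
    (hφ.continuous_fderiv (by simp))
  obtain ⟨CU, hCU⟩ := hU.2
  obtain ⟨CV, hCV⟩ := hV.2
  have hcU : BC (fun x ω => (U x ω : ℂ)) := BC.of_real hU.1 hCU
  have hcV : BC (fun x ω => (V x ω : ℂ)) := BC.of_real hV.1 hCV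
  obtain ⟨c1, hc1⟩ : ∃ c1, c1 = K ^ 2 * (volume T.table).toReal := ⟨_, rfl⟩
  have hc10 : 0 ≤ c1 := by rw [hc1]; (clear * -; positivity)
  obtain ⟨c2, hc2⟩ : ∃ c2, c2 = ∫ x in T.table, ‖(φ x : ℂ)‖ ^ 2 := ⟨_, rfl⟩
  have hc20 : 0 ≤ c2 := by rw [hc2]; exact integral_nonneg fun x => by (clear * -; positivity)
  obtain ⟨v, hv⟩ : ∃ v, v = Real.sqrt (2 * N2 T.table (nu.prod m) (fun x ω => (V x ω : ℂ)) + 2) :=
    ⟨_, rfl⟩
  have hv0 : 0 ≤ v := by rw [hv]; exact Real.sqrt_nonneg _
  have hv2 : v ^ 2 = 2 * N2 T.table (nu.prod m) (fun x ω => (V x ω : ℂ)) + 2 := by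
    rw [hv]
    exact Real.sq_sqrt (by have := N2_nonneg T.table (nu.prod m) (fun x ω => (V x ω : ℂ)); linarith only [this])
  have main : ∀ (k : ℤ) (n : ℕ), |k| ≤ n → ∀ tol : ℝ, 0 < tol → tol ≤ 1 →
      ∫ q, ‖mL T.table φ k (fun x ω => (U x ω : ℂ)) q‖ ^ 2 ∂m ≤
        4 * c2 * (N2 T.table m (md (n + 1) (fun x ω => (V x ω : ℂ))) +
          N2 T.table m (md (-n - 1) (fun x ω => (V x ω : ℂ)))) +
        (2 * c1 + 2 * c2 * (4 + 100 * (n + 1) * (2 + v))) * tol := by
    intro k n hkn tol htol htol1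
    obtain ⟨ε, hε, χ, hχm, hχ, hf, hh, hfs, hhs, hnU, hnV, a, e, ha, he, het, hea, hA, hE⟩ :=
      T.approx m U V hU hV h1 h2 tol htol
    obtain ⟨f, hfdef⟩ : ∃ f, f = T.ext (fun x ω => χ (x, ω.1) * U x ω) := ⟨_, rfl⟩
    obtain ⟨h, hhdef⟩ : ∃ h, h = T.ext (fun x ω => χ (x, ω.1) * V x ω) := ⟨_, rfl⟩
    have hsk := ext_skew (m := m) T χ hU hV hskew
    rw [← hfdef, ← hhdef] at hsk
    rw [← hfdef] at hf hfs hnU hA hE
    rw [← hhdef] at hh hhs hnV hE
    have hG : BC (fun x ω => ((mol ε f x ω : ℝ) : ℂ)) := BC_mol hε hf.1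
    have hH : BC (fun x ω => ((mol ε h x ω : ℝ) : ℂ)) := BC_mol hε hh.1
    -- the approximation of `V`
    have eV : (fun x ω => ((mol ε h x ω : ℝ) : ℂ)) =
        fun x ω => (((mol ε h x ω : ℝ) : ℂ) - (V x ω : ℂ)) + (V x ω : ℂ) := by
      funext x ω; ring
    have nV : N2 T.table (nu.prod m) (fun x ω => ((mol ε h x ω : ℝ) : ℂ) - (V x ω : ℂ)) ≤ tol := by
      refine le_trans (le_of_eq ?_) hnV
      unfold N2 nrm
      simp only [Complex.ofReal_sub]
    have nH : T.nrm m (fun x ω => (mol ε h x ω : ℂ)) ≤ v ^ 2 := by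
      have h3 := N2_add_le (A := T.table) (κ := nu.prod m) (hH.sub hcV) hcV
      rw [hv2]
      calc T.nrm m (fun x ω => (mol ε h x ω : ℂ)) =
          N2 T.table (nu.prod m) (fun x ω =>
            (((mol ε h x ω : ℝ) : ℂ) - (V x ω : ℂ)) + (V x ω : ℂ)) := by
            rw [← eV]; rfl
        _ ≤ _ := by linarith only [htol1, nV, h3]
    have hen := T.energy m hε f h hf hh hfs hhs hsk a v e ha hv0 he hA nH hE k n hkn
    have mdV : ∀ j : ℤ, T.nrmq m (md j (fun x ω => (mol ε h x ω : ℂ))) ≤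
        2 * tol + 2 * N2 T.table m (md j (fun x ω => (V x ω : ℂ))) := by
      intro j
      have h3 := N2_md_add_le (A := T.table) (m := m) (hH.sub hcV) hcV j
      calc T.nrmq m (md j (fun x ω => (mol ε h x ω : ℂ))) =
          N2 T.table m (md j (fun x ω =>
            (((mol ε h x ω : ℝ) : ℂ) - (V x ω : ℂ)) + (V x ω : ℂ))) := by
            rw [← eV]; rfl
        _ ≤ _ := by linarith only [nV, h3]
    -- the two parts of `U`
    have eU : (fun x ω => (U x ω : ℂ)) =
        fun x ω => ((U x ω : ℂ) - ((mol ε f x ω : ℝ) : ℂ)) + ((mol ε f x ω : ℝ) : ℂ) := by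
      funext x ω; ring
    have nU : N2 T.table (nu.prod m) (fun x ω => (U x ω : ℂ) - ((mol ε f x ω : ℝ) : ℂ)) ≤ tol := by
      refine le_trans (le_of_eq ?_) hnU
      unfold N2 nrm
      simp only [Complex.ofReal_sub]
      congr 1
      funext x
      congr 1
      funext ω
      rw [norm_sub_rev]
    have s1 := S_add_le (A := T.table) (m := m) hφ hK (hcU.sub hG) hG k
    have s2 := S_le (A := T.table) (m := m) hφ hK (hcU.sub hG) k
    have s3 := S_mol_le (A := T.table) (m := m) hε hf.1 hφ hφc hφs k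
    rw [← hc1] at s2
    rw [← hc2] at s3
    have s4 : N2 T.table m (Ek ε f k) ≤
        T.nrmq m (md (n + 1) (fun x ω => (mol ε h x ω : ℂ))) +
        T.nrmq m (md (-n - 1) (fun x ω => (mol ε h x ω : ℂ))) +
        100 * (n + 1) * (e * a + e * v + e ^ 2) := hen
    have m1 := mdV (n + 1)
    have m2 := mdV (-n - 1)
    have s5 : e * a + e * v + e ^ 2 ≤ tol * (2 + v) := by nlinarith only [hea, hv0, het, htol1, he]
    have s6 : N2 T.table m (Ek ε f k) ≤
        2 * N2 T.table m (md (n + 1) (fun x ω => (V x ω : ℂ))) +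
        2 * N2 T.table m (md (-n - 1) (fun x ω => (V x ω : ℂ))) +
        (4 + 100 * (n + 1) * (2 + v)) * tol := by
      have h7 : 100 * ((n : ℝ) + 1) * (e * a + e * v + e ^ 2) ≤
          100 * ((n : ℝ) + 1) * (tol * (2 + v)) := by
        (clear * - s5; gcongr)
      linarith only [s4, m1, m2, h7]
    rw [← eU] at s1
    have s7 : N2 T.table (nu.prod m) (fun x ω => (U x ω : ℂ) - ((mol ε f x ω : ℝ) : ℂ)) * c1 ≤
        tol * c1 := mul_le_mul_of_nonneg_right nU hc10
    have s8 : c2 * N2 T.table m (Ek ε f k) ≤ c2 * (2 * N2 T.table m (md (n + 1) (fun x ω => (V x ω : ℂ))) +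
        2 * N2 T.table m (md (-n - 1) (fun x ω => (V x ω : ℂ))) +
        (4 + 100 * (n + 1) * (2 + v)) * tol) := mul_le_mul_of_nonneg_left s6 hc20
    linarith only [s1, s2, s3, s7, s8]
  -- the limit `tol → 0`
  have main2 : ∀ (k : ℤ) (n : ℕ), |k| ≤ n →
      ∫ q, ‖mL T.table φ k (fun x ω => (U x ω : ℂ)) q‖ ^ 2 ∂m ≤
        4 * c2 * (N2 T.table m (md (n + 1) (fun x ω => (V x ω : ℂ))) +
          N2 T.table m (md (-n - 1) (fun x ω => (V x ω : ℂ)))) := fun k n hkn =>
    le_of_affine (by (clear * - hc10 hc20 hv0; positivity)) (main k n hkn)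
  have hS : ∀ k : ℤ, ∫ q, ‖mL T.table φ k (fun x ω => (U x ω : ℂ)) q‖ ^ 2 ∂m = 0 := by
    intro k
    refine le_antisymm ?_ (integral_nonneg fun q => by (clear * -; positivity))
    have t0 := tendsto_N2_md (A := T.table) (m := m) hcV
    have t1 : Tendsto (fun n : ℕ => N2 T.table m (md ((n : ℤ) + 1) (fun x ω => (V x ω : ℂ))))
        atTop (𝓝 0) := by
      rw [← Nat.cofinite_eq_atTop]
      exact t0.comp (Function.Injective.tendsto_cofinite (f := fun n : ℕ => (n : ℤ) + 1)
        (fun a b hab => by simpa using hab))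
    have t2 : Tendsto (fun n : ℕ => N2 T.table m (md (-(n : ℤ) - 1) (fun x ω => (V x ω : ℂ))))
        atTop (𝓝 0) := by
      rw [← Nat.cofinite_eq_atTop]
      exact t0.comp (Function.Injective.tendsto_cofinite (f := fun n : ℕ => -(n : ℤ) - 1)
        (fun a b hab => by simpa using hab))
    have t3 := (t1.add t2).const_mul (4 * c2)
    rw [add_zero, mul_zero] at t3
    refine ge_of_tendsto t3 ?_
    filter_upwards [eventually_ge_atTop k.natAbs] with n hn
    exact main2 k n (by rw [Int.abs_eq_natAbs]; exact_mod_cast hn)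
  have hall : ∀ᵐ q ∂m, ∀ k : ℤ, mL T.table φ k (fun x ω => (U x ω : ℂ)) q = 0 := by
    rw [ae_all_iff]
    intro k
    have h3 := (integral_eq_zero_iff_of_nonneg (fun q => by (clear * -; positivity))
      (mL_int_sq (A := T.table) (m := m) hφ hK hcU k)).mp (hS k)
    filter_upwards [h3] with q hq
    have hq' : ‖mL T.table φ k (fun x ω => (U x ω : ℂ)) q‖ ^ 2 = 0 := hq
    exact norm_eq_zero.mp (pow_eq_zero_iff (by norm_num) |>.mp hq')
  obtain ⟨B, hB⟩ := Lam_bdd (A := T.table) hφ hK hcU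
  have hLm := Lam_meas (A := T.table) hφ hcU
  have hae : ∀ᵐ q ∂m, ∀ᵐ u ∂nu, Lam T.table φ (fun x ω => (U x ω : ℂ)) (u, q) = 0 := by
    filter_upwards [hall] with q hq
    exact ae_zero_of_mode _ (memLp_of_bdd (slice_meas hLm q) (C := B)
      (by filter_upwards [ae_norm] with u hu; exact hB (u, q) hu)) hq
  have hms : MeasurableSet {z : Ω × ℂ | Lam T.table φ (fun x ω => (U x ω : ℂ)) (z.2, z.1) = 0} :=
    (hLm.comp measurable_swap) (measurableSet_singleton 0)
  have hprod : ∀ᵐ z ∂(m.prod nu), Lam T.table φ (fun x ω => (U x ω : ℂ)) (z.2, z.1) = 0 :=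
    (Measure.ae_prod_iff_ae_ae hms).mpr hae
  have hfinal : ∀ᵐ z ∂(nu.prod m), Lam T.table φ (fun x ω => (U x ω : ℂ)) z = 0 := by
    have hsw : MeasurePreserving Prod.swap (nu.prod m) (m.prod nu) := Measure.measurePreserving_swap
    have := hsw.quasiMeasurePreserving.ae hprod
    simpa only [Prod.snd_swap, Prod.fst_swap, Prod.mk.eta] using this
  filter_upwards [hfinal] with ω hω
  have h3 : Lam T.table φ (fun x ω => (U x ω : ℂ)) ω =
      ((∫ x in T.table, U x ω * fderiv ℝ φ x (Complex.I * ω.1) : ℝ) : ℂ) := by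
    unfold Lam
    rw [← integral_complex_ofReal]
    push_cast
    rfl
  rw [h3] at hω
  exact_mod_cast hω

end Triangle

end Vale.Agent.P099
end
end

section

section

open MeasureTheory Set Filter Topology

namespace Vale.Agent.P099

variable {Ω : Type} [MeasurableSpace Ω]

namespace Triangle

variable (T : Triangle)

lemma wm_measurable_K {φ : ℂ → ℝ} (hφ : ContDiff ℝ (⊤ : ℕ∞) φ) :
    Measurable (fun z : ℂ × ℂ => fderiv ℝ φ z.1 (Complex.I * z.2)) := by
  have h1 : Continuous (fun x => fderiv ℝ φ x) := hφ.continuous_fderiv (by simp)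
  have h2 : Continuous (fun z : ℂ × ℂ => fderiv ℝ φ z.1 (Complex.I * z.2)) :=
    (h1.comp continuous_fst).clm_apply (by fun_prop)
  exact h2.measurable

lemma wm_bound_K {φ : ℂ → ℝ} (hφ : ContDiff ℝ (⊤ : ℕ∞) φ) (hφc : HasCompactSupport φ) :
    ∃ D : ℝ, 0 ≤ D ∧ ∀ x u, |fderiv ℝ φ x (Complex.I * u)| ≤ D * ‖u‖ := by
  have h1 : Continuous (fun x => fderiv ℝ φ x) := hφ.continuous_fderiv (by simp)
  obtain ⟨D, hD⟩ := h1.bounded_above_of_compact_support (hφc.fderiv ℝ)
  refine ⟨D, le_trans (norm_nonneg _) (hD 0), fun x u => ?_⟩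
  have := (fderiv ℝ φ x).le_opNorm (Complex.I * u)
  rw [Real.norm_eq_abs, norm_mul, Complex.norm_I, one_mul] at this
  exact this.trans (mul_le_mul_of_nonneg_right (hD x) (norm_nonneg _))

/-- the derivative of `H` orthogonally to the motion vanishes -/
theorem weakY {m : Measure Ω} [IsProbabilityMeasure m] {Ψ : ℝ → Ω → Ω} (hΨ : PFlow m Ψ)
    {H : ℂ → ℂ × Ω → ℝ} (hH : Bdd H) (hF : T.FreeInv m Ψ H) (hB : T.BounceInv m Ψ H)
    (φ : ℂ → ℝ) (hφ : ContDiff ℝ (⊤ : ℕ∞) φ) (hφc : HasCompactSupport φ)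
    (hφs : tsupport φ ⊆ T.table) :
    ∀ᵐ ω ∂(nu.prod m), ∫ x in T.table, H x ω * fderiv ℝ φ x (Complex.I * ω.1) = 0 := by
  obtain ⟨C, hC⟩ := hH.2
  obtain ⟨D, hD0, hD⟩ := wm_bound_K hφ hφc
  have hfin : Fact (volume T.table < ⊤) := ⟨T.volume_table_lt_top⟩
  set g : ℂ × Ω → ℝ := fun ω => ∫ x in T.table, H x ω * fderiv ℝ φ x (Complex.I * ω.1) with hg
  have mg : Measurable g := by
    have h1 : Measurable (fun z : (ℂ × Ω) × ℂ => H z.2 z.1 * fderiv ℝ φ z.2 (Complex.I * z.1.1)) := by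
      have h0 : Measurable (fun z : (ℂ × Ω) × ℂ => ((z.2, z.1) : ℂ × (ℂ × Ω))) := by fun_prop
      have h0' : Measurable (fun z : (ℂ × Ω) × ℂ => ((z.2, z.1.1) : ℂ × ℂ)) := by fun_prop
      exact (hH.1.comp h0).mul ((wm_measurable_K hφ).comp h0')
    exact (h1.stronglyMeasurable.integral_prod_right'
      (ν := (volume : Measure ℂ).restrict T.table)).measurable
  have key : ∀ ω : ℂ × Ω, ∀ τ : ℝ, 0 < τ →
      ∫ x in T.table, Uav Ψ τ H x ω * fderiv ℝ φ x (Complex.I * ω.1) =
        τ⁻¹ * ∫ s in (0:ℝ)..τ, g (ω.1, Ψ s ω.2) := by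
    intro ω τ hτ
    rw [intervalIntegral.integral_of_le hτ.le]
    simp only [hg]
    have hsw : ∫ s in Ioc 0 τ, ∫ x in T.table,
        H x (ω.1, Ψ s ω.2) * fderiv ℝ φ x (Complex.I * ω.1) =
        ∫ x in T.table, ∫ s in Ioc 0 τ,
        H x (ω.1, Ψ s ω.2) * fderiv ℝ φ x (Complex.I * ω.1) := by
      apply integral_integral_swap
      have h1 : Measurable (fun z : ℝ × ℂ => H z.2 (ω.1, Ψ z.1 ω.2) *
          fderiv ℝ φ z.2 (Complex.I * ω.1)) := by
        have h0 : Measurable (fun z : ℝ × ℂ => (((z.2, (ω.1, ω.2)), z.1) :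
          (ℂ × (ℂ × Ω)) × ℝ)) := by fun_prop
        have h0' : Measurable (fun z : ℝ × ℂ => ((z.2, ω.1) : ℂ × ℂ)) := by fun_prop
        exact ((bdd_meas_comp hΨ hH).comp h0).mul ((wm_measurable_K hφ).comp h0')
      refine Integrable.of_bound (C := C * (D * ‖ω.1‖)) h1.aestronglyMeasurable ?_
      refine Filter.Eventually.of_forall (fun z => ?_)
      simp only [Function.uncurry, Real.norm_eq_abs, abs_mul]
      exact mul_le_mul (hC _ _) (hD _ _) (abs_nonneg _) (le_trans (abs_nonneg _) (hC z.2 ω))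
    rw [hsw, ← integral_const_mul]
    apply integral_congr_ae
    refine Filter.Eventually.of_forall (fun x => ?_)
    simp only [Uav, intervalIntegral.integral_of_le hτ.le]
    rw [integral_mul_const]
    ring
  -- vanishing of the averages for all times
  have h1 : ∀ᵐ ω ∂(nu.prod m), ∀ τ : ℚ, 0 < (τ : ℝ) → ∫ s in (0:ℝ)..τ, g (ω.1, Ψ s ω.2) = 0 := by
    rw [ae_all_iff]
    intro τ
    by_cases hτ : 0 < (τ : ℝ)
    · have hr := T.rigid m (Uav Ψ τ H) (Vav Ψ τ H) (bdd_Uav hΨ hH hτ) (bdd_Vav hΨ hH hτ)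
        (T.freeDer_av hΨ hH hF) (T.bounceDer_av hΨ hH hF hB hτ) (skew_av hΨ hH hτ) φ hφ hφc hφs
      filter_upwards [hr] with ω hω _
      rw [key ω τ hτ] at hω
      rcases mul_eq_zero.mp hω with h | h
      · exact absurd h (inv_ne_zero hτ.ne')
      · exact h
    · exact Filter.Eventually.of_forall (fun ω h => absurd h hτ)
  have mgΨ : Measurable (fun z : (ℂ × Ω) × ℝ => g (z.1.1, Ψ z.2 z.1.2)) := by
    refine mg.comp (Measurable.prodMk (by fun_prop) ?_)
    exact hΨ.meas.comp (Measurable.prodMk measurable_snd (measurable_snd.comp measurable_fst))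
  have gb : ∀ ω, |g ω| ≤ C * (D * ‖ω.1‖) * (volume.real T.table) := by
    intro ω
    have := norm_setIntegral_le_of_norm_le_const (μ := volume) (s := T.table)
      (f := fun x => H x ω * fderiv ℝ φ x (Complex.I * ω.1)) (C := C * (D * ‖ω.1‖))
      T.volume_table_lt_top (fun x _ => by
        rw [Real.norm_eq_abs, abs_mul]
        exact mul_le_mul (hC _ _) (hD _ _) (abs_nonneg _) (le_trans (abs_nonneg _) (hC x ω)))
    exact this
  have h2 : ∀ᵐ ω ∂(nu.prod m), ∀ᵐ s : ℝ, 0 < s → g (ω.1, Ψ s ω.2) = 0 := by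
    filter_upwards [h1] with ω hω
    set f : ℝ → ℝ := fun s => g (ω.1, Ψ s ω.2) with hf
    have mf : Measurable f := by
      have h0 : Measurable (fun s : ℝ => ((ω, s) : (ℂ × Ω) × ℝ)) := by fun_prop
      exact mgΨ.comp h0
    have bf : ∀ s, |f s| ≤ C * (D * ‖ω.1‖) * (volume.real T.table) := fun s => gb _
    have hi : ∀ a b : ℝ, IntervalIntegrable f volume a b := locInt_of_bdd mf bf
    have hcont : Continuous (fun τ : ℝ => ∫ s in (0:ℝ)..τ, f s) :=
      intervalIntegral.continuous_primitive hi 0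
    have hzero : ∀ τ : ℝ, 0 < τ → ∫ s in (0:ℝ)..τ, f s = 0 := by
      intro τ hτ
      have hcl : IsClosed {τ : ℝ | ∫ s in (0:ℝ)..τ, f s = 0} :=
        isClosed_eq hcont continuous_const
      have hmem : τ ∈ closure {τ : ℝ | 0 < τ ∧ ∃ r : ℚ, (r : ℝ) = τ} := by
        rw [Metric.mem_closure_iff]
        intro ε hε
        obtain ⟨r, hr1, hr2⟩ := exists_rat_btwn (show τ < τ + ε by linarith only [hε])
        refine ⟨r, ⟨lt_trans hτ hr1, r, rfl⟩, ?_⟩
        rw [Real.dist_eq, abs_sub_comm, abs_of_pos (by linarith)]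
        linarith
      have hsub : {τ : ℝ | 0 < τ ∧ ∃ r : ℚ, (r : ℝ) = τ} ⊆ {τ : ℝ | ∫ s in (0:ℝ)..τ, f s = 0} := by
        rintro _ ⟨h0, r, rfl⟩
        exact hω r h0
      exact (closure_minimal hsub hcl) hmem
    have hloc : LocallyIntegrable f volume := by
      intro x
      refine ⟨Ioo (x - 1) (x + 1), Ioo_mem_nhds (by linarith) (by linarith), ?_⟩
      have : Fact (volume (Ioo (x - 1) (x + 1)) < ⊤) := ⟨measure_Ioo_lt_top⟩
      exact Integrable.of_bound mf.aestronglyMeasurable _ (Filter.Eventually.of_forall bf)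
    filter_upwards [LocallyIntegrable.ae_hasDerivAt_integral hloc] with s hs hpos
    have hd := hs 0
    have hd0 : HasDerivAt (fun τ : ℝ => ∫ t in (0:ℝ)..τ, f t) 0 s := by
      have heq : (fun τ : ℝ => ∫ t in (0:ℝ)..τ, f t) =ᶠ[𝓝 s] fun _ => 0 := by
        filter_upwards [lt_mem_nhds hpos] with τ hτ
        exact hzero τ hτ
      exact (hasDerivAt_const s (0:ℝ)).congr_of_eventuallyEq heq
    exact hd.unique hd0
  have hS : MeasurableSet {z : (ℂ × Ω) × ℝ | 0 < z.2 → g (z.1.1, Ψ z.2 z.1.2) = 0} := by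
    have e : {z : (ℂ × Ω) × ℝ | 0 < z.2 → g (z.1.1, Ψ z.2 z.1.2) = 0} =
        {z | 0 < z.2}ᶜ ∪ {z | g (z.1.1, Ψ z.2 z.1.2) = 0} := by
      ext z
      simp only [mem_ofPred_eq, mem_union, mem_compl_iff]
      (clear * -; tauto)
    rw [e]
    exact (measurableSet_lt measurable_const measurable_snd).compl.union
      (measurableSet_eq_fun mgΨ measurable_const)
  have h3 : ∀ᵐ s : ℝ, ∀ᵐ ω ∂(nu.prod m), 0 < s → g (ω.1, Ψ s ω.2) = 0 :=
    (Measure.ae_ae_comm (p := fun (ω : ℂ × Ω) (s : ℝ) => 0 < s → g (ω.1, Ψ s ω.2) = 0) hS).mp h2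
  obtain ⟨s, hs0, hs⟩ : ∃ s : ℝ, 0 < s ∧ ∀ᵐ ω ∂(nu.prod m), g (ω.1, Ψ s ω.2) = 0 := by
    by_contra hcon
    rw [not_exists] at hcon
    have hsub : Ioi (0:ℝ) ⊆ {s : ℝ | ¬ ∀ᵐ ω ∂(nu.prod m), 0 < s → g (ω.1, Ψ s ω.2) = 0} := by
      intro s hs hh
      apply hcon s
      refine ⟨hs, ?_⟩
      filter_upwards [hh] with ω hω
      exact hω hs
    have := measure_mono_null hsub (ae_iff.mp h3)
    simp at this
  have hmp : MeasurePreserving (Prod.map id (Ψ s)) (nu.prod m) (nu.prod m) :=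
    (MeasurePreserving.id _).prod (hΨ.mp s)
  have h4 : ∀ᵐ ω ∂((nu.prod m).map (Prod.map id (Ψ s))), g ω = 0 := by
    rw [ae_map_iff hmp.measurable.aemeasurable (measurableSet_eq_fun mg measurable_const)]
    exact hs
  rwa [hmp.map_eq] at h4

end Triangle

end Vale.Agent.P099
end
end

section

section

open MeasureTheory Set Filter Topology

namespace Vale.Agent.P099

variable {Ω : Type} [MeasurableSpace Ω]

namespace WM3

/-- mollification of a function of the position -/
noncomputable def mo (ε : ℝ) (g : ℂ → ℝ) (z : ℂ) : ℝ := ∫ y, rho ε (z - y) * g y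

lemma mo_eq_convolution (ε : ℝ) (g : ℂ → ℝ) :
    mo ε g = convolution g (rho ε) (ContinuousLinearMap.mul ℝ ℝ) volume := by
  funext x
  simp only [mo, convolution_def, ContinuousLinearMap.mul_apply', mul_comm]

lemma contDiff_mo {ε : ℝ} (hε : 0 < ε) {g : ℂ → ℝ} (hg : LocallyIntegrable g) :
    ContDiff ℝ (⊤ : ℕ∞) (mo ε g) := by
  rw [mo_eq_convolution]
  exact (hasCompactSupport_rho hε).contDiff_convolution_right _ hg (rho_contDiff ε)

lemma fderiv_mo {ε : ℝ} (hε : 0 < ε) {g : ℂ → ℝ} (hg : LocallyIntegrable g) (z v : ℂ) :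
    fderiv ℝ (mo ε g) z v = ∫ y, g y * fderiv ℝ (rho ε) (z - y) v := by
  rw [mo_eq_convolution]
  rw [((hasCompactSupport_rho hε).hasFDerivAt_convolution_right (ContinuousLinearMap.mul ℝ ℝ) hg
    ((rho_contDiff ε).of_le (by exact_mod_cast le_top)) z).fderiv]
  rw [convolution_precompR_apply (ContinuousLinearMap.mul ℝ ℝ) hg
    ((hasCompactSupport_rho hε).fderiv ℝ)
    ((rho_contDiff ε).continuous_fderiv (by simp))]
  simp only [convolution_def, ContinuousLinearMap.mul_apply']

lemma continuous_fderiv_mo {ε : ℝ} (hε : 0 < ε) {g : ℂ → ℝ} (hg : LocallyIntegrable g) (v : ℂ) :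
    Continuous fun z => fderiv ℝ (mo ε g) z v :=
  ((contDiff_mo hε hg).continuous_fderiv (by simp)).clm_apply continuous_const

/-- integrate the derivative along a segment -/
lemma mo_eq_of_segment {ε : ℝ} (hε : 0 < ε) {g : ℂ → ℝ} (hg : LocallyIntegrable g) {x y : ℂ}
    (h : ∀ z ∈ segment ℝ x y, fderiv ℝ (mo ε g) z (y - x) = 0) : mo ε g y = mo ε g x := by
  have hd : ∀ t : ℝ, HasDerivAt (fun t : ℝ => mo ε g (x + t • (y - x)))
      (fderiv ℝ (mo ε g) (x + t • (y - x)) (y - x)) t := by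
    intro t
    have h1 : HasFDerivAt (mo ε g) (fderiv ℝ (mo ε g) (x + t • (y - x))) (x + t • (y - x)) :=
      (((contDiff_mo hε hg).differentiable (by simp)).differentiableAt).hasFDerivAt
    have h2 : HasDerivAt (fun t : ℝ => x + t • (y - x)) (y - x) t := by
      simpa using ((hasDerivAt_id t).smul_const (y - x)).const_add x
    exact h1.comp_hasDerivAt t h2
  have key := constant_of_has_deriv_right_zero (a := (0 : ℝ)) (b := 1)
    (f := fun t : ℝ => mo ε g (x + t • (y - x)))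
    (fun t _ => (hd t).continuousAt.continuousWithinAt)
    (fun t ht => by
      have h3 := (hd t).hasDerivWithinAt (s := Ici t)
      rwa [h _ ⟨1 - t, t, by linarith [ht.2], ht.1, by ring, by
        simp only [Complex.real_smul]; push_cast; ring⟩] at h3)
    1 (by simp only [mem_Icc, zero_le_one, Std.le_refl, and_self])
  simpa using key

/-- for points of an open convex set the mollifications eventually agree -/
lemma eventually_mo_eq {Q : Set ℂ} (hQo : IsOpen Q) (hQc : Convex ℝ Q) {g : ℂ → ℝ}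
    (hg : LocallyIntegrable g) {x y : ℂ} (hx : x ∈ Q) (hy : y ∈ Q)
    (h : ∀ n : ℕ, ∀ z, Metric.closedBall z (1 / ((n : ℝ) + 1)) ⊆ Q →
      fderiv ℝ (mo (1 / ((n : ℝ) + 1)) g) z (y - x) = 0) :
    ∀ᶠ n : ℕ in atTop, mo (1 / ((n : ℝ) + 1)) g y = mo (1 / ((n : ℝ) + 1)) g x := by
  have hK : IsCompact (segment ℝ x y) := by
    rw [segment_eq_image_lineMap]
    exact isCompact_Icc.image AffineMap.lineMap_continuous
  obtain ⟨δ, hδ, hsub⟩ := hK.exists_cthickening_subset_open hQo (hQc.segment_subset hx hy)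
  have h1 : Tendsto (fun n : ℕ => 1 / ((n : ℝ) + 1)) atTop (𝓝 0) :=
    tendsto_one_div_add_atTop_nhds_zero_nat
  filter_upwards [h1.eventually (ge_mem_nhds hδ)] with n hn
  refine mo_eq_of_segment Nat.one_div_pos_of_nat hg fun z hz => ?_
  refine h n z (Subset.trans ?_ hsub)
  exact (Metric.closedBall_subset_cthickening hz _).trans (Metric.cthickening_mono hn _)

lemma ae_tendsto_mo {g : ℂ → ℝ} (hg : LocallyIntegrable g) :
    ∀ᵐ x : ℂ, Tendsto (fun n : ℕ => mo (1 / ((n : ℝ) + 1)) g x) atTop (𝓝 (g x)) := by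
  filter_upwards [ae_tendsto_mol1 hg] with x hx
  refine hx.comp ?_
  rw [tendsto_nhdsWithin_iff]
  exact ⟨tendsto_one_div_add_atTop_nhds_zero_nat,
    Eventually.of_forall fun n => mem_Ioi.2 (Nat.one_div_pos_of_nat (α := ℝ))⟩

lemma isOpen_inner {Q : Set ℂ} (hQo : IsOpen Q) (ε : ℝ) :
    IsOpen {z | Metric.closedBall z ε ⊆ Q} := by
  rw [Metric.isOpen_iff]
  intro z hz
  obtain ⟨δ, hδ, hsub⟩ := (isCompact_closedBall z ε).exists_cthickening_subset_open hQo hz
  refine ⟨δ, hδ, fun z' hz' w hw => hsub ?_⟩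
  refine Metric.mem_cthickening_of_dist_le w (w - z' + z) δ _ ?_ ?_
  · rw [Metric.mem_closedBall, dist_eq_norm] at hw ⊢
    simpa only [add_sub_cancel_right] using hw
  · rw [Metric.mem_ball, dist_eq_norm] at hz'
    rw [dist_eq_norm]
    have : w - (w - z' + z) = z' - z := by ring
    rw [this]
    exact hz'.le

/-- the weak derivative gives the derivative of the mollification -/
lemma fderiv_mo_of_weak {Q : Set ℂ} {g : ℂ → ℝ} (hg : LocallyIntegrable g) {ε : ℝ} (hε : 0 < ε)
    {z v : ℂ} (hz : Metric.closedBall z ε ⊆ Q)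
    (h : ∫ x in Q, g x * fderiv ℝ (fun y => rho ε (z - y)) x v = 0) :
    fderiv ℝ (mo ε g) z v = 0 := by
  have h1 : ∀ x, fderiv ℝ (fun y => rho ε (z - y)) x v = - fderiv ℝ (rho ε) (z - x) v := by
    intro x
    have h2 : HasFDerivAt (rho ε) (fderiv ℝ (rho ε) (z - x)) (z - x) :=
      (((rho_contDiff ε).differentiable (by simp)).differentiableAt).hasFDerivAt
    have h3 : HasFDerivAt (fun y : ℂ => z - y) (-(ContinuousLinearMap.id ℝ ℂ)) x :=
      (hasFDerivAt_id x).const_sub z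
    have h4 := h2.comp x h3
    have h5 : (rho ε ∘ fun y : ℂ => z - y) = fun y => rho ε (z - y) := rfl
    rw [h5] at h4
    rw [h4.fderiv]
    simp only [ContinuousLinearMap.comp_neg, ContinuousLinearMap.comp_id, neg_apply]
  simp only [h1] at h
  rw [fderiv_mo hε hg]
  have h6 : ∫ x in Q, g x * -(fderiv ℝ (rho ε) (z - x) v) =
      ∫ x, g x * -(fderiv ℝ (rho ε) (z - x) v) := by
    refine setIntegral_eq_integral_of_forall_compl_eq_zero fun x hx => ?_
    have : ε ≤ ‖z - x‖ := by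
      by_contra hlt
      apply hx
      apply hz
      rw [Metric.mem_closedBall, dist_comm, dist_eq_norm]
      exact (not_le.1 hlt).le
    rw [fderiv_rho_eq_zero hε this]
    simp
  rw [h6] at h
  simp only [mul_neg, integral_neg, neg_eq_zero] at h
  exact h

lemma tsupport_rho_sub {ε : ℝ} (hε : 0 < ε) (z : ℂ) :
    tsupport (fun y => rho ε (z - y)) ⊆ Metric.closedBall z ε := by
  refine closure_minimal ?_ Metric.isClosed_closedBall
  intro y hy
  rw [Metric.mem_closedBall]
  by_contra hlt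
  apply hy
  apply rho_eq_zero hε
  rw [not_le, dist_comm, dist_eq_norm] at hlt
  exact hlt.le

lemma hasCompactSupport_rho_sub {ε : ℝ} (hε : 0 < ε) (z : ℂ) :
    HasCompactSupport (fun y => rho ε (z - y)) :=
  (isCompact_closedBall z ε).of_isClosed_subset (isClosed_tsupport _) (tsupport_rho_sub hε z)

/-- invariance under small translations gives the vanishing of the derivative -/
lemma fderiv_mo_of_transl {Q : Set ℂ} (hQo : IsOpen Q) {g : ℂ → ℝ} (hg : LocallyIntegrable g)
    {ε : ℝ} (hε : 0 < ε) {z v : ℂ} (hz : Metric.closedBall z ε ⊆ Q)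
    (h : ∀ n : ℕ, ∀ᵐ x ∂(volume.restrict Q), x + (1 / ((n : ℝ) + 1)) • v ∈ Q →
      g (x + (1 / ((n : ℝ) + 1)) • v) = g x) :
    fderiv ℝ (mo ε g) z v = 0 := by
  obtain ⟨δ, hδ, hsub⟩ := (isCompact_closedBall z ε).exists_cthickening_subset_open hQo hz
  have ht : Tendsto (fun n : ℕ => 1 / ((n : ℝ) + 1)) atTop (𝓝 0) :=
    tendsto_one_div_add_atTop_nhds_zero_nat
  -- the difference quotients vanish
  have h1 : ∀ᶠ n : ℕ in atTop, mo ε g (z + (1 / ((n : ℝ) + 1)) • v) = mo ε g z := by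
    have ht2 : Tendsto (fun n : ℕ => 1 / ((n : ℝ) + 1) * ‖v‖) atTop (𝓝 0) := by
      simpa only [one_div, zero_mul] using ht.mul_const ‖v‖
    filter_upwards [ht2.eventually (ge_mem_nhds hδ)] with n hn
    have e1 : mo ε g (z + (1 / ((n : ℝ) + 1)) • v) =
        ∫ y, rho ε (z - y) * g (y + (1 / ((n : ℝ) + 1)) • v) := by
      unfold mo
      rw [← integral_add_right_eq_self (fun y => rho ε (z + (1 / ((n : ℝ) + 1)) • v - y) * g y)
        ((1 / ((n : ℝ) + 1)) • v)]
      refine integral_congr_ae (Eventually.of_forall fun y => ?_)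
      simp only
      congr 2
      ring
    rw [e1]
    unfold mo
    have hn' := h n
    rw [ae_restrict_iff' hQo.measurableSet] at hn'
    refine integral_congr_ae ?_
    filter_upwards [hn'] with y hy
    rcases le_or_gt ε ‖z - y‖ with h2 | h2
    · simp only [rho_eq_zero hε h2, zero_mul]
    · have hyB : y ∈ Metric.closedBall z ε := by
        rw [Metric.mem_closedBall, dist_comm, dist_eq_norm]; exact h2.le
      have hy2 : y + (1 / ((n : ℝ) + 1)) • v ∈ Q := by
        apply hsub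
        refine Metric.mem_cthickening_of_dist_le _ y δ _ hyB ?_
        rw [dist_eq_norm, add_sub_cancel_left, norm_smul, Real.norm_of_nonneg
          (Nat.one_div_pos_of_nat (α := ℝ)).le]
        exact hn
      simp only [hy (hz hyB) hy2]
  have h2 : HasDerivAt (fun t : ℝ => mo ε g (z + t • v)) (fderiv ℝ (mo ε g) z v) 0 := by
    have h3 : HasFDerivAt (mo ε g) (fderiv ℝ (mo ε g) z) (z + (0 : ℝ) • v) := by
      rw [zero_smul, add_zero]
      exact (((contDiff_mo hε hg).differentiable (by simp)).differentiableAt).hasFDerivAt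
    have h4 : HasDerivAt (fun t : ℝ => z + t • v) v 0 := by
      simpa using ((hasDerivAt_id (0 : ℝ)).smul_const v).const_add z
    exact h3.comp_hasDerivAt 0 h4
  have h5 := h2.tendsto_slope_zero
  have h6 : Tendsto (fun n : ℕ => 1 / ((n : ℝ) + 1)) atTop (𝓝[≠] 0) := by
    rw [tendsto_nhdsWithin_iff]
    exact ⟨ht, Eventually.of_forall fun n => (Nat.one_div_pos_of_nat (α := ℝ)).ne'⟩
  have h7 := h5.comp h6
  refine tendsto_nhds_unique h7 ?_
  refine tendsto_const_nhds.congr' ?_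
  filter_upwards [h1] with n hn
  simp only [Function.comp, zero_add, zero_smul, add_zero]
  rw [hn, sub_self, smul_zero]

/-- a function on a convex open set all of whose mollifications have derivative zero -/
lemma ae_const {Q : Set ℂ} (hQo : IsOpen Q) (hQc : Convex ℝ Q) {g : ℂ → ℝ}
    (hg : LocallyIntegrable g)
    (h : ∀ n : ℕ, ∀ z, Metric.closedBall z (1 / ((n : ℝ) + 1)) ⊆ Q → ∀ v,
      fderiv ℝ (mo (1 / ((n : ℝ) + 1)) g) z v = 0) :
    ∃ c, ∀ᵐ x ∂(volume.restrict Q), g x = c := by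
  rcases Q.eq_empty_or_nonempty with hQ | hQ
  · subst hQ
    exact ⟨0, by simp only [Measure.restrict_empty, ae_zero, eventually_bot]⟩
  have hpos : (volume.restrict Q) ≠ 0 := by
    rw [Ne, Measure.restrict_eq_zero]
    exact (hQo.measure_pos _ hQ).ne'
  have : NeZero (volume.restrict Q) := ⟨hpos⟩
  have h1 : ∀ᵐ x ∂(volume.restrict Q), x ∈ Q ∧
      Tendsto (fun n : ℕ => mo (1 / ((n : ℝ) + 1)) g x) atTop (𝓝 (g x)) :=
    (ae_restrict_mem hQo.measurableSet).and (ae_restrict_of_ae (ae_tendsto_mo hg))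
  obtain ⟨x0, hx0, hl0⟩ := h1.exists
  refine ⟨g x0, ?_⟩
  filter_upwards [h1] with x hx
  refine tendsto_nhds_unique hx.2 (hl0.congr' ?_)
  filter_upwards [eventually_mo_eq hQo hQc hg hx.1 hx0 fun n z hz => h n z hz _] with n hn using hn

lemma vec_eq {u : ℂ} (hu : ‖u‖ = 1) (v : ℂ) :
    v = ((starRingEnd ℂ) u * v).re • u + ((starRingEnd ℂ) u * v).im • (Complex.I * u) := by
  have h1 : (starRingEnd ℂ) u * u = 1 := by
    rw [Complex.conj_mul', hu]; simp
  have h2 : v = ((starRingEnd ℂ) u * v) * u := by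
    linear_combination (-v) * h1
  conv_lhs => rw [h2, ← Complex.re_add_im ((starRingEnd ℂ) u * v)]
  simp only [Complex.real_smul]
  ring

end WM3

namespace Triangle

variable (T : Triangle)

open WM3

/-- translation invariance orthogonally to the motion -/
theorem transY {m : Measure Ω} [IsProbabilityMeasure m]
    {H : ℂ → ℂ × Ω → ℝ} (hH : Bdd H)
    (hY : ∀ φ : ℂ → ℝ, ContDiff ℝ (⊤ : ℕ∞) φ → HasCompactSupport φ → tsupport φ ⊆ T.table →
      ∀ᵐ ω ∂(nu.prod m), ∫ x in T.table, H x ω * fderiv ℝ φ x (Complex.I * ω.1) = 0) (b : ℝ) :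
    ∀ᵐ p ∂((volume.restrict T.table).prod (nu.prod m)),
      p.1 + b • (Complex.I * p.2.1) ∈ T.table →
        H (p.1 + b • (Complex.I * p.2.1)) p.2 = H p.1 p.2 := by
  have hg := fun ω => hH.locallyIntegrable ω
  have h1 : ∀ᵐ ω ∂(nu.prod m), ∀ n k : ℕ,
      Metric.closedBall (TopologicalSpace.denseSeq ℂ k) (1 / ((n : ℝ) + 1)) ⊆ T.table →
      fderiv ℝ (mo (1 / ((n : ℝ) + 1)) (fun y => H y ω)) (TopologicalSpace.denseSeq ℂ k)
        (Complex.I * ω.1) = 0 := by
    rw [ae_all_iff]; intro n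
    rw [ae_all_iff]; intro k
    by_cases hk : Metric.closedBall (TopologicalSpace.denseSeq ℂ k) (1 / ((n : ℝ) + 1)) ⊆ T.table
    · have hε : (0 : ℝ) < 1 / ((n : ℝ) + 1) := Nat.one_div_pos_of_nat
      filter_upwards [hY (fun y => rho (1 / ((n : ℝ) + 1)) (TopologicalSpace.denseSeq ℂ k - y))
        ((rho_contDiff _).comp (contDiff_const.sub contDiff_id)) (hasCompactSupport_rho_sub hε _)
        ((tsupport_rho_sub hε _).trans hk)] with ω hω _
      exact fderiv_mo_of_weak (hg ω) hε hk hω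
    · exact Eventually.of_forall fun ω h => absurd h hk
  have h2 : ∀ᵐ ω ∂(nu.prod m), ∀ n : ℕ, ∀ z,
      Metric.closedBall z (1 / ((n : ℝ) + 1)) ⊆ T.table →
      fderiv ℝ (mo (1 / ((n : ℝ) + 1)) (fun y => H y ω)) z (Complex.I * ω.1) = 0 := by
    filter_upwards [h1] with ω hω n z hz
    have hε : (0 : ℝ) < 1 / ((n : ℝ) + 1) := Nat.one_div_pos_of_nat
    have hcl : IsClosed {z | fderiv ℝ (mo (1 / ((n : ℝ) + 1)) (fun y => H y ω)) z
        (Complex.I * ω.1) = 0} :=
      isClosed_eq (continuous_fderiv_mo hε (hg ω) _) continuous_const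
    have hsub : {z | Metric.closedBall z (1 / ((n : ℝ) + 1)) ⊆ T.table} ∩
        range (TopologicalSpace.denseSeq ℂ) ⊆ {z | fderiv ℝ (mo (1 / ((n : ℝ) + 1))
          (fun y => H y ω)) z (Complex.I * ω.1) = 0} := by
      rintro _ ⟨h3, k, rfl⟩
      exact hω n k h3
    exact closure_minimal hsub hcl
      ((TopologicalSpace.denseRange_denseSeq ℂ).open_subset_closure_inter
        (isOpen_inner T.isOpen_table _) hz)
  have hmeas : MeasurableSet {p : ℂ × (ℂ × Ω) | p.1 + b • (Complex.I * p.2.1) ∈ T.table →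
        H (p.1 + b • (Complex.I * p.2.1)) p.2 = H p.1 p.2} := by
    have hm : Measurable fun p : ℂ × (ℂ × Ω) => p.1 + b • (Complex.I * p.2.1) := by (clear * -; fun_prop)
    simp only [imp_iff_not_or]
    exact (hm T.measurableSet_table).compl.union
      (measurableSet_eq_fun (hH.1.comp (hm.prodMk measurable_snd)) hH.1)
  rw [Measure.ae_prod_iff_ae_ae hmeas, Measure.ae_ae_comm hmeas]
  filter_upwards [h2] with ω hω
  have h3 := ae_tendsto_mo (hg ω)
  have h4 := (measurePreserving_add_right (volume : Measure ℂ)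
    (b • (Complex.I * ω.1))).quasiMeasurePreserving.ae h3
  filter_upwards [ae_restrict_mem T.measurableSet_table, ae_restrict_of_ae h3,
    ae_restrict_of_ae h4] with x hx h5 h6 hy
  refine tendsto_nhds_unique h6 (h5.congr' ?_)
  have h7 : ∀ n : ℕ, ∀ z, Metric.closedBall z (1 / ((n : ℝ) + 1)) ⊆ T.table →
      fderiv ℝ (mo (1 / ((n : ℝ) + 1)) (fun y => H y ω)) z
        (x + b • (Complex.I * ω.1) - x) = 0 := by
    intro n z hz
    rw [add_sub_cancel_left, map_smul, hω n z hz, smul_zero]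
  filter_upwards [eventually_mo_eq T.isOpen_table T.convex_table (hg ω) hx hy h7] with n hn
    using hn.symm

/-- local translation invariance of the straightened function implies that it does not depend on
the position -/
theorem locconst {m : Measure Ω} [IsProbabilityMeasure m]
    {h : ℂ → ℂ × Ω → ℝ} (hh : Bdd h)
    (h1 : ∀ t : ℝ, ∀ᵐ p ∂((volume.restrict T.table).prod (nu.prod m)),
      p.1 + t • p.2.1 ∈ T.table → h (p.1 + t • p.2.1) p.2 = h p.1 p.2)
    (h2 : ∀ t : ℝ, ∀ᵐ p ∂((volume.restrict T.table).prod (nu.prod m)),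
      p.1 + t • (Complex.I * p.2.1) ∈ T.table → h (p.1 + t • (Complex.I * p.2.1)) p.2 = h p.1 p.2) :
    ∃ F : ℂ × Ω → ℝ, Measurable F ∧ (∃ C, ∀ ω, |F ω| ≤ C) ∧
      ∀ᵐ p ∂((volume.restrict T.table).prod (nu.prod m)), h p.1 p.2 = F p.2 := by
  have hg := fun ω => hh.locallyIntegrable ω
  have key : ∀ (V : ℂ × Ω → ℂ) (_ : Measurable V)
      (_ : ∀ t : ℝ, ∀ᵐ p ∂((volume.restrict T.table).prod (nu.prod m)),
        p.1 + t • V p.2 ∈ T.table → h (p.1 + t • V p.2) p.2 = h p.1 p.2),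
      ∀ᵐ ω ∂(nu.prod m), ∀ n : ℕ, ∀ᵐ x ∂(volume.restrict T.table),
        x + (1 / ((n : ℝ) + 1)) • V ω ∈ T.table → h (x + (1 / ((n : ℝ) + 1)) • V ω) ω = h x ω := by
    intro V hV hp
    rw [ae_all_iff]; intro n
    have hmeas : MeasurableSet {p : ℂ × (ℂ × Ω) | p.1 + (1 / ((n : ℝ) + 1)) • V p.2 ∈ T.table →
        h (p.1 + (1 / ((n : ℝ) + 1)) • V p.2) p.2 = h p.1 p.2} := by
      have hm0 : Measurable fun p : ℂ × (ℂ × Ω) => V p.2 := hV.comp measurable_snd
      have hm : Measurable fun p : ℂ × (ℂ × Ω) => p.1 + (1 / ((n : ℝ) + 1)) • V p.2 :=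
        measurable_fst.add (hm0.const_smul (1 / ((n : ℝ) + 1)))
      simp only [imp_iff_not_or]
      exact (hm T.measurableSet_table).compl.union
        (measurableSet_eq_fun (hh.1.comp (hm.prodMk measurable_snd)) hh.1)
    have h3 := hp (1 / ((n : ℝ) + 1))
    rw [Measure.ae_prod_iff_ae_ae hmeas, Measure.ae_ae_comm hmeas] at h3
    exact h3
  have k1 := key (fun ω => ω.1) measurable_fst h1
  have k2 := key (fun ω => Complex.I * ω.1) (measurable_fst.const_mul _) h2
  have k3 : ∀ᵐ ω ∂(nu.prod m), ‖ω.1‖ = 1 := by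
    have := (Measure.quasiMeasurePreserving_fst (μ := nu) (ν := m)).ae ae_norm
    exact this
  have k4 : ∀ᵐ ω ∂(nu.prod m), ∃ c, ∀ᵐ x ∂(volume.restrict T.table), h x ω = c := by
    filter_upwards [k1, k2, k3] with ω a1 a2 a3
    refine ae_const T.isOpen_table T.convex_table (hg ω) fun n z hz v => ?_
    have hε : (0 : ℝ) < 1 / ((n : ℝ) + 1) := Nat.one_div_pos_of_nat
    have e1 := fderiv_mo_of_transl T.isOpen_table (hg ω) hε hz a1
    have e2 := fderiv_mo_of_transl T.isOpen_table (hg ω) hε hz a2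
    rw [vec_eq a3 v, map_add, map_smul, map_smul, e1, e2]
    simp only [Complex.mul_re, Complex.conj_re, Complex.conj_im, neg_mul, sub_neg_eq_add, smul_eq_mul, mul_zero, Complex.mul_im, add_zero]
  have hfin : IsFiniteMeasure (volume.restrict T.table) :=
    ⟨by rw [Measure.restrict_apply_univ]; exact T.volume_table_lt_top⟩
  have hpos : 0 < volume.real T.table :=
    ENNReal.toReal_pos T.volume_table_pos.ne' T.volume_table_lt_top.ne
  obtain ⟨C, hC⟩ := hh.2
  have hFm : Measurable fun ω => (volume.real T.table)⁻¹ * ∫ x in T.table, h x ω := by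
    have := hh.1.stronglyMeasurable.integral_prod_left' (μ := volume.restrict T.table)
    exact this.measurable.const_mul _
  refine ⟨fun ω => (volume.real T.table)⁻¹ * ∫ x in T.table, h x ω, hFm, ⟨C, fun ω => ?_⟩, ?_⟩
  · rw [abs_mul, abs_of_pos (inv_pos.2 hpos)]
    have h5 : ‖∫ x in T.table, h x ω‖ ≤ C * (volume.restrict T.table).real univ :=
      norm_integral_le_of_norm_le_const (Eventually.of_forall fun x => hC x ω)
    rw [measureReal_restrict_apply_univ, Real.norm_eq_abs] at h5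
    rw [inv_mul_le_iff₀ hpos]
    linarith
  · have hmeas : MeasurableSet {p : ℂ × (ℂ × Ω) | h p.1 p.2 =
        (volume.real T.table)⁻¹ * ∫ x in T.table, h x p.2} :=
      measurableSet_eq_fun hh.1 (hFm.comp measurable_snd)
    rw [Measure.ae_prod_iff_ae_ae hmeas, Measure.ae_ae_comm hmeas]
    filter_upwards [k4] with ω hω
    obtain ⟨c, hc⟩ := hω
    have h6 : ∫ x in T.table, h x ω = volume.real T.table * c := by
      rw [integral_congr_ae hc, integral_const, measureReal_restrict_apply_univ, smul_eq_mul]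
    filter_upwards [hc] with x hx
    rw [h6, hx]
    (clear * - hpos; field_simp)

/-- structure of the invariant function -/
theorem exists_F {m : Measure Ω} [IsProbabilityMeasure m] {Ψ : ℝ → Ω → Ω} (hΨ : PFlow m Ψ)
    {H : ℂ → ℂ × Ω → ℝ} (hH : Bdd H) (hF : T.FreeInv m Ψ H)
    (hY : ∀ φ : ℂ → ℝ, ContDiff ℝ (⊤ : ℕ∞) φ → HasCompactSupport φ → tsupport φ ⊆ T.table →
      ∀ᵐ ω ∂(nu.prod m), ∫ x in T.table, H x ω * fderiv ℝ φ x (Complex.I * ω.1) = 0) (O : ℂ) :
    ∃ F : ℂ × Ω → ℝ, Measurable F ∧ (∃ C, ∀ ω, |F ω| ≤ C) ∧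
      ∀ᵐ p ∂((volume.restrict T.table).prod (nu.prod m)),
        H p.1 (p.2.1, Ψ (dt (p.1 - O) p.2.1) p.2.2) = F p.2 := by
  have hdt : Measurable fun p : ℂ × (ℂ × Ω) => dt (p.1 - O) p.2.1 := by
    unfold dt
    have h1 : Measurable fun p : ℂ × (ℂ × Ω) => p.1 - O := measurable_fst.sub_const _
    have h2 : Measurable fun p : ℂ × (ℂ × Ω) => p.2.1 := measurable_fst.comp measurable_snd
    exact ((Complex.measurable_re.comp h1).mul (Complex.measurable_re.comp h2)).add
      ((Complex.measurable_im.comp h1).mul (Complex.measurable_im.comp h2))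
  have hh : Bdd (fun x (ω : ℂ × Ω) => H x (ω.1, Ψ (dt (x - O) ω.1) ω.2)) := by
    obtain ⟨hm, C, hC⟩ := hH
    refine ⟨?_, C, fun y ω => hC _ _⟩
    exact hm.comp (measurable_fst.prodMk ((measurable_fst.comp measurable_snd).prodMk
      (hΨ.meas.comp (hdt.prodMk (measurable_snd.comp measurable_snd)))))
  -- transfer of an almost everywhere statement to the product
  have hmeas : ∀ (V : ℂ → ℂ) (_ : Measurable V) (t : ℝ),
      MeasurableSet {p : ℂ × (ℂ × Ω) | p.1 + t • V p.2.1 ∈ T.table →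
        H (p.1 + t • V p.2.1) (p.2.1, Ψ (dt (p.1 + t • V p.2.1 - O) p.2.1) p.2.2) =
          H p.1 (p.2.1, Ψ (dt (p.1 - O) p.2.1) p.2.2)} := by
    intro V hV t
    have hm0 : Measurable fun p : ℂ × (ℂ × Ω) => V p.2.1 :=
      hV.comp (measurable_fst.comp measurable_snd)
    have hm : Measurable fun p : ℂ × (ℂ × Ω) => p.1 + t • V p.2.1 :=
      measurable_fst.add (hm0.const_smul t)
    simp only [imp_iff_not_or]
    exact (hm T.measurableSet_table).compl.union
      (measurableSet_eq_fun (hh.1.comp (hm.prodMk measurable_snd)) hh.1)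
  have htr : ∀ (V : ℂ → ℂ) (_ : Measurable V) (t : ℝ),
      (∀ᵐ x ∂(volume.restrict T.table), ∀ᵐ u ∂nu, ∀ᵐ q ∂m, x + t • V u ∈ T.table →
        H (x + t • V u) (u, Ψ (dt (x + t • V u - O) u) q) = H x (u, Ψ (dt (x - O) u) q)) →
      ∀ᵐ p ∂((volume.restrict T.table).prod (nu.prod m)), p.1 + t • V p.2.1 ∈ T.table →
        H (p.1 + t • V p.2.1) (p.2.1, Ψ (dt (p.1 + t • V p.2.1 - O) p.2.1) p.2.2) =
          H p.1 (p.2.1, Ψ (dt (p.1 - O) p.2.1) p.2.2) := by
    intro V hV t h
    rw [Measure.ae_prod_iff_ae_ae (hmeas V hV t)]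
    filter_upwards [h] with x hx
    have hm2 : MeasurableSet {ω : ℂ × Ω | x + t • V ω.1 ∈ T.table →
        H (x + t • V ω.1) (ω.1, Ψ (dt (x + t • V ω.1 - O) ω.1) ω.2) =
          H x (ω.1, Ψ (dt (x - O) ω.1) ω.2)} :=
      (measurable_const.prodMk measurable_id : Measurable fun ω : ℂ × Ω => (x, ω))
        (hmeas V hV t)
    exact (Measure.ae_prod_iff_ae_ae hm2).2 hx
  have hpos : ∀ t : ℝ, 0 < t → ∀ᵐ p ∂((volume.restrict T.table).prod (nu.prod m)),
      p.1 + t • p.2.1 ∈ T.table →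
        H (p.1 + t • p.2.1) (p.2.1, Ψ (dt (p.1 + t • p.2.1 - O) p.2.1) p.2.2) =
          H p.1 (p.2.1, Ψ (dt (p.1 - O) p.2.1) p.2.2) := by
    intro t ht
    refine htr (fun u => u) measurable_id t ?_
    have h1 := hF t ht
    filter_upwards [Measure.ae_ae_of_ae_prod h1] with x hx
    filter_upwards [Measure.ae_ae_of_ae_prod hx, ae_norm] with u hu hn
    filter_upwards [(hΨ.mp (dt (x - O) u)).quasiMeasurePreserving.ae hu,
      hΨ.add t (dt (x - O) u)] with q h2 h3 h4
    have e1 : dt (x + t • u - O) u = t + dt (x - O) u := by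
      have h5 : u.re * u.re + u.im * u.im = 1 := by
        have := Complex.sq_norm u
        rw [hn, Complex.normSq_apply] at this
        linarith only [this]
      simp only [dt, Complex.sub_re, Complex.add_re, Complex.sub_im, Complex.add_im,
        Complex.smul_re, Complex.smul_im, smul_eq_mul]
      linear_combination t * h5
    rw [e1, h3]
    exact h2 h4
  have hall : ∀ t : ℝ, ∀ᵐ p ∂((volume.restrict T.table).prod (nu.prod m)),
      p.1 + t • p.2.1 ∈ T.table →
        H (p.1 + t • p.2.1) (p.2.1, Ψ (dt (p.1 + t • p.2.1 - O) p.2.1) p.2.2) =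
          H p.1 (p.2.1, Ψ (dt (p.1 - O) p.2.1) p.2.2) := by
    intro t
    rcases lt_trichotomy t 0 with ht | ht | ht
    · have h1 := hpos (-t) (by linarith only [ht])
      have hmm := hmeas (fun u => u) measurable_id (-t)
      rw [Measure.ae_prod_iff_ae_ae hmm, Measure.ae_ae_comm hmm] at h1
      have hmm2 := hmeas (fun u => u) measurable_id t
      rw [Measure.ae_prod_iff_ae_ae hmm2, Measure.ae_ae_comm hmm2]
      filter_upwards [h1] with ω hω
      rw [ae_restrict_iff' T.measurableSet_table] at hω ⊢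
      have h2 := (measurePreserving_add_right (volume : Measure ℂ)
        (t • ω.1)).quasiMeasurePreserving.ae hω
      filter_upwards [h2] with x hx h3 h4
      have h5 : x + t • ω.1 + (-t) • ω.1 = x := by
        rw [neg_smul, add_neg_cancel_right]
      simp only [h5] at hx
      exact (hx h4 h3).symm
    · subst ht
      refine Eventually.of_forall fun p _ => ?_
      simp
    · exact hpos t ht
  refine T.locconst hh hall fun t => ?_
  have h2 := T.transY hH hY t
  refine htr (fun u => Complex.I * u) (measurable_id.const_mul _) t ?_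
  filter_upwards [Measure.ae_ae_of_ae_prod h2] with x hx
  filter_upwards [Measure.ae_ae_of_ae_prod hx] with u hu
  filter_upwards [(hΨ.mp (dt (x - O) u)).quasiMeasurePreserving.ae hu] with q h3 h4
  have e1 : dt (x + t • (Complex.I * u) - O) u = dt (x - O) u := by
    simp only [dt, Complex.sub_re, Complex.add_re, Complex.sub_im, Complex.add_im,
      Complex.smul_re, Complex.smul_im, smul_eq_mul, Complex.mul_re, Complex.mul_im,
      Complex.I_re, Complex.I_im]
    ring
  rw [e1]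
  exact h3 h4

end Triangle

end Vale.Agent.P099
end
end

section

section

open MeasureTheory Set Filter Topology

namespace Vale.Agent.P099

variable {Ω : Type} [MeasurableSpace Ω]

namespace WM4

lemma nu_singleton (z : ℂ) : nu {z} = 0 := by
  rw [nu, Measure.map_apply measurable_expI (measurableSet_singleton z), ProbabilityTheory.cond,
    Measure.smul_apply, Measure.restrict_apply (measurable_expI (measurableSet_singleton z))]
  have h : volume ((fun θ : ℝ => Complex.exp (θ * Complex.I)) ⁻¹' {z} ∩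
      Ioc (-Real.pi) Real.pi) = 0 := by
    refine measure_mono_null (t := {z.arg}) ?_ Real.volume_singleton
    rintro θ ⟨h1, h2⟩
    simp only [mem_preimage, mem_singleton_iff] at h1 ⊢
    rw [← h1, Complex.exp_mul_I, Complex.arg_cos_add_sin_mul_I h2]
  rw [h, smul_zero]

lemma continuous_ell (T : Triangle) (i : Fin 3) : Continuous (T.ell i) := by
  unfold Triangle.ell cr
  fun_prop

lemma continuous_lam (T : Triangle) (i : Fin 3) : Continuous (T.lam i) := by
  unfold Triangle.lam cr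
  fun_prop

lemma ae_ell_ne (T : Triangle) (i : Fin 3) : ∀ᵐ u ∂nu, T.ell i u ≠ 0 := by
  have hd : 0 < ‖T.d i‖ := norm_pos_iff.2 (T.d_ne i)
  set w : ℂ := T.d i / (‖T.d i‖ : ℂ) with hw
  have hdc : (‖T.d i‖ : ℂ) ≠ 0 := by exact_mod_cast hd.ne'
  have h1 : ∀ᵐ u ∂nu, u ≠ w := by
    rw [ae_iff]; simpa only [ne_eq, Decidable.not_not, ofPred_eq_eq_singleton] using nu_singleton w
  have h2 : ∀ᵐ u ∂nu, u ≠ -w := by
    rw [ae_iff]; simpa only [ne_eq, Decidable.not_not, ofPred_eq_eq_singleton] using nu_singleton (-w)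
  filter_upwards [ae_norm, h1, h2] with u hu hu1 hu2 h0
  unfold Triangle.ell at h0
  rw [div_eq_zero_iff, or_iff_left T.Del_ne, Triangle.cr_eq_im] at h0
  have h3 := Complex.conj_eq_iff_im.2 h0
  rw [map_mul, Complex.conj_conj] at h3
  -- d * conj u = conj d * u, so (u / w) ^ 2 = 1
  have hcu : (starRingEnd ℂ) u * u = 1 := by
    rw [mul_comm, Complex.mul_conj, Complex.normSq_eq_norm_sq, hu]; simp
  have hcd : T.d i * (starRingEnd ℂ) (T.d i) = (‖T.d i‖ : ℂ) ^ 2 := by
    rw [Complex.mul_conj, Complex.normSq_eq_norm_sq]; push_cast; rfl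
  have h4 : T.d i ^ 2 = (‖T.d i‖ : ℂ) ^ 2 * u ^ 2 := by
    calc T.d i ^ 2 = T.d i * (T.d i * ((starRingEnd ℂ) u * u)) := by rw [hcu]; ring
      _ = T.d i * (starRingEnd ℂ (T.d i) * u) * u := by rw [← h3]; ring
      _ = _ := by rw [show T.d i * (starRingEnd ℂ (T.d i) * u) * u =
          (T.d i * starRingEnd ℂ (T.d i)) * u ^ 2 by ring, hcd]
  have h5 : (u - w) * (u + w) = 0 := by
    rw [hw]
    field_simp
    linear_combination -h4
  rcases mul_eq_zero.1 h5 with h | h
  · exact hu1 (sub_eq_zero.1 h)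
  · exact hu2 (eq_neg_of_add_eq_zero_left h)

lemma measurable_dt : Measurable (fun p : ℂ × ℂ => dt p.1 p.2) := by
  unfold dt
  fun_prop

/-- swap of the order of almost everywhere quantifiers, no measurability needed -/
lemma ae_swap {α β : Type*} [MeasurableSpace α] [MeasurableSpace β] {μ : Measure α}
    {κ : Measure β} [SFinite μ] [SFinite κ] {P : α × β → Prop} (h : ∀ᵐ p ∂(μ.prod κ), P p) :
    ∀ᵐ y ∂κ, ∀ᵐ x ∂μ, P (x, y) := by
  have h1 : ∀ᵐ p ∂(κ.prod μ), P p.swap :=
    Measure.measurePreserving_swap.quasiMeasurePreserving.ae h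
  exact (Measure.ae_ae_of_ae_prod h1 :)

/-- the shear `(u, q) ↦ (u, Ψ (a u) q)` -/
lemma mp_shear {m : Measure Ω} [IsProbabilityMeasure m] {Ψ : ℝ → Ω → Ω} (hΨ : PFlow m Ψ)
    {α β : Type*} [MeasurableSpace α] [MeasurableSpace β] {μ : Measure α} {κ : Measure β}
    [SFinite μ] {f : α → β} (hf : MeasurePreserving f μ κ)
    {a : α → ℝ} (ha : Measurable a) :
    MeasurePreserving (fun p : α × Ω => (f p.1, Ψ (a p.1) p.2)) (μ.prod m) (κ.prod m) := by
  refine MeasurePreserving.skew_product (g := fun x q => Ψ (a x) q) hf ?_ ?_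
  · exact hΨ.meas.comp ((ha.comp measurable_fst).prodMk measurable_snd)
  · exact ae_of_all _ fun x => (hΨ.mp (a x)).map_eq

end WM4

open WM4

namespace Triangle

variable (T : Triangle)

/-- there are many states with a collision on side `i` -/
lemma exists_time (i : Fin 3) : ∃ t : ℝ, 0 < t ∧ ∀ u : ℂ, ‖u‖ = 1 → T.ell i u < 0 →
    ∃ U : Set ℂ, IsOpen U ∧ U.Nonempty ∧ U ⊆ T.table ∧ ∀ x ∈ U,
      T.E i (x, u) ∧ T.hitT i (x, u) < t ∧ T.R i (x + t • u) ∈ T.table := by
  have hL := T.Lp_pos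
  obtain ⟨ε, hε0, hε⟩ : ∃ ε : ℝ, 0 < ε ∧ ε * T.Lp < 1 / 4 := by
    refine ⟨1 / (8 * T.Lp), by positivity, ?_⟩
    rw [div_mul_eq_mul_div, div_lt_iff₀ (by positivity)]
    linarith
  refine ⟨2 * ε, by positivity, fun u hu hell => ?_⟩
  have hell' : T.ell i u ≠ 0 := hell.ne
  -- base point: midpoint of the side
  set M : ℂ := (1 / 2 : ℝ) • T.P (i + 1) + (1 / 2 : ℝ) • T.P (i + 2) with hM
  have hlamM : ∀ j, T.lam j M = 1 / 2 * (if j = i + 1 then 1 else 0) +
      1 / 2 * (if j = i + 2 then 1 else 0) := by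
    intro j
    rw [hM, T.lam_comb j (by norm_num), T.lam_P, T.lam_P]
  have hlamMi : T.lam i M = 0 := by
    rw [hlamM]
    have h1 : ∀ i : Fin 3, i ≠ i + 1 := by decide
    have h2 : ∀ i : Fin 3, i ≠ i + 2 := by decide
    rw [if_neg (h1 i), if_neg (h2 i)]; norm_num
  have hlamMj : ∀ j, j ≠ i → T.lam j M = 1 / 2 := by
    intro j hj
    rw [hlamM]
    have h1 : ∀ i j : Fin 3, j ≠ i → j = i + 1 ∨ j = i + 2 := by decide
    have h2 : ∀ i : Fin 3, i + 1 ≠ i + 2 := by decide
    rcases h1 i j hj with h | h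
    · rw [h, if_pos rfl, if_neg (h2 i)]; norm_num
    · rw [h, if_neg (h2 i).symm, if_pos rfl]; norm_num
  have hbd : ∀ (j : Fin 3) (v : ℂ), ‖v‖ = 1 → |ε * T.ell j v| < 1 / 4 := by
    intro j v hv
    have := T.abs_ell_le j v
    rw [hv, mul_one] at this
    rw [abs_mul, abs_of_pos hε0]
    exact (mul_le_mul_of_nonneg_left this hε0.le).trans_lt hε
  refine ⟨{x | x ∈ T.table ∧ (∀ j, j ≠ i → 0 < T.lam j (x + T.hitT i (x, u) • u)) ∧
    T.hitT i (x, u) < 2 * ε ∧ T.R i (x + (2 * ε) • u) ∈ T.table}, ?_, ?_, ?_, ?_⟩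
  · have hc : Continuous fun x => T.hitT i (x, u) := by
      show Continuous fun x => - T.lam i x / T.ell i u
      exact (continuous_lam T i).neg.div_const _
    refine T.isOpen_table.inter (IsOpen.inter ?_ (IsOpen.inter ?_ ?_))
    · have : {x | ∀ j, j ≠ i → 0 < T.lam j (x + T.hitT i (x, u) • u)} =
          ⋂ j, {x | j ≠ i → 0 < T.lam j (x + T.hitT i (x, u) • u)} := by
        ext x; simp only [ne_eq, Complex.real_smul, mem_ofPred_eq, mem_iInter]
      rw [show (fun x => ∀ j, j ≠ i → 0 < T.lam j (x + T.hitT i (x, u) • u)) =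
        {x | ∀ j, j ≠ i → 0 < T.lam j (x + T.hitT i (x, u) • u)} from rfl, this]
      refine isOpen_iInter_of_finite fun j => ?_
      by_cases hj : j = i
      · have : {x : ℂ | j ≠ i → 0 < T.lam j (x + T.hitT i (x, u) • u)} = univ := by
          ext x; simp [hj]
        rw [this]; exact isOpen_univ
      · have : {x : ℂ | j ≠ i → 0 < T.lam j (x + T.hitT i (x, u) • u)} =
            {x | 0 < T.lam j (x + T.hitT i (x, u) • u)} := by
          ext x; simp only [ne_eq, hj, not_false_eq_true, Complex.real_smul, forall_const, mem_ofPred_eq]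
        rw [this]
        exact isOpen_lt continuous_const
          ((continuous_lam T j).comp (continuous_id.add (hc.smul continuous_const)))
    · exact isOpen_lt hc continuous_const
    · exact T.isOpen_table.preimage ((T.continuous_R i).comp (continuous_id.add continuous_const))
  · have hx0 : T.hitT i (M + (-ε) • u, u) = ε := by
      unfold hitT
      rw [T.lam_add_smul, hlamMi]
      field_simp
      ring
    refine ⟨M + (-ε) • u, ?_, ?_, ?_, ?_⟩
    · rw [T.mem_table_iff]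
      intro j
      rw [T.lam_add_smul]
      by_cases hj : j = i
      · rw [hj, hlamMi]
        have : 0 < -ε * T.ell i u := mul_pos_of_neg_of_neg (by linarith only [hε0]) hell
        linarith only [this]
      · rw [hlamMj j hj]
        have := abs_lt.1 (hbd j u hu)
        linarith only [this]
    · intro j hj
      rw [hx0]
      have : M + (-ε) • u + ε • u = M := by module
      rw [this, hlamMj j hj]; norm_num
    · rw [hx0]; linarith only [hε0]
    · have e1 : M + (-ε) • u + (2 * ε) • u = M + ε • u := by module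
      rw [e1, T.R_add, T.R_of_lam_eq_zero hlamMi, T.refl_smul, T.mem_table_iff]
      intro j
      rw [T.lam_add_smul]
      by_cases hj : j = i
      · rw [hj, hlamMi, T.ell_refl]
        have : 0 < ε * -T.ell i u := mul_pos hε0 (by linarith only [hell])
        linarith only [this]
      · rw [hlamMj j hj]
        have := abs_lt.1 (hbd j (T.refl i u) (by rw [T.norm_refl, hu]))
        linarith only [this]
  · intro x hx; exact hx.1
  · rintro x ⟨h1, h2, h3, h4⟩
    exact ⟨⟨hell, h2⟩, h3, h4⟩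

lemma refl_R_sub (i : Fin 3) (a b : ℂ) : T.R i a - T.R i b = T.refl i (a - b) := by
  unfold R
  rw [add_sub_add_left_eq_sub, ← T.refl_sub]
  congr 1; ring

/-- the key computation of times -/
lemma time_eq (i : Fin 3) (O x u : ℂ) (hu : ‖u‖ = 1) (t : ℝ) :
    dt (T.R i (x + t • u) - O) (T.refl i u) + dt (T.R i O - O) u = t + dt (x - O) u := by
  have h1 : T.R i (x + t • u) - O = T.refl i (x + t • u - T.R i O) := by
    rw [← T.refl_R_sub, T.R_R]
  rw [h1, T.dt_refl]
  have h2 : dt u u = 1 := by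
    unfold dt
    have := Complex.normSq_eq_norm_sq u
    rw [hu, Complex.normSq_apply] at this
    linarith
  have h3 : dt (x + t • u - T.R i O) u = dt (x - O) u + t * dt u u - dt (T.R i O - O) u := by
    unfold dt
    simp only [Complex.add_re, Complex.add_im, Complex.sub_re, Complex.sub_im, Complex.real_smul,
      Complex.re_ofReal_mul, Complex.im_ofReal_mul]
    ring
  rw [h3, h2]; ring

/-- the reflected time shift -/
lemma shift_refl (i : Fin 3) (O u : ℂ) :
    dt (T.R i O - O) (T.refl i u) = - dt (T.R i O - O) u := by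
  have h1 : T.R i O - O = T.refl i (O - T.R i O) := by
    rw [← T.refl_R_sub, T.R_R]
  conv_lhs => rw [h1]
  rw [T.dt_refl]
  unfold dt
  simp only [Complex.sub_re, Complex.sub_im]
  ring

/-- the reflection relation for directions pointing to the side -/
theorem F_refl_neg {m : Measure Ω} [IsProbabilityMeasure m] {Ψ : ℝ → Ω → Ω} (hΨ : PFlow m Ψ)
    {H : ℂ → ℂ × Ω → ℝ} (hH : Bdd H) (hB : T.BounceInv m Ψ H) (O : ℂ)
    {F : ℂ × Ω → ℝ}
    (hF : ∀ᵐ p ∂((volume.restrict T.table).prod (nu.prod m)),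
        H p.1 (p.2.1, Ψ (dt (p.1 - O) p.2.1) p.2.2) = F p.2) (i : Fin 3) :
    ∀ᵐ ω ∂(nu.prod m), T.ell i ω.1 < 0 →
      F (T.refl i ω.1, Ψ (dt (T.R i O - O) ω.1) ω.2) = F ω := by
  obtain ⟨t, ht0, ht⟩ := T.exists_time i
  have hHm := hH.1
  -- measurability of shifts
  have mdt : ∀ w : ℂ, Measurable fun u : ℂ => dt w u := fun w =>
    measurable_dt.comp (measurable_const.prodMk measurable_id)
  have hJ : MeasurePreserving (fun ω : ℂ × Ω => (T.refl i ω.1, Ψ (dt (T.R i O - O) ω.1) ω.2))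
      (nu.prod m) (nu.prod m) :=
    mp_shear hΨ (T.measurePreserving_refl i) (mdt _)
  -- (a)
  have a1 := hJ.quasiMeasurePreserving.ae (ae_swap hF)
  have a2 : ∀ᵐ ω ∂(nu.prod m), ∀ᵐ y ∂(volume : Measure ℂ), T.R i (y + t • ω.1) ∈ T.table →
      H (T.R i (y + t • ω.1)) (T.refl i ω.1,
        Ψ (dt (T.R i (y + t • ω.1) - O) (T.refl i ω.1)) (Ψ (dt (T.R i O - O) ω.1) ω.2)) =
        F (T.refl i ω.1, Ψ (dt (T.R i O - O) ω.1) ω.2) := by
    filter_upwards [a1] with ω h1
    rw [ae_restrict_iff' T.isOpen_table.measurableSet] at h1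
    have hq : MeasurePreserving (fun y : ℂ => T.R i (y + t • ω.1)) volume volume :=
      (T.measurePreserving_R i).comp (measurePreserving_add_right volume _)
    exact hq.quasiMeasurePreserving.ae h1
  -- (b), (c)
  have hSh : MeasurePreserving (fun p : ℂ × (ℂ × Ω) =>
      (p.1, (p.2.1, Ψ (dt (p.1 - O) p.2.1) p.2.2)))
      ((volume.restrict T.table).prod (nu.prod m)) ((volume.restrict T.table).prod (nu.prod m)) := by
    refine MeasurePreserving.skew_product
      (g := fun x (ω : ℂ × Ω) => (ω.1, Ψ (dt (x - O) ω.1) ω.2)) (MeasurePreserving.id _) ?_ ?_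
    · have h1 : Measurable fun p : ℂ × (ℂ × Ω) => dt (p.1 - O) p.2.1 :=
        measurable_dt.comp ((measurable_fst.sub_const O).prodMk (measurable_fst.comp measurable_snd))
      exact (measurable_fst.comp measurable_snd).prodMk
        (hΨ.meas.comp (h1.prodMk (measurable_snd.comp measurable_snd)))
    · exact ae_of_all _ fun x => (mp_shear hΨ (MeasurePreserving.id nu) (mdt (x - O))).map_eq
  have b1 := hSh.quasiMeasurePreserving.ae (hB t ht0 i)
  have c1 : ∀ᵐ ω ∂(nu.prod m), ∀ᵐ x ∂(volume.restrict T.table),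
      T.E i (x, ω.1) → T.hitT i (x, ω.1) < t → T.R i (x + t • ω.1) ∈ T.table →
      H (T.R i (x + t • ω.1)) (T.refl i ω.1, Ψ t (Ψ (dt (x - O) ω.1) ω.2)) = F ω := by
    have h := ae_swap (hF.and b1)
    filter_upwards [h] with ω h1
    filter_upwards [h1] with x h2 h3 h4 h5
    have h6 := h2.2 h3 h4 h5
    rw [← h2.1]
    exact h6
  -- (d)
  have d1 : ∀ᵐ ω ∂(nu.prod m), ∀ᵐ x ∂(volume.restrict T.table),
      H (T.R i (x + t • ω.1)) (T.refl i ω.1, Ψ t (Ψ (dt (x - O) ω.1) ω.2)) =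
      H (T.R i (x + t • ω.1)) (T.refl i ω.1,
        Ψ (dt (T.R i (x + t • ω.1) - O) (T.refl i ω.1)) (Ψ (dt (T.R i O - O) ω.1) ω.2)) := by
    have hmR : Measurable fun p : ℂ × (ℂ × Ω) => T.R i (p.1 + t • p.2.1) :=
      (T.continuous_R i).measurable.comp
        (measurable_fst.add ((measurable_fst.comp measurable_snd).const_smul t))
    have hmr : Measurable fun p : ℂ × (ℂ × Ω) => T.refl i p.2.1 :=
      (T.continuous_refl i).measurable.comp (measurable_fst.comp measurable_snd)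
    have hmd : Measurable fun p : ℂ × (ℂ × Ω) => dt (p.1 - O) p.2.1 :=
      measurable_dt.comp ((measurable_fst.sub_const O).prodMk (measurable_fst.comp measurable_snd))
    have hme : Measurable fun p : ℂ × (ℂ × Ω) => dt (T.R i (p.1 + t • p.2.1) - O) (T.refl i p.2.1) :=
      measurable_dt.comp ((hmR.sub_const O).prodMk hmr)
    have hmf : Measurable fun p : ℂ × (ℂ × Ω) => dt (T.R i O - O) p.2.1 :=
      (mdt _).comp (measurable_fst.comp measurable_snd)
    have hm1 : Measurable fun p : ℂ × (ℂ × Ω) => H (T.R i (p.1 + t • p.2.1))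
        (T.refl i p.2.1, Ψ t (Ψ (dt (p.1 - O) p.2.1) p.2.2)) :=
      hHm.comp (hmR.prodMk (hmr.prodMk (hΨ.meas.comp (measurable_const.prodMk
        (hΨ.meas.comp (hmd.prodMk (measurable_snd.comp measurable_snd)))))))
    have hm2 : Measurable fun p : ℂ × (ℂ × Ω) => H (T.R i (p.1 + t • p.2.1))
        (T.refl i p.2.1, Ψ (dt (T.R i (p.1 + t • p.2.1) - O) (T.refl i p.2.1))
          (Ψ (dt (T.R i O - O) p.2.1) p.2.2)) :=
      hHm.comp (hmR.prodMk (hmr.prodMk (hΨ.meas.comp (hme.prodMk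
        (hΨ.meas.comp (hmf.prodMk (measurable_snd.comp measurable_snd)))))))
    have hms := measurableSet_eq_fun hm1 hm2
    have hall : ∀ᵐ p ∂((volume.restrict T.table).prod (nu.prod m)),
        p ∈ {p : ℂ × (ℂ × Ω) | H (T.R i (p.1 + t • p.2.1))
        (T.refl i p.2.1, Ψ t (Ψ (dt (p.1 - O) p.2.1) p.2.2)) =
        H (T.R i (p.1 + t • p.2.1))
        (T.refl i p.2.1, Ψ (dt (T.R i (p.1 + t • p.2.1) - O) (T.refl i p.2.1))
          (Ψ (dt (T.R i O - O) p.2.1) p.2.2))} := by
      rw [Measure.ae_prod_mem_iff_ae_ae_mem hms]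
      refine ae_of_all _ fun x => ?_
      have hms' : MeasurableSet {ω : ℂ × Ω | (x, ω) ∈ {p : ℂ × (ℂ × Ω) | H (T.R i (p.1 + t • p.2.1))
        (T.refl i p.2.1, Ψ t (Ψ (dt (p.1 - O) p.2.1) p.2.2)) =
        H (T.R i (p.1 + t • p.2.1))
        (T.refl i p.2.1, Ψ (dt (T.R i (p.1 + t • p.2.1) - O) (T.refl i p.2.1))
          (Ψ (dt (T.R i O - O) p.2.1) p.2.2))}} := measurable_prodMk_left hms
      refine (Measure.ae_prod_mem_iff_ae_ae_mem hms').2 ?_
      filter_upwards [ae_norm] with u hu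
      filter_upwards [hΨ.add t (dt (x - O) u), hΨ.add (dt (T.R i (x + t • u) - O) (T.refl i u))
        (dt (T.R i O - O) u)] with q h1 h2
      show H (T.R i (x + t • u)) (T.refl i u, Ψ t (Ψ (dt (x - O) u) q)) =
        H (T.R i (x + t • u)) (T.refl i u, Ψ (dt (T.R i (x + t • u) - O) (T.refl i u))
          (Ψ (dt (T.R i O - O) u) q))
      rw [← h1, ← h2, T.time_eq i O x u hu t]
    exact (ae_swap hall :)
  -- conclusion
  have hn : ∀ᵐ ω ∂(nu.prod m), ‖ω.1‖ = 1 := Measure.quasiMeasurePreserving_fst.ae ae_norm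
  filter_upwards [a2, c1, d1, hn] with ω ha hc hd hω hell
  obtain ⟨U, hUo, hUne, hUT, hU⟩ := ht ω.1 hω hell
  have hpos : volume U ≠ 0 := (hUo.measure_pos _ hUne).ne'
  have hne : (ae (volume.restrict U)).NeBot := by
    rw [ae_neBot]
    intro h
    exact hpos (Measure.restrict_eq_zero.1 h)
  have ha' : ∀ᵐ y ∂(volume.restrict U), T.R i (y + t • ω.1) ∈ T.table →
      H (T.R i (y + t • ω.1)) (T.refl i ω.1,
        Ψ (dt (T.R i (y + t • ω.1) - O) (T.refl i ω.1)) (Ψ (dt (T.R i O - O) ω.1) ω.2)) =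
        F (T.refl i ω.1, Ψ (dt (T.R i O - O) ω.1) ω.2) := ae_restrict_of_ae ha
  have hc' := ae_restrict_of_ae_restrict_of_subset hUT hc
  have hd' := ae_restrict_of_ae_restrict_of_subset hUT hd
  obtain ⟨x, h1, h2, h3, h4⟩ := (ha'.and (hc'.and (hd'.and
    (ae_restrict_mem hUo.measurableSet)))).exists
  obtain ⟨g1, g2, g3⟩ := hU x h4
  rw [← h1 g3, ← h3, h2 g1 g2 g3]

/-- the reflection relations -/
theorem F_refl {m : Measure Ω} [IsProbabilityMeasure m] {Ψ : ℝ → Ω → Ω} (hΨ : PFlow m Ψ)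
    {H : ℂ → ℂ × Ω → ℝ} (hH : Bdd H) (hB : T.BounceInv m Ψ H) (O : ℂ)
    {F : ℂ × Ω → ℝ} (hFm : Measurable F)
    (hF : ∀ᵐ p ∂((volume.restrict T.table).prod (nu.prod m)),
        H p.1 (p.2.1, Ψ (dt (p.1 - O) p.2.1) p.2.2) = F p.2) (i : Fin 3) :
    ∀ᵐ ω ∂(nu.prod m), F (T.refl i ω.1, Ψ (dt (T.R i O - O) ω.1) ω.2) = F ω := by
  have mdt : ∀ w : ℂ, Measurable fun u : ℂ => dt w u := fun w =>
    measurable_dt.comp (measurable_const.prodMk measurable_id)
  have hJ : MeasurePreserving (fun ω : ℂ × Ω => (T.refl i ω.1, Ψ (dt (T.R i O - O) ω.1) ω.2))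
      (nu.prod m) (nu.prod m) :=
    mp_shear hΨ (T.measurePreserving_refl i) (mdt _)
  have h1 := T.F_refl_neg hΨ hH hB O hF i
  have h2 := hJ.quasiMeasurePreserving.ae h1
  have h3 : ∀ᵐ ω ∂(nu.prod m), T.ell i ω.1 ≠ 0 :=
    Measure.quasiMeasurePreserving_fst.ae (ae_ell_ne T i)
  -- going back
  have h4 : ∀ᵐ ω ∂(nu.prod m),
      F (ω.1, Ψ (-dt (T.R i O - O) ω.1) (Ψ (dt (T.R i O - O) ω.1) ω.2)) = F ω := by
    have hmf : Measurable fun p : ℂ × Ω => dt (T.R i O - O) p.1 := (mdt _).comp measurable_fst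
    have hm1 : Measurable fun ω : ℂ × Ω =>
        F (ω.1, Ψ (-dt (T.R i O - O) ω.1) (Ψ (dt (T.R i O - O) ω.1) ω.2)) :=
      hFm.comp (measurable_fst.prodMk (hΨ.meas.comp (hmf.neg.prodMk
        (hΨ.meas.comp (hmf.prodMk measurable_snd)))))
    have hms := measurableSet_eq_fun hm1 hFm
    refine (Measure.ae_prod_mem_iff_ae_ae_mem hms).2 ?_
    refine ae_of_all _ fun u => ?_
    filter_upwards [hΨ.add (-dt (T.R i O - O) u) (dt (T.R i O - O) u), hΨ.zero] with q h5 h6
    show F (u, Ψ (-dt (T.R i O - O) u) (Ψ (dt (T.R i O - O) u) q)) = F (u, q)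
    rw [← h5, neg_add_cancel, h6]
  filter_upwards [h1, h2, h3, h4] with ω g1 g2 g3 g4
  rcases lt_or_gt_of_ne g3 with h | h
  · exact g1 h
  · have g5 := g2 (by
      show T.ell i (T.refl i ω.1) < 0
      rw [T.ell_refl]; linarith)
    simp only [T.refl_refl, T.shift_refl] at g5
    rw [g4] at g5
    exact g5.symm

end Triangle

end Vale.Agent.P099
end
end

section

section

open MeasureTheory Set Filter Topology

namespace Vale.Agent.P099

namespace Triangle

variable (T : Triangle)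

/-- the rotation obtained by composing the reflections in the sides `i + 2` and `i + 1` -/
noncomputable def rot (i : Fin 3) : ℂ :=
  T.d (i + 2) / (starRingEnd ℂ) (T.d (i + 2)) *
    ((starRingEnd ℂ) (T.d (i + 1)) / T.d (i + 1))

lemma refl_refl_eq_rot (i : Fin 3) (u : ℂ) :
    T.refl (i + 2) (T.refl (i + 1) u) = T.rot i * u := by
  rw [T.refl_eq, T.refl_eq, rot]
  simp only [map_mul, map_div₀, Complex.conj_conj]
  ring

lemma norm_rot (i : Fin 3) : ‖T.rot i‖ = 1 := by
  have h1 : ‖T.d (i + 2)‖ ≠ 0 := norm_ne_zero_iff.2 (T.d_ne _)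
  have h2 : ‖T.d (i + 1)‖ ≠ 0 := norm_ne_zero_iff.2 (T.d_ne _)
  rw [rot, norm_mul, norm_div, norm_div, RCLike.norm_conj, RCLike.norm_conj, div_self h1,
    div_self h2, one_mul]

lemma rot_pow_ne_one {i : Fin 3}
    (hi : Irrational (EuclideanGeometry.angle (T.P (i + 1)) (T.P i) (T.P (i + 2)) / Real.pi))
    {n : ℤ} (hn : n ≠ 0) : T.rot i ^ n ≠ 1 := by
  intro hcon
  apply hi
  have hd2 : T.d (i + 2) = T.P (i + 1) - T.P i := by
    have e1 : i + 2 + 2 = i + 1 := by fin_cases i <;> rfl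
    have e2 : i + 2 + 1 = i := by fin_cases i <;> rfl
    rw [d, e1, e2]
  have hd1 : T.d (i + 1) = -(T.P (i + 2) - T.P i) := by
    have e1 : i + 1 + 2 = i := by fin_cases i <;> rfl
    have e2 : i + 1 + 1 = i + 2 := by fin_cases i <;> rfl
    rw [d, e1, e2]
    ring
  set a := T.P (i + 1) - T.P i with ha
  set b := T.P (i + 2) - T.P i with hb
  have ha0 : a ≠ 0 := hd2 ▸ T.d_ne (i + 2)
  have hb0 : b ≠ 0 := by
    intro h
    apply T.d_ne (i + 1)
    rw [hd1, h, neg_zero]
  have hz0 : a / b ≠ 0 := div_ne_zero ha0 hb0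
  have hang : EuclideanGeometry.angle (T.P (i + 1)) (T.P i) (T.P (i + 2)) = |(a / b).arg| := by
    rw [EuclideanGeometry.angle, vsub_eq_sub, vsub_eq_sub]
    exact Complex.angle_eq_abs_arg ha0 hb0
  set θ := (a / b).arg with hθ
  have hrot : T.rot i = Complex.exp (2 * θ * Complex.I) := by
    have h1 : T.rot i = (a / b) / (starRingEnd ℂ) (a / b) := by
      rw [rot, hd1, hd2]
      have hca : (starRingEnd ℂ) a ≠ 0 := by simpa only [ne_eq, map_eq_zero] using ha0
      have hcb : (starRingEnd ℂ) b ≠ 0 := by simpa using hb0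
      simp only [map_neg, map_div₀]
      field_simp
    have h2 : a / b = ‖a / b‖ * Complex.exp (θ * Complex.I) :=
      (Complex.norm_mul_exp_arg_mul_I (a / b)).symm
    have h3 : (starRingEnd ℂ) (a / b) = ‖a / b‖ * Complex.exp (-(θ * Complex.I)) := by
      conv_lhs => rw [h2]
      rw [map_mul, Complex.conj_ofReal, ← Complex.exp_conj]
      simp only [Complex.norm_div, Complex.ofReal_div, map_mul, Complex.conj_ofReal, Complex.conj_I, mul_neg]
    have h4 : ((‖a / b‖ : ℝ) : ℂ) ≠ 0 := by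
      rw [Ne, Complex.ofReal_eq_zero, norm_eq_zero]
      exact hz0
    have h5 : (a / b) / (starRingEnd ℂ) (a / b) =
        (‖a / b‖ * Complex.exp (θ * Complex.I)) / (‖a / b‖ * Complex.exp (-(θ * Complex.I))) :=
      congrArg₂ (· / ·) h2 h3
    rw [h1, h5, mul_div_mul_left _ _ h4, ← Complex.exp_sub]
    congr 1
    ring
  rw [hrot, ← Complex.exp_int_mul, Complex.exp_eq_one_iff] at hcon
  obtain ⟨m, hm⟩ := hcon
  have hI : (n : ℂ) * θ = m * Real.pi := by
    have h5 : (2 * Complex.I) * ((n : ℂ) * θ) = (2 * Complex.I) * (m * Real.pi) := by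
      linear_combination hm
    exact mul_left_cancel₀ (mul_ne_zero two_ne_zero Complex.I_ne_zero) h5
  have hR : (n : ℝ) * θ = m * Real.pi := by exact_mod_cast hI
  have hn' : (n : ℝ) ≠ 0 := by exact_mod_cast hn
  have hfin : θ / Real.pi = ((m : ℚ) / n : ℚ) := by
    push_cast
    rw [div_eq_div_iff Real.pi_ne_zero hn']
    linarith only [hR]
  rw [hang]
  refine ⟨|(m : ℚ) / n|, ?_⟩
  have : |θ| / Real.pi = |θ / Real.pi| := by
    rw [abs_div, abs_of_pos Real.pi_pos]
  rw [this, hfin]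
  push_cast
  rfl

/-- A bounded function of the direction invariant under the three reflections is constant. -/
lemma const_of_refl_invariant (hT : T.IsIrrational) {f : ℂ → ℝ} (hf : Measurable f) {C : ℝ}
    (hC : ∀ u, |f u| ≤ C) (h : ∀ i, ∀ᵐ u ∂nu, f (T.refl i u) = f u) :
    ∃ c : ℝ, ∀ᵐ u ∂nu, f u = c := by
  obtain ⟨i, hi⟩ := hT
  set ω := T.rot i with hω
  have hω1 : ‖ω‖ = 1 := T.norm_rot i
  have hω0 : ω ≠ 0 := by
    intro h0
    rw [h0, norm_zero] at hω1
    exact zero_ne_one hω1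
  have hinv : ∀ᵐ u ∂nu, f (ω * u) = f u := by
    have h1 := (T.measurePreserving_refl (i + 1)).quasiMeasurePreserving.ae (h (i + 2))
    filter_upwards [h1, h (i + 1)] with u hu1 hu2
    rw [hω, ← T.refl_refl_eq_rot, hu1, hu2]
  have hfi : Integrable f nu :=
    Integrable.of_bound hf.aestronglyMeasurable C (ae_of_all _ fun u => by
      rw [Real.norm_eq_abs]; exact hC u)
  set c : ℝ := ∫ u, f u ∂nu with hc
  refine ⟨c, ?_⟩
  set F : ℂ → ℂ := fun u => ((f u - c : ℝ) : ℂ) with hF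
  have hFm : Measurable F := Complex.measurable_ofReal.comp (hf.sub_const c)
  have hFb : ∀ u, ‖F u‖ ≤ C + |c| := by
    intro u
    simp only [hF, Complex.norm_real, Real.norm_eq_abs]
    calc |f u - c| ≤ |f u| + |c| := abs_sub _ _
      _ ≤ C + |c| := by linarith [hC u]
  have hFL : MemLp F 2 nu :=
    MemLp.of_bound hFm.aestronglyMeasurable (C + |c|) (ae_of_all _ hFb)
  have hmode : ∀ k, mode k F = 0 := by
    intro k
    by_cases hk : k = 0
    · subst hk
      simp only [mode, neg_zero, zpow_zero, mul_one, hF]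
      have h6 : ∫ u, ((f u - c : ℝ) : ℂ) ∂nu = ((∫ u, (f u - c) ∂nu : ℝ) : ℂ) := integral_ofReal
      rw [h6, integral_sub hfi (integrable_const _)]
      simp [hc]
    · have h1 : mode k F = ω ^ (-k) * mode k F := by
        have h2 : ∫ u, F (ω * u) * (ω * u) ^ (-k) ∂nu = ∫ u, F u * u ^ (-k) ∂nu :=
          (measurePreserving_mul hω1).integral_comp
            (MeasurableEquiv.mulLeft₀ ω hω0).measurableEmbedding (fun u => F u * u ^ (-k))
        have h3 : ∫ u, F (ω * u) * (ω * u) ^ (-k) ∂nu = ∫ u, ω ^ (-k) * (F u * u ^ (-k)) ∂nu := by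
          apply integral_congr_ae
          filter_upwards [hinv] with u hu
          simp only [hF]
          rw [hu, mul_zpow]
          ring
        calc mode k F = ∫ u, F u * u ^ (-k) ∂nu := rfl
          _ = ω ^ (-k) * ∫ u, F u * u ^ (-k) ∂nu := by
            rw [← integral_const_mul, ← h3, h2]
          _ = ω ^ (-k) * mode k F := rfl
      have h4 : (1 - ω ^ (-k)) * mode k F = 0 := by
        linear_combination h1
      rcases mul_eq_zero.1 h4 with h5 | h5
      · exfalso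
        exact T.rot_pow_ne_one hi (n := -k) (neg_ne_zero.2 hk) (by rw [← hω]; linear_combination -h5)
      · exact h5
  have := ae_zero_of_mode F hFL hmode
  filter_upwards [this] with u hu
  simp only [hF, Pi.zero_apply, Complex.ofReal_eq_zero] at hu
  linarith only [hu]

end Triangle

end Vale.Agent.P099
end
end

section

section

open MeasureTheory Set Filter Topology

namespace Vale.Agent.P099

variable {Ω : Type} [MeasurableSpace Ω]

namespace Triangle

variable (T : Triangle)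

/-- the composition of two reflections is a rotation of infinite order -/
lemma exists_rot (k : Fin 3)
    (hk : Irrational (EuclideanGeometry.angle (T.P (k + 1)) (T.P k) (T.P (k + 2)) / Real.pi)) :
    ∃ ζ : ℂ, ‖ζ‖ = 1 ∧ (∀ n : ℤ, n ≠ 0 → ζ ^ n ≠ 1) ∧
      ∀ u, T.refl (k + 1) (T.refl (k + 2) u) = ζ * u := by
  have hn := T.norm_rot k
  have h0 : T.rot k ≠ 0 := by
    intro h0
    rw [h0, norm_zero] at hn
    exact zero_ne_one hn
  refine ⟨(T.rot k)⁻¹, by rw [norm_inv, hn, inv_one], ?_, ?_⟩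
  · intro n hn h1
    apply T.rot_pow_ne_one hk (neg_ne_zero.2 hn)
    rw [zpow_neg, ← inv_zpow]
    exact h1
  · intro u
    have h1 : T.refl (k + 2) (T.refl (k + 1) (T.refl (k + 1) (T.refl (k + 2) u))) = u := by
      rw [T.refl_refl, T.refl_refl]
    rw [T.refl_refl_eq_rot] at h1
    rw [eq_inv_mul_iff_mul_eq₀ h0]
    exact h1

end Triangle

/-- modes of a function and of its rotation -/
lemma mode_rot {ζ : ℂ} (h1 : ‖ζ‖ = 1) (f : ℂ → ℂ) (k : ℤ)
    (hinv : ∀ᵐ u ∂nu, f (ζ * u) = f u) : mode k f = ζ ^ (-k) * mode k f := by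
  have h0 : ζ ≠ 0 := by
    intro h0
    rw [h0, norm_zero] at h1
    exact zero_ne_one h1
  have h2 : ∫ u, f (ζ * u) * (ζ * u) ^ (-k) ∂nu = ∫ u, f u * u ^ (-k) ∂nu :=
    (measurePreserving_mul h1).integral_comp
      (MeasurableEquiv.mulLeft₀ ζ h0).measurableEmbedding (fun u => f u * u ^ (-k))
  have h3 : ∫ u, f (ζ * u) * (ζ * u) ^ (-k) ∂nu = ∫ u, ζ ^ (-k) * (f u * u ^ (-k)) ∂nu := by
    apply integral_congr_ae
    filter_upwards [hinv] with u hu
    rw [hu, mul_zpow]
    ring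
  calc mode k f = ∫ u, f u * u ^ (-k) ∂nu := rfl
    _ = ζ ^ (-k) * ∫ u, f u * u ^ (-k) ∂nu := by
      rw [← integral_const_mul, ← h3, h2]
    _ = ζ ^ (-k) * mode k f := rfl

/-- a function invariant under an irrational rotation is constant -/
lemma const_of_rot {ζ : ℂ} (h1 : ‖ζ‖ = 1) (h2 : ∀ n : ℤ, n ≠ 0 → ζ ^ n ≠ 1)
    (f : ℂ → ℝ) (hf : Measurable f) (hb : ∃ C, ∀ u, |f u| ≤ C)
    (hinv : ∀ᵐ u ∂nu, f (ζ * u) = f u) : ∀ᵐ u ∂nu, f u = ∫ v, f v ∂nu := by
  obtain ⟨C, hC⟩ := hb
  have hfi : Integrable f nu :=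
    Integrable.of_bound hf.aestronglyMeasurable C (ae_of_all _ fun u => by
      rw [Real.norm_eq_abs]; exact hC u)
  set c : ℝ := ∫ u, f u ∂nu with hc
  set F : ℂ → ℂ := fun u => ((f u - c : ℝ) : ℂ) with hF
  have hFm : Measurable F := Complex.measurable_ofReal.comp (hf.sub_const c)
  have hFb : ∀ u, ‖F u‖ ≤ C + |c| := by
    intro u
    simp only [hF, Complex.norm_real, Real.norm_eq_abs]
    calc |f u - c| ≤ |f u| + |c| := abs_sub _ _
      _ ≤ C + |c| := by linarith only [hC u]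
  have hFL : MemLp F 2 nu :=
    MemLp.of_bound hFm.aestronglyMeasurable (C + |c|) (ae_of_all _ hFb)
  have hmode : ∀ k, mode k F = 0 := by
    intro k
    by_cases hk : k = 0
    · subst hk
      simp only [mode, neg_zero, zpow_zero, mul_one, hF]
      have h6 : ∫ u, ((f u - c : ℝ) : ℂ) ∂nu = ((∫ u, (f u - c) ∂nu : ℝ) : ℂ) := integral_ofReal
      rw [h6, integral_sub hfi (integrable_const _)]
      simp [hc]
    · have h3 : mode k F = ζ ^ (-k) * mode k F := by
        apply mode_rot h1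
        filter_upwards [hinv] with u hu
        simp only [hF]
        rw [hu]
      have h4 : (1 - ζ ^ (-k)) * mode k F = 0 := by
        linear_combination h3
      rcases mul_eq_zero.1 h4 with h5 | h5
      · exfalso
        exact h2 (-k) (neg_ne_zero.2 hk) (by linear_combination -h5)
      · exact h5
  have := ae_zero_of_mode F hFL hmode
  filter_upwards [this] with u hu
  simp only [hF, Pi.zero_apply, Complex.ofReal_eq_zero] at hu
  linarith only [hu]

/-- with a parameter -/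
lemma const_of_rot' {m : Measure Ω} [IsProbabilityMeasure m] {ζ : ℂ} (h1 : ‖ζ‖ = 1)
    (h2 : ∀ n : ℤ, n ≠ 0 → ζ ^ n ≠ 1)
    (F : ℂ × Ω → ℝ) (hF : Measurable F) (hb : ∃ C, ∀ ω, |F ω| ≤ C)
    (hinv : ∀ᵐ ω ∂(nu.prod m), F (ζ * ω.1, ω.2) = F ω) :
    ∃ f : Ω → ℝ, Measurable f ∧ (∃ C, ∀ q, |f q| ≤ C) ∧ ∀ᵐ ω ∂(nu.prod m), F ω = f ω.2 := by
  obtain ⟨C, hC⟩ := hb
  set f : Ω → ℝ := fun q => ∫ u, F (u, q) ∂nu with hf
  have hfm : Measurable f :=
    (StronglyMeasurable.integral_prod_left (μ := nu) (f := fun u q => F (u, q))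
      hF.stronglyMeasurable).measurable
  refine ⟨f, hfm, ⟨C, fun q => ?_⟩, ?_⟩
  · have := norm_integral_le_of_norm_le_const (μ := nu) (f := fun u => F (u, q)) (C := C)
      (ae_of_all _ fun u => by rw [Real.norm_eq_abs]; exact hC _)
    simpa only [ge_iff_le, Real.norm_eq_abs, probReal_univ, mul_one] using this
  · have hms : MeasurableSet {ω : ℂ × Ω | F ω = f ω.2} :=
      measurableSet_eq_fun hF (hfm.comp measurable_snd)
    have hms2 : MeasurableSet {ω : ℂ × Ω | F (ζ * ω.1, ω.2) = F ω} :=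
      measurableSet_eq_fun (hF.comp ((measurable_fst.const_mul ζ).prodMk measurable_snd)) hF
    rw [Measure.ae_prod_iff_ae_ae hms]
    rw [Measure.ae_prod_iff_ae_ae hms2] at hinv
    rw [Measure.ae_ae_comm (p := fun u q => F (ζ * u, q) = F (u, q)) hms2] at hinv
    rw [Measure.ae_ae_comm (p := fun u q => F (u, q) = f q) hms]
    filter_upwards [hinv] with q hq
    exact const_of_rot h1 h2 (fun u => F (u, q)) (hF.comp measurable_prodMk_right)
      ⟨C, fun u => hC _⟩ hq

/-- a subgroup of the times -/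
lemma inv_all {m : Measure Ω} [IsProbabilityMeasure m] {Ψ : ℝ → Ω → Ω} (hΨ : PFlow m Ψ)
    {f : Ω → ℝ} (hf : Measurable f) {v : ℂ} (hv : v ≠ 0)
    (h : ∀ᵐ ω ∂(nu.prod m), f (Ψ (dt v ω.1) ω.2) = f ω.2) (s : ℝ) :
    ∀ᵐ q ∂m, f (Ψ s q) = f q := by
  set G : Set ℝ := {s | ∀ᵐ q ∂m, f (Ψ s q) = f q} with hG
  have h0 : (0:ℝ) ∈ G := by
    filter_upwards [hΨ.zero] with q hq
    rw [hq]
  have hadd : ∀ a ∈ G, ∀ b ∈ G, a + b ∈ G := by
    intro a ha b hb
    have ha' := (hΨ.mp b).quasiMeasurePreserving.ae ha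
    filter_upwards [ha', hb, hΨ.add a b] with q h1 h2 h3
    rw [h3, h1, h2]
  have hneg : ∀ a ∈ G, -a ∈ G := by
    intro a ha
    have ha' := (hΨ.mp (-a)).quasiMeasurePreserving.ae ha
    filter_upwards [ha', hΨ.add a (-a), hΨ.zero] with q h1 h2 h3
    rw [add_neg_cancel, h3] at h2
    rw [← h2] at h1
    exact h1.symm
  set g : ℝ → ℝ := fun θ => dt v (Complex.exp (θ * Complex.I)) with hg
  have hgform : ∀ θ, g θ = v.re * Real.cos θ + v.im * Real.sin θ := by
    intro θ
    simp only [hg, dt, Complex.exp_ofReal_mul_I_re, Complex.exp_ofReal_mul_I_im]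
  have hgdiff : Differentiable ℝ g := by
    have : g = fun θ => v.re * Real.cos θ + v.im * Real.sin θ := funext hgform
    rw [this]
    fun_prop
  -- bad angles
  set Bad : Set ℝ := {θ | θ ∈ Ioc (-Real.pi) Real.pi ∧ g θ ∉ G} with hBad
  have hBad0 : volume Bad = 0 := by
    have h1 : ∀ᵐ u ∂nu, dt v u ∈ G := (Measure.ae_ae_of_ae_prod h :)
    have h2 : ∀ᵐ θ ∂(ProbabilityTheory.cond volume (Ioc (-Real.pi) Real.pi)), g θ ∈ G := by
      rw [nu] at h1
      have hm : AEMeasurable (fun θ : ℝ => Complex.exp (θ * Complex.I))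
          (ProbabilityTheory.cond volume (Ioc (-Real.pi) Real.pi)) :=
        (Continuous.measurable (by fun_prop)).aemeasurable
      exact ae_of_ae_map hm h1
    have h3 : ∀ᵐ θ ∂(volume.restrict (Ioc (-Real.pi) Real.pi)), g θ ∈ G := by
      rw [ProbabilityTheory.cond] at h2
      have hne : (volume (Ioc (-Real.pi) Real.pi))⁻¹ ≠ 0 := by
        rw [Real.volume_Ioc]
        exact ENNReal.inv_ne_zero.2 ENNReal.ofReal_ne_top
      rwa [Measure.ae_ennreal_smul_measure_eq hne] at h2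
    rw [ae_restrict_iff' measurableSet_Ioc, ae_iff] at h3
    convert h3 using 2
    ext θ
    simp only [hBad, mem_Ioc, and_assoc, mem_ofPred_eq, and_imp, Classical.not_imp]
  -- a neighbourhood of zero
  have hr : ∃ r : ℝ, 0 < r ∧ ∀ t, |t| ≤ r → ∃ θ ∈ Ioc (-Real.pi) Real.pi, g θ = t := by
    have hcont : Continuous g := hgdiff.continuous
    by_cases hre : v.re = 0
    · have him : v.im ≠ 0 := by
        intro him
        exact hv (Complex.ext hre him)
      refine ⟨|v.im|, abs_pos.2 him, fun t ht => ?_⟩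
      have hsub : Icc (-|v.im|) |v.im| ⊆ g '' uIcc (-(Real.pi / 2)) (Real.pi / 2) := by
        have h1 := intermediate_value_uIcc (f := g) (a := -(Real.pi / 2)) (b := Real.pi / 2)
          hcont.continuousOn
        refine Subset.trans ?_ h1
        rw [hgform, hgform]
        simp only [Real.cos_neg, Real.cos_pi_div_two, Real.sin_neg, Real.sin_pi_div_two, mul_zero,
          mul_one, zero_add, mul_neg]
        rcases le_total 0 v.im with h2 | h2
        · rw [abs_of_nonneg h2, uIcc_of_le (by linarith)]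
        · rw [abs_of_nonpos h2, uIcc_of_ge (by linarith only [h2]), neg_neg]
      obtain ⟨θ, hθ, hθt⟩ := hsub (abs_le.1 ht)
      rw [uIcc_of_le (by linarith [Real.pi_pos])] at hθ
      exact ⟨θ, ⟨by linarith [hθ.1, Real.pi_pos], by linarith only [hθ.2, Real.pi_pos]⟩, hθt⟩
    · refine ⟨|v.re|, abs_pos.2 hre, fun t ht => ?_⟩
      have hsub : Icc (-|v.re|) |v.re| ⊆ g '' uIcc 0 Real.pi := by
        have h1 := intermediate_value_uIcc (f := g) (a := 0) (b := Real.pi)
          hcont.continuousOn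
        refine Subset.trans ?_ h1
        rw [hgform, hgform]
        simp only [Real.cos_zero, Real.sin_zero, Real.cos_pi, Real.sin_pi, mul_zero,
          mul_one, add_zero, mul_neg]
        rcases le_total 0 v.re with h2 | h2
        · rw [abs_of_nonneg h2, uIcc_of_ge (by linarith only [h2])]
        · rw [abs_of_nonpos h2, uIcc_of_le (by linarith only [h2]), neg_neg]
      obtain ⟨θ, hθ, hθt⟩ := hsub (abs_le.1 ht)
      rw [uIcc_of_le (by linarith only [Real.pi_pos])] at hθ
      exact ⟨θ, ⟨by linarith only [hθ.1, Real.pi_pos], by linarith only [hθ.2]⟩, hθt⟩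
  obtain ⟨r, hr0, hr⟩ := hr
  set N : Set ℝ := {t | |t| ≤ r ∧ t ∉ G} with hN
  have hN0 : volume N = 0 := by
    have h1 : volume (g '' Bad) = 0 :=
      addHaar_image_eq_zero_of_differentiableOn_of_addHaar_eq_zero volume
        (hgdiff.differentiableOn) hBad0
    refine measure_mono_null ?_ h1
    rintro t ⟨ht1, ht2⟩
    obtain ⟨θ, hθ1, hθ2⟩ := hr t ht1
    exact ⟨θ, ⟨hθ1, by rw [hθ2]; exact ht2⟩, hθ2⟩
  have hsmall : ∀ x, |x| ≤ r / 2 → x ∈ G := by
    intro x hx
    have h2 : volume ((fun a => a + x) ⁻¹' N) = 0 :=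
      (measurePreserving_add_right volume x).quasiMeasurePreserving.preimage_null hN0
    have h3 : volume (N ∪ (fun a => a + x) ⁻¹' N) = 0 := measure_union_null hN0 h2
    obtain ⟨a, ha1, ha2⟩ : ∃ a ∈ Ioo 0 (r / 2), a ∉ N ∪ (fun a => a + x) ⁻¹' N := by
      by_contra hcon
      push Not at hcon
      have h4 : volume (Ioo 0 (r / 2)) ≤ 0 := h3 ▸ measure_mono (fun a ha => hcon a ha)
      rw [Real.volume_Ioo, nonpos_iff_eq_zero, ENNReal.ofReal_eq_zero] at h4
      linarith only [hr0, h4]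
    rw [mem_union, not_or] at ha2
    have hx' := abs_le.1 hx
    have h5 : a ∈ G := by
      by_contra hcon
      exact ha2.1 ⟨abs_le.2 ⟨by linarith only [hr0, ha1.1], by linarith only [hr0, ha1.2]⟩, hcon⟩
    have h6 : a + x ∈ G := by
      by_contra hcon
      exact ha2.2 ⟨abs_le.2 ⟨by linarith only [hx', ha1.1], by linarith only [hx', ha1.2]⟩, hcon⟩
    have h7 := hadd _ h6 _ (hneg _ h5)
    have : a + x + -a = x := by ring
    rwa [this] at h7
  have hnat : ∀ x ∈ G, ∀ n : ℕ, (n : ℝ) * x ∈ G := by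
    intro x hx n
    induction n with
    | zero => simpa using h0
    | succ n ih =>
      have := hadd _ ih _ hx
      have e : (n : ℝ) * x + x = ((n + 1 : ℕ) : ℝ) * x := by push_cast; ring
      rwa [e] at this
  obtain ⟨n, hn⟩ := exists_nat_gt (|s| / (r / 2))
  have hn0 : (0:ℝ) < n := lt_of_le_of_lt (by (clear * - hr0; positivity)) hn
  have h8 : |s / n| ≤ r / 2 := by
    rw [abs_div, abs_of_pos hn0, div_le_iff₀ hn0]
    rw [div_lt_iff₀ (by (clear * - hr0; positivity))] at hn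
    linarith only [hn]
  have h9 := hnat _ (hsmall _ h8) n
  rw [mul_div_cancel₀ _ hn0.ne'] at h9
  exact h9

end Vale.Agent.P099
end
end

section

section

open MeasureTheory Set Filter Topology

namespace Vale.Agent.P099

variable {Ω : Type} [MeasurableSpace Ω]

open WM4

namespace Triangle

variable (T : Triangle)

lemma R_P_other (i k : Fin 3) (h : i ≠ k) : T.R i (T.P k) = T.P k := by
  apply T.R_of_lam_eq_zero
  rw [T.lam_P, if_neg h]

lemma R_P_ne (k : Fin 3) : T.R k (T.P k) - T.P k ≠ 0 := by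
  intro h
  have h1 : T.lam k (T.R k (T.P k)) = T.lam k (T.P k) := by rw [sub_eq_zero.1 h]
  rw [T.lam_R, T.lam_P, if_pos rfl] at h1
  norm_num at h1

/-- Invariant functions of the product of the billiard flow with any measure preserving flow depend
only on the second factor, up to a function invariant under the second flow. -/
theorem relative {m : Measure Ω} [IsProbabilityMeasure m] {Ψ : ℝ → Ω → Ω} (hΨ : PFlow m Ψ)
    (hT : T.IsIrrational)
    {H : ℂ → ℂ × Ω → ℝ} (hH : Bdd H) (hF : T.FreeInv m Ψ H) (hB : T.BounceInv m Ψ H) :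
    ∃ f : Ω → ℝ, Measurable f ∧ (∃ C, ∀ q, |f q| ≤ C) ∧ (∀ s, ∀ᵐ q ∂m, f (Ψ s q) = f q) ∧
      ∀ᵐ p ∂((volume.restrict T.table).prod (nu.prod m)), H p.1 p.2 = f p.2.2 := by
  obtain ⟨k, hk⟩ := hT
  obtain ⟨F, hFm, hFb, hFH⟩ := T.exists_F hΨ hH hF
    (fun φ h1 h2 h3 => T.weakY hΨ hH hF hB φ h1 h2 h3) (T.P k)
  have mdt : ∀ w : ℂ, Measurable fun u : ℂ => dt w u := fun w =>
    measurable_dt.comp (measurable_const.prodMk measurable_id)
  -- the two sides through the vertex
  have hside : ∀ i : Fin 3, i ≠ k → ∀ᵐ ω ∂(nu.prod m), F (T.refl i ω.1, ω.2) = F ω := by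
    intro i hi
    have h1 := T.F_refl hΨ hH hB (T.P k) hFm hFH i
    rw [T.R_P_other i k hi, sub_self] at h1
    have hz : ∀ u, dt 0 u = 0 := by intro u; simp [dt]
    simp only [hz] at h1
    have h2 : ∀ᵐ ω ∂(nu.prod m), F (T.refl i ω.1, Ψ 0 ω.2) = F (T.refl i ω.1, ω.2) := by
      have hm1 : Measurable fun ω : ℂ × Ω => F (T.refl i ω.1, Ψ 0 ω.2) :=
        hFm.comp (((T.continuous_refl i).measurable.comp measurable_fst).prodMk
          (hΨ.meas.comp (measurable_const.prodMk measurable_snd)))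
      have hm2 : Measurable fun ω : ℂ × Ω => F (T.refl i ω.1, ω.2) :=
        hFm.comp (((T.continuous_refl i).measurable.comp measurable_fst).prodMk measurable_snd)
      refine (Measure.ae_prod_mem_iff_ae_ae_mem (measurableSet_eq_fun hm1 hm2)).2 ?_
      refine ae_of_all _ fun u => ?_
      filter_upwards [hΨ.zero] with q hq
      show F (T.refl i u, Ψ 0 q) = F (T.refl i u, q)
      rw [hq]
    filter_upwards [h1, h2] with ω h3 h4
    rw [← h4, h3]
  obtain ⟨ζ, hζ1, hζ2, hζ3⟩ := T.exists_rot k hk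
  have hf1 : ∀ i : Fin 3, i + 1 ≠ i := by decide
  have hf2 : ∀ i : Fin 3, i + 2 ≠ i := by decide
  have hrot : ∀ᵐ ω ∂(nu.prod m), F (ζ * ω.1, ω.2) = F ω := by
    have h1 := hside (k + 1) (hf1 k)
    have h2 := hside (k + 2) (hf2 k)
    have hmp : MeasurePreserving (fun ω : ℂ × Ω => (T.refl (k + 2) ω.1, ω.2))
        (nu.prod m) (nu.prod m) :=
      (T.measurePreserving_refl (k + 2)).prod (MeasurePreserving.id m)
    filter_upwards [hmp.quasiMeasurePreserving.ae h1, h2] with ω h3 h4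
    rw [← hζ3, h3, h4]
  obtain ⟨f, hfm, hfb, hff⟩ := const_of_rot' hζ1 hζ2 F hFm hFb hrot
  -- the third side
  have hthird : ∀ᵐ ω ∂(nu.prod m), f (Ψ (dt (T.R k (T.P k) - T.P k) ω.1) ω.2) = f ω.2 := by
    have h1 := T.F_refl hΨ hH hB (T.P k) hFm hFH k
    have hJ : MeasurePreserving
        (fun ω : ℂ × Ω => (T.refl k ω.1, Ψ (dt (T.R k (T.P k) - T.P k) ω.1) ω.2))
        (nu.prod m) (nu.prod m) :=
      mp_shear hΨ (T.measurePreserving_refl k) (mdt _)
    filter_upwards [h1, hJ.quasiMeasurePreserving.ae hff, hff] with ω h2 h3 h4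
    rw [← h3, h2, h4]
  have hinv := inv_all hΨ hfm (T.R_P_ne k) hthird
  refine ⟨f, hfm, hfb, hinv, ?_⟩
  -- straightening back
  have hSh : MeasurePreserving (fun p : ℂ × (ℂ × Ω) =>
      (p.1, (p.2.1, Ψ (-dt (p.1 - T.P k) p.2.1) p.2.2)))
      ((volume.restrict T.table).prod (nu.prod m)) ((volume.restrict T.table).prod (nu.prod m)) := by
    refine MeasurePreserving.skew_product
      (g := fun x (ω : ℂ × Ω) => (ω.1, Ψ (-dt (x - T.P k) ω.1) ω.2)) (MeasurePreserving.id _) ?_ ?_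
    · have h1 : Measurable fun p : ℂ × (ℂ × Ω) => dt (p.1 - T.P k) p.2.1 :=
        measurable_dt.comp ((measurable_fst.sub_const _).prodMk
          (measurable_fst.comp measurable_snd))
      exact (measurable_fst.comp measurable_snd).prodMk
        (hΨ.meas.comp (h1.neg.prodMk (measurable_snd.comp measurable_snd)))
    · exact ae_of_all _ fun x =>
        (mp_shear hΨ (MeasurePreserving.id nu) (mdt (x - T.P k)).neg).map_eq
  have hff' : ∀ᵐ p ∂((volume.restrict T.table).prod (nu.prod m)), F p.2 = f p.2.2 :=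
    Measure.quasiMeasurePreserving_snd.ae hff
  have h1 := hSh.quasiMeasurePreserving.ae (hFH.and hff')
  have hmd : Measurable fun p : ℂ × (ℂ × Ω) => dt (p.1 - T.P k) p.2.1 :=
    measurable_dt.comp ((measurable_fst.sub_const _).prodMk (measurable_fst.comp measurable_snd))
  have hmP : Measurable fun p : ℂ × (ℂ × Ω) => Ψ (-dt (p.1 - T.P k) p.2.1) p.2.2 :=
    hΨ.meas.comp (hmd.neg.prodMk (measurable_snd.comp measurable_snd))
  have h2 : ∀ᵐ p ∂((volume.restrict T.table).prod (nu.prod m)),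
      H p.1 (p.2.1, Ψ (dt (p.1 - T.P k) p.2.1) (Ψ (-dt (p.1 - T.P k) p.2.1) p.2.2)) =
        H p.1 p.2 := by
    have hm1 : Measurable fun p : ℂ × (ℂ × Ω) =>
        H p.1 (p.2.1, Ψ (dt (p.1 - T.P k) p.2.1) (Ψ (-dt (p.1 - T.P k) p.2.1) p.2.2)) :=
      hH.1.comp (measurable_fst.prodMk ((measurable_fst.comp measurable_snd).prodMk
        (hΨ.meas.comp (hmd.prodMk hmP))))
    have hms := measurableSet_eq_fun hm1 hH.1
    refine (Measure.ae_prod_mem_iff_ae_ae_mem hms).2 (ae_of_all _ fun x => ?_)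
    refine (Measure.ae_prod_mem_iff_ae_ae_mem (measurable_prodMk_left hms)).2
      (ae_of_all _ fun u => ?_)
    filter_upwards [hΨ.add (dt (x - T.P k) u) (-dt (x - T.P k) u), hΨ.zero] with q h3 h4
    show H x (u, Ψ (dt (x - T.P k) u) (Ψ (-dt (x - T.P k) u) q)) = H x (u, q)
    rw [← h3, add_neg_cancel, h4]
  have h3 : ∀ᵐ p ∂((volume.restrict T.table).prod (nu.prod m)),
      f (Ψ (-dt (p.1 - T.P k) p.2.1) p.2.2) = f p.2.2 := by
    have hms := measurableSet_eq_fun (hfm.comp hmP) (hfm.comp (measurable_snd.comp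
      (measurable_snd (α := ℂ) (β := ℂ × Ω))))
    refine (Measure.ae_prod_mem_iff_ae_ae_mem hms).2 (ae_of_all _ fun x => ?_)
    refine (Measure.ae_prod_mem_iff_ae_ae_mem (measurable_prodMk_left hms)).2
      (ae_of_all _ fun u => ?_)
    exact hinv (-dt (x - T.P k) u)
  filter_upwards [h1, h2, h3] with p g1 g2 g3
  rw [← g2, g1.1, g1.2, g3]

end Triangle

end Vale.Agent.P099
end
end

section

section

open MeasureTheory Set Filter Topology

namespace Vale.Agent.P099

namespace Triangle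

variable (T : Triangle)

lemma inv_vol_ne_zero : (volume T.table)⁻¹ ≠ 0 := ENNReal.inv_ne_zero.mpr T.volume_table_lt_top.ne

lemma mu_eq : T.mu = (volume T.table)⁻¹ • ((volume.restrict T.table).prod nu) := by
  unfold mu
  rw [ProbabilityTheory.cond, Measure.prod_smul_left]

lemma isProbabilityMeasure_mu : IsProbabilityMeasure T.mu := by
  have h : IsProbabilityMeasure (ProbabilityTheory.cond volume T.table) :=
    ProbabilityTheory.cond_isProbabilityMeasure_of_finite T.volume_table_pos.ne'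
      T.volume_table_lt_top.ne
  unfold mu
  infer_instance

lemma ae_mu_iff {P : ℂ × ℂ → Prop} :
    (∀ᵐ p ∂T.mu, P p) ↔ ∀ᵐ p ∂((volume.restrict T.table).prod nu), P p := by
  rw [mu_eq, Measure.ae_ennreal_smul_measure_iff T.inv_vol_ne_zero]

lemma ae_prod_mu_iff {Ω : Type} [MeasurableSpace Ω] {m : Measure Ω} [IsProbabilityMeasure m]
    {P : (ℂ × ℂ) × Ω → Prop} :
    (∀ᵐ z ∂(T.mu.prod m), P z) ↔
      ∀ᵐ p ∂((volume.restrict T.table).prod (nu.prod m)), P ((p.1, p.2.1), p.2.2) := by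
  have : IsFiniteMeasure (volume.restrict T.table) := ⟨by
    rw [Measure.restrict_apply_univ]; exact T.volume_table_lt_top⟩
  rw [mu_eq, Measure.prod_smul_left, Measure.ae_ennreal_smul_measure_iff T.inv_vol_ne_zero]
  have h1 := measurePreserving_prodAssoc (volume.restrict T.table) nu m
  constructor
  · intro h
    have h2 := (h1.symm _).quasiMeasurePreserving.ae h
    exact h2
  · intro h
    exact h1.quasiMeasurePreserving.ae h

/-- points of the phase space -/
lemma ae_mem_table : ∀ᵐ p ∂T.mu, p.1 ∈ T.table := by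
  rw [ae_mu_iff]
  exact Measure.quasiMeasurePreserving_fst.ae (ae_restrict_mem T.isOpen_table.measurableSet)

/-- Invariant functions. -/
theorem ergodic_fun (hT : T.IsIrrational) {Φ : ℝ → ℂ × ℂ → ℂ × ℂ}
    (hb : T.IsBilliardFlow Φ) {f : ℂ × ℂ → ℝ} (hf : Measurable f) (hfb : ∃ C, ∀ p, |f p| ≤ C)
    (hinv : ∀ s, ∀ᵐ p ∂T.mu, f (Φ s p) = f p) : ∃ c, ∀ᵐ p ∂T.mu, f p = c := by
  set m : Measure Unit := Measure.dirac () with hm
  have hΨ : PFlow m (fun (_ : ℝ) (q : Unit) => q) :=
    ⟨by fun_prop, fun t => MeasurePreserving.id _, fun s t => Filter.Eventually.of_forall fun _ => rfl,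
      Filter.Eventually.of_forall fun _ => rfl⟩
  set H : ℂ → ℂ × Unit → ℝ := fun x ω => f (x, ω.1) with hHdef
  have hH : Bdd H := by
    constructor
    · exact hf.comp (by fun_prop)
    · obtain ⟨C, hC⟩ := hfb
      exact ⟨C, fun y ω => hC _⟩
  have hmem := T.ae_mem_table
  have tr : ∀ {P : ℂ × ℂ → Prop}, (∀ᵐ p ∂T.mu, P p) →
      ∀ᵐ p ∂((volume.restrict T.table).prod (nu.prod m)), P (p.1, p.2.1) := by
    intro P hP
    have h1 : ∀ᵐ z ∂(T.mu.prod m), P z.1 := by
      have : IsProbabilityMeasure T.mu := T.isProbabilityMeasure_mu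
      exact Measure.quasiMeasurePreserving_fst.ae hP
    exact T.ae_prod_mu_iff.mp h1
  have hF : T.FreeInv m (fun (_ : ℝ) (q : Unit) => q) H := by
    intro t ht
    have h1 : ∀ᵐ p ∂T.mu, p.1 + t • p.2 ∈ T.table → f (p.1 + t • p.2, p.2) = f p := by
      filter_upwards [hb, hmem, hinv t] with p hp hp' hi hin
      have h2 := hp.2.free T (γ := fun t => Φ t p) (by rw [hp.1]; exact hp') ht.le
        (by rw [hp.1]; exact hin)
      simp only [hp.1] at h2
      rw [← h2, hi]
    exact tr h1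
  have hB : T.BounceInv m (fun (_ : ℝ) (q : Unit) => q) H := by
    intro t ht i
    have h1 : ∀ᵐ p ∂T.mu, T.E i p → T.hitT i p < t → T.R i (p.1 + t • p.2) ∈ T.table →
        f (T.R i (p.1 + t • p.2), T.refl i p.2) = f p := by
      filter_upwards [hb, hmem, hinv t] with p hp hp' hi hE hlt hin
      have h2 := hp.2.bounce T (γ := fun t => Φ t p) (by rw [hp.1]; exact hp') (i := i) (t := t)
        (by rw [hp.1]; exact hE) (by rw [hp.1]; exact hlt) (by rw [hp.1]; exact hin)
      simp only [hp.1] at h2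
      rw [← h2, hi]
    exact tr h1
  obtain ⟨g, _, _, _, hg⟩ := T.relative hΨ hT hH hF hB
  refine ⟨g (), ?_⟩
  have h3 : ∀ᵐ z ∂(T.mu.prod m), f z.1 = g () := by
    rw [T.ae_prod_mu_iff]
    filter_upwards [hg] with p hp
    exact hp
  have : IsProbabilityMeasure T.mu := T.isProbabilityMeasure_mu
  have h4 := Measure.ae_ae_of_ae_prod h3
  filter_upwards [h4] with p hp
  simpa [hm] using hp

/-- a zero-one law -/
lemma zero_one_of_indicator {X : Type} [MeasurableSpace X] {μ : Measure X}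
    [IsProbabilityMeasure μ] {A : Set X} (hA : MeasurableSet A) {c : ℝ}
    (h : ∀ᵐ p ∂μ, A.indicator (fun _ => (1 : ℝ)) p = c) : μ A = 0 ∨ μ A = 1 := by
  by_cases hc : c = 1
  · right
    have h1 : ∀ᵐ p ∂μ, p ∈ A := by
      filter_upwards [h] with p hp
      by_contra hn
      rw [indicator_of_notMem hn, hc] at hp
      exact zero_ne_one hp
    exact (prob_compl_eq_zero_iff hA).mp (ae_iff.mp h1)
  · left
    have h1 : ∀ᵐ p ∂μ, p ∉ A := by
      filter_upwards [h] with p hp
      intro hn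
      rw [indicator_of_mem hn] at hp
      exact hc hp.symm
    have := ae_iff.mp h1
    simpa only [not_not, ofPred_mem_eq] using this

lemma ae_iff_of_symmDiff {X : Type} [MeasurableSpace X] {μ : Measure X} {A B : Set X}
    (h : μ (symmDiff B A) = 0) : ∀ᵐ p ∂μ, (p ∈ B ↔ p ∈ A) := by
  have h1 : ∀ᵐ p ∂μ, p ∉ symmDiff B A := by
    rw [ae_iff]
    simpa only [not_not, ofPred_mem_eq, measure_symmDiff_eq_zero_iff] using h
  filter_upwards [h1] with p hp
  rw [Set.mem_symmDiff] at hp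
  (clear * - hp; tauto)

/-- Ergodicity. -/
theorem ergodic_flow (hT : T.IsIrrational) {Φ : ℝ → ℂ × ℂ → ℂ × ℂ}
    (hb : T.IsBilliardFlow Φ) : FlowErgodic T.mu Φ := by
  intro A hA hinv
  have : IsProbabilityMeasure T.mu := T.isProbabilityMeasure_mu
  obtain ⟨c, hc⟩ := T.ergodic_fun hT hb (f := A.indicator (fun _ => (1 : ℝ)))
    (measurable_const.indicator hA) ⟨1, fun p => by
      by_cases hp : p ∈ A
      · simp [hp]
      · simp [hp]⟩ (by
      intro s
      filter_upwards [ae_iff_of_symmDiff (hinv s)] with p hp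
      have hp' : Φ s p ∈ A ↔ p ∈ A := hp
      by_cases hA' : p ∈ A
      · rw [indicator_of_mem hA', indicator_of_mem (hp'.mpr hA')]
      · rw [indicator_of_notMem hA', indicator_of_notMem (fun h => hA' (hp'.mp h))])
  exact zero_one_of_indicator hA hc

/-- Weak mixing. -/
theorem weakMixing_of_good (hT : T.IsIrrational) {Φ Ψ : ℝ → ℂ × ℂ → ℂ × ℂ}
    (hb : T.IsBilliardFlow Φ) (hΨ : PFlow T.mu Ψ) (hae : ∀ t, Φ t =ᵐ[T.mu] Ψ t) :
    FlowWeakMixing T.mu Φ := by
  intro A hA hinv
  have hprob : IsProbabilityMeasure T.mu := T.isProbabilityMeasure_mu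
  set I : (ℂ × ℂ) × (ℂ × ℂ) → ℝ := A.indicator (fun _ => (1 : ℝ)) with hI
  have mI : Measurable I := measurable_const.indicator hA
  set H : ℂ → ℂ × (ℂ × ℂ) → ℝ := fun x ω => I ((x, ω.1), ω.2) with hHdef
  have hH : Bdd H := by
    constructor
    · exact mI.comp (by fun_prop)
    · refine ⟨1, fun y ω => ?_⟩
      simp only [hHdef, hI]
      by_cases hp : ((y, ω.1), ω.2) ∈ A
      · simp [hp]
      · simp only [hp, not_false_eq_true, indicator_of_notMem, abs_zero, zero_le_one]
  -- invariance of the indicator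
  have hinvI : ∀ t, ∀ᵐ z ∂(T.mu.prod T.mu), I (Φ t z.1, Ψ t z.2) = I z := by
    intro t
    have h1 := ae_iff_of_symmDiff (hinv t)
    have h2 : ∀ᵐ z ∂(T.mu.prod T.mu), Φ t z.2 = Ψ t z.2 :=
      Measure.quasiMeasurePreserving_snd.ae (hae t)
    filter_upwards [h1, h2] with z hz hz2
    have hz' : (Φ t z.1, Φ t z.2) ∈ A ↔ z ∈ A := hz
    rw [hz2] at hz'
    simp only [hI]
    by_cases hA' : z ∈ A
    · rw [indicator_of_mem hA', indicator_of_mem (hz'.mpr hA')]
    · rw [indicator_of_notMem hA', indicator_of_notMem (fun h => hA' (hz'.mp h))]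
  have hmem := T.ae_mem_table
  have hb' : ∀ᵐ z ∂(T.mu.prod T.mu), Φ 0 z.1 = z.1 ∧ T.IsTrajectory (fun t => Φ t z.1) :=
    Measure.quasiMeasurePreserving_fst.ae hb
  have hmem' : ∀ᵐ z ∂(T.mu.prod T.mu), z.1.1 ∈ T.table :=
    Measure.quasiMeasurePreserving_fst.ae hmem
  have hF : T.FreeInv T.mu Ψ H := by
    intro t ht
    have h1 : ∀ᵐ z ∂(T.mu.prod T.mu), z.1.1 + t • z.1.2 ∈ T.table →
        I ((z.1.1 + t • z.1.2, z.1.2), Ψ t z.2) = I z := by
      filter_upwards [hb', hmem', hinvI t] with z hp hp' hi hin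
      have h2 := hp.2.free T (γ := fun t => Φ t z.1) (by rw [hp.1]; exact hp') ht.le
        (by rw [hp.1]; exact hin)
      simp only [hp.1] at h2
      rw [← h2, hi]
    exact T.ae_prod_mu_iff.mp h1
  have hB : T.BounceInv T.mu Ψ H := by
    intro t ht i
    have h1 : ∀ᵐ z ∂(T.mu.prod T.mu), T.E i z.1 → T.hitT i z.1 < t →
        T.R i (z.1.1 + t • z.1.2) ∈ T.table →
        I ((T.R i (z.1.1 + t • z.1.2), T.refl i z.1.2), Ψ t z.2) = I z := by
      filter_upwards [hb', hmem', hinvI t] with z hp hp' hi hE hlt hin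
      have h2 := hp.2.bounce T (γ := fun t => Φ t z.1) (by rw [hp.1]; exact hp') (i := i) (t := t)
        (by rw [hp.1]; exact hE) (by rw [hp.1]; exact hlt) (by rw [hp.1]; exact hin)
      simp only [hp.1] at h2
      rw [← h2, hi]
    exact T.ae_prod_mu_iff.mp h1
  obtain ⟨g, mg, bg, ig, hg⟩ := T.relative hΨ hT hH hF hB
  have ig' : ∀ s, ∀ᵐ p ∂T.mu, g (Φ s p) = g p := by
    intro s
    filter_upwards [ig s, hae s] with p hp hp'
    rw [hp', hp]
  obtain ⟨c, hc⟩ := T.ergodic_fun hT hb mg bg ig'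
  have h3 : ∀ᵐ z ∂(T.mu.prod T.mu), I z = c := by
    have h4 : ∀ᵐ z ∂(T.mu.prod T.mu), I z = g z.2 := by
      rw [T.ae_prod_mu_iff]
      exact hg
    have h5 : ∀ᵐ z ∂(T.mu.prod T.mu), g z.2 = c := Measure.quasiMeasurePreserving_snd.ae hc
    filter_upwards [h4, h5] with z h6 h7
    rw [h6, h7]
  exact zero_one_of_indicator hA h3

end Triangle

end Vale.Agent.P099
end
end

section

section

open MeasureTheory Set Filter Topology

namespace Vale.Agent.P099

/-- a map which is injective on `S` and coincides piecewise with injective measure preserving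
maps does not increase the measure -/
lemma measure_inter_preimage_le {X : Type*} [MeasurableSpace X] {μ : Measure X} {f : X → X}
    (hf : Measurable f) {S K : Set X} (hS : MeasurableSet S) (hinj : InjOn f S)
    (hK : ∀ x ∈ S, f x ∈ K) {ι : Type*} [Countable ι] (N : ι → X → X)
    (hN : ∀ i, MeasurableEmbedding (N i)) (hNm : ∀ i, MeasurePreserving (N i) μ μ)
    (hcov : ∀ x ∈ S, ∃ i, f x = N i x) (hEq : ∀ i, MeasurableSet {x | f x = N i x})
    {B : Set X} (hB : MeasurableSet B) : μ (S ∩ f ⁻¹' B) ≤ μ (K ∩ B) := by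
  classical
  rcases isEmpty_or_nonempty ι with hι | hι
  · have : S = ∅ := by
      ext x
      simp only [mem_empty_iff_false, iff_false]
      intro hx
      obtain ⟨i, -⟩ := hcov x hx
      exact hι.elim i
    rw [this]
    simp
  obtain ⟨e, he⟩ := exists_surjective_nat ι
  set C : ℕ → Set X := fun n => S ∩ f ⁻¹' B ∩ {x | f x = N (e n) x} with hC
  have hCm : ∀ n, MeasurableSet (C n) := fun n => (hS.inter (hf hB)).inter (hEq _)
  have hCU : S ∩ f ⁻¹' B = ⋃ n, disjointed C n := by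
    rw [iUnion_disjointed]
    ext x
    simp only [hC, mem_iUnion, mem_inter_iff, mem_ofPred_eq]
    constructor
    · intro hx
      obtain ⟨i, hi⟩ := hcov x hx.1
      obtain ⟨n, rfl⟩ := he i
      exact ⟨n, hx, hi⟩
    · rintro ⟨n, hx, -⟩
      exact hx
  have hDm : ∀ n, MeasurableSet (disjointed C n) := fun n => MeasurableSet.disjointed hCm n
  have hsub : ∀ n, disjointed C n ⊆ C n := fun n => disjointed_subset C n
  have himg : ∀ n, f '' (disjointed C n) = N (e n) '' (disjointed C n) := by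
    intro n
    apply image_congr
    intro x hx
    exact (hsub n hx).2
  have himgm : ∀ n, MeasurableSet (f '' (disjointed C n)) := by
    intro n
    rw [himg]
    exact (hN (e n)).measurableSet_image.2 (hDm n)
  have hmeas : ∀ n, μ (disjointed C n) = μ (f '' (disjointed C n)) := by
    intro n
    have h1 := (hNm (e n)).measure_preimage (himgm n).nullMeasurableSet
    rw [← h1, himg, preimage_image_eq _ (hN (e n)).injective]
  rw [hCU, measure_iUnion (disjoint_disjointed C) hDm]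
  calc ∑' n, μ (disjointed C n) = ∑' n, μ (f '' (disjointed C n)) := by
        congr 1; funext n; exact hmeas n
    _ = μ (⋃ n, f '' (disjointed C n)) := by
        rw [measure_iUnion _ himgm]
        intro m n hmn
        refine disjoint_left.2 ?_
        rintro _ ⟨x, hx, rfl⟩ ⟨y, hy, hxy⟩
        have hxS : x ∈ S := (hsub m hx).1.1
        have hyS : y ∈ S := (hsub n hy).1.1
        have := hinj hyS hxS hxy
        subst this
        exact disjoint_left.1 (disjoint_disjointed C hmn) hx hy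
    _ ≤ μ (K ∩ B) := by
        apply measure_mono
        intro y hy
        simp only [mem_iUnion] at hy
        obtain ⟨n, x, hx, rfl⟩ := hy
        exact ⟨hK x (hsub n hx).1.1, (hsub n hx).1.2⟩

namespace Triangle

variable {T : Triangle}

/-! ### uniqueness of trajectories -/

lemma ray_eq {x y u v : ℂ} {r : ℝ} (h : (x + r • u, u) = (y + r • v, v)) : x = y ∧ u = v := by
  rw [Prod.mk.injEq] at h
  obtain ⟨h1, h2⟩ := h
  subst h2
  exact ⟨add_right_cancel h1, rfl⟩

/-- comparison of two trajectories at a time -/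
lemma IsTrajectory.cmp {γ δ : ℝ → ℂ × ℂ} (hγ : T.IsTrajectory γ) (hδ : T.IsTrajectory δ) (t : ℝ) :
    ((∀ᶠ s in 𝓝[>] t, γ s = δ s) ∧ (∀ᶠ s in 𝓝[<] t, γ s = δ s) ∧
      ((γ t).1 ∈ T.table → γ t = δ t)) ∨
    ((∀ᶠ s in 𝓝[>] t, γ s ≠ δ s) ∧ (∀ᶠ s in 𝓝[<] t, γ s ≠ δ s)) := by
  rcases hγ t with ⟨hT, hE⟩ | ⟨i, u, hS, hL, hR⟩
  · rcases hδ t with ⟨hT', hE'⟩ | ⟨j, v, hS', hL', hR'⟩
    · by_cases hc : (γ t).1 = (δ t).1 ∧ (γ t).2 = (δ t).2
      · left
        have h : ∀ᶠ s in 𝓝 t, γ s = δ s := by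
          filter_upwards [hE, hE'] with s h1 h2
          rw [h1, h2, hc.1, hc.2]
        exact ⟨h.filter_mono nhdsWithin_le_nhds, h.filter_mono nhdsWithin_le_nhds,
          fun _ => Prod.ext hc.1 hc.2⟩
      · right
        have h : ∀ᶠ s in 𝓝 t, γ s ≠ δ s := by
          filter_upwards [hE, hE'] with s h1 h2 h3
          rw [h1, h2] at h3
          exact hc (ray_eq h3)
        exact ⟨h.filter_mono nhdsWithin_le_nhds, h.filter_mono nhdsWithin_le_nhds⟩
    · right
      have hne : (γ t).1 ≠ (δ t).1 := fun h =>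
        T.not_mem_side_of_mem_table hT j (h ▸ hS')
      constructor
      · filter_upwards [hE.filter_mono nhdsWithin_le_nhds, hR'] with s h1 h2 h3
        rw [h1, h2] at h3
        exact hne (ray_eq h3).1
      · filter_upwards [hE.filter_mono nhdsWithin_le_nhds, hL'] with s h1 h2 h3
        rw [h1, h2] at h3
        exact hne (ray_eq h3).1
  · rcases hδ t with ⟨hT', hE'⟩ | ⟨j, v, hS', hL', hR'⟩
    · right
      have hne : (γ t).1 ≠ (δ t).1 := fun h =>
        T.not_mem_side_of_mem_table hT' i (h ▸ hS)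
      constructor
      · filter_upwards [hR, hE'.filter_mono nhdsWithin_le_nhds] with s h1 h2 h3
        rw [h1, h2] at h3
        exact hne (ray_eq h3).1
      · filter_upwards [hL, hE'.filter_mono nhdsWithin_le_nhds] with s h1 h2 h3
        rw [h1, h2] at h3
        exact hne (ray_eq h3).1
    · by_cases hc : (γ t).1 = (δ t).1 ∧ u = v
      · left
        obtain ⟨hc1, rfl⟩ := hc
        have hij : i = j := T.side_unique hS (hc1 ▸ hS')
        subst hij
        refine ⟨?_, ?_, fun h => absurd hS (T.not_mem_side_of_mem_table h i)⟩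
        · filter_upwards [hR, hR'] with s h1 h2
          rw [h1, h2, hc1]
        · filter_upwards [hL, hL'] with s h1 h2
          rw [h1, h2, hc1]
      · right
        constructor
        · filter_upwards [hR, hR'] with s h1 h2 h3
          rw [h1, h2] at h3
          obtain ⟨h4, h5⟩ := ray_eq h3
          have hij : i = j := T.side_unique hS (h4 ▸ hS')
          subst hij
          apply hc ⟨h4, ?_⟩
          rw [← T.refl_refl i u, h5, T.refl_refl]
        · filter_upwards [hL, hL'] with s h1 h2 h3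
          rw [h1, h2] at h3
          exact hc (ray_eq h3)

/-- the set of times at which two trajectories have the same germ is everything or empty -/
lemma IsTrajectory.same {γ δ : ℝ → ℂ × ℂ} (hγ : T.IsTrajectory γ) (hδ : T.IsTrajectory δ) {a : ℝ}
    (ha : (γ a).1 ∈ T.table) (hae : γ a = δ a) {t : ℝ} (ht : (γ t).1 ∈ T.table) : γ t = δ t := by
  -- the good times
  set A : Set ℝ := {t | ∀ᶠ s in 𝓝[>] t, γ s = δ s} with hA
  have key1 : ∀ t ∈ A, (∀ᶠ s in 𝓝[<] t, γ s = δ s) ∧ ((γ t).1 ∈ T.table → γ t = δ t) := by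
    intro t ht
    rcases IsTrajectory.cmp hγ hδ t with h | h
    · exact h.2
    · exfalso
      obtain ⟨s, h1, h2⟩ := (h.1.and ht).exists
      exact h1 h2
  have key2 : ∀ t ∉ A, (∀ᶠ s in 𝓝[>] t, γ s ≠ δ s) ∧ (∀ᶠ s in 𝓝[<] t, γ s ≠ δ s) := by
    intro t ht
    rcases IsTrajectory.cmp hγ hδ t with h | h
    · exact absurd h.1 ht
    · exact h
  have hclopen : IsClopen A := by
    constructor
    · rw [← isOpen_compl_iff, isOpen_iff_mem_nhds]
      intro t ht
      obtain ⟨h1, h2⟩ := key2 t ht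
      obtain ⟨b, hb, hb'⟩ := mem_nhdsGT_iff_exists_Ioo_subset.1 h1
      obtain ⟨c, hc, hc'⟩ := mem_nhdsLT_iff_exists_Ioo_subset.1 h2
      rw [mem_Ioi] at hb
      rw [mem_Iio] at hc
      filter_upwards [Ioo_mem_nhds hc hb] with s hs
      rcases lt_trichotomy s t with h | h | h
      · intro hsA
        have h3 : ∀ᶠ r in 𝓝[>] s, r ∈ Ioo c t := nhdsWithin_le_nhds (Ioo_mem_nhds hs.1 h)
        obtain ⟨r, h4, h5⟩ := (Eventually.and (show ∀ᶠ r in 𝓝[>] s, γ r = δ r from hsA) h3).exists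
        exact hc' h5 h4
      · rw [h]; exact ht
      · intro hsA
        have h3 : ∀ᶠ r in 𝓝[>] s, r ∈ Ioo t b := nhdsWithin_le_nhds (Ioo_mem_nhds h hs.2)
        obtain ⟨r, h4, h5⟩ := (Eventually.and (show ∀ᶠ r in 𝓝[>] s, γ r = δ r from hsA) h3).exists
        exact hb' h5 h4
    · rw [isOpen_iff_mem_nhds]
      intro t ht
      obtain ⟨h2, -⟩ := key1 t ht
      obtain ⟨b, hb, hb'⟩ := mem_nhdsGT_iff_exists_Ioo_subset.1 ht
      obtain ⟨c, hc, hc'⟩ := mem_nhdsLT_iff_exists_Ioo_subset.1 h2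
      rw [mem_Ioi] at hb
      rw [mem_Iio] at hc
      filter_upwards [Ioo_mem_nhds hc hb] with s hs
      rcases lt_trichotomy s t with h | h | h
      · have h3 : ∀ᶠ r in 𝓝[>] s, r ∈ Ioo c t := nhdsWithin_le_nhds (Ioo_mem_nhds hs.1 h)
        filter_upwards [h3] with r hr
        exact hc' hr
      · rw [h]; exact ht
      · have h3 : ∀ᶠ r in 𝓝[>] s, r ∈ Ioo t b := nhdsWithin_le_nhds (Ioo_mem_nhds h hs.2)
        filter_upwards [h3] with r hr
        exact hb' hr
  have haA : a ∈ A := by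
    by_contra hne
    rcases IsTrajectory.cmp hγ hδ a with h | h
    · exact hne h.1
    · rcases hγ a with ⟨_, hE⟩ | ⟨i, u, hS, _⟩
      · rcases hδ a with ⟨_, hE'⟩ | ⟨i, u, hS, _⟩
        · have h3 : ∀ᶠ s in 𝓝[>] a, γ s = δ s := by
            filter_upwards [hE.filter_mono nhdsWithin_le_nhds,
              hE'.filter_mono nhdsWithin_le_nhds] with s h1 h2
            rw [h1, h2, hae]
          exact hne h3
        · rw [← hae] at hS
          exact T.not_mem_side_of_mem_table ha i hS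
      · exact T.not_mem_side_of_mem_table ha i hS
  have hAu : A = univ := by
    rcases isClopen_iff.1 hclopen with h | h
    · rw [h] at haA; exact absurd haA (notMem_empty _)
    · exact h
  have htA : t ∈ A := by rw [hAu]; trivial
  exact (key1 t htA).2 ht

/-! ### the flow in terms of the unfoldings -/

lemma GX_append (w : List (Fin 3)) (i : Fin 3) (x : ℂ) :
    T.GX (w ++ [i]) x = T.R i (T.GX w x) := by
  induction w generalizing x with
  | nil => rfl
  | cons j w ih => exact ih _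

lemma GU_append (w : List (Fin 3)) (i : Fin 3) (u : ℂ) :
    T.GU (w ++ [i]) u = T.refl i (T.GU w u) := by
  induction w generalizing u with
  | nil => rfl
  | cons j w ih => exact ih _

lemma GU_neg (w : List (Fin 3)) (u : ℂ) : T.GU w (-u) = - T.GU w u := by
  induction w generalizing u with
  | nil => rfl
  | cons j w ih =>
    change T.GU w (T.refl j (-u)) = - T.GU w (T.refl j u)
    rw [T.refl_neg, ih]

lemma GX_injective (w : List (Fin 3)) : Function.Injective (T.GX w) := by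
  induction w with
  | nil => exact Function.injective_id
  | cons j w ih => exact ih.comp (Function.LeftInverse.injective (T.R_R j))

lemma GU_injective (w : List (Fin 3)) : Function.Injective (T.GU w) := by
  induction w with
  | nil => exact Function.injective_id
  | cons j w ih => exact ih.comp (Function.LeftInverse.injective (T.refl_refl j))

lemma measurePreserving_GU (w : List (Fin 3)) : MeasurePreserving (T.GU w) nu nu := by
  induction w with
  | nil => exact MeasurePreserving.id _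
  | cons i w ih => exact ih.comp (T.measurePreserving_refl i)

/-- the unfolded motion -/
noncomputable def NW (T : Triangle) (t : ℝ) (w : List (Fin 3)) (p : ℂ × ℂ) : ℂ × ℂ :=
  (T.GX w (p.1 + t • p.2), T.GU w p.2)

lemma continuous_NW (t : ℝ) (w : List (Fin 3)) : Continuous (T.NW t w) := by
  have h1 := T.continuous_GX w
  have h2 := T.continuous_GU w
  unfold NW
  fun_prop

lemma NW_injective (t : ℝ) (w : List (Fin 3)) : Function.Injective (T.NW t w) := by
  intro p q h
  rw [NW, NW, Prod.mk.injEq] at h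
  have h1 := GU_injective w h.2
  have h2 := GX_injective w h.1
  rw [h1] at h2
  exact Prod.ext (add_right_cancel h2) h1

lemma measurePreserving_shift (t : ℝ) : MeasurePreserving (fun p : ℂ × ℂ => (p.1 + t • p.2, p.2))
    ((volume : Measure ℂ).prod nu) ((volume : Measure ℂ).prod nu) := by
  have h1 : MeasurePreserving (fun p : ℂ × ℂ => (p.1, p.2 + t • p.1))
      (nu.prod (volume : Measure ℂ)) (nu.prod (volume : Measure ℂ)) := by
    refine (MeasurePreserving.id nu).skew_product (g := fun u x => x + t • u) (by fun_prop) ?_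
    refine ae_of_all _ fun u => ?_
    exact (measurePreserving_add_right volume (t • u)).map_eq
  have h2 := (Measure.measurePreserving_swap (μ := nu) (ν := (volume : Measure ℂ))).comp
    (h1.comp (Measure.measurePreserving_swap (μ := (volume : Measure ℂ)) (ν := nu)))
  exact h2

lemma measurePreserving_NW (t : ℝ) (w : List (Fin 3)) : MeasurePreserving (T.NW t w)
    ((volume : Measure ℂ).prod nu) ((volume : Measure ℂ).prod nu) :=
  ((T.measurePreserving_GX w).prod (measurePreserving_GU w)).comp (measurePreserving_shift t)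

lemma exists_word {s : ℂ × ℂ} (h : T.Good s) (n : ℕ) : ∃ w, (T.sq s n).2 = T.GU w s.2 ∧
    (T.sq s n).1 = T.GX w (s.1 + T.tt s n • s.2) := by
  induction n with
  | zero => exact ⟨[], rfl, by rw [tt_zero, zero_smul, add_zero]; rfl⟩
  | succ n ih =>
    obtain ⟨w, h1, h2⟩ := ih
    refine ⟨w ++ [T.ex (T.sq s n)], ?_, ?_⟩
    · rw [sq_succ_snd, GU_append, h1]
    · have h3 : T.lam (T.ex (T.sq s n)) (T.sq s (n + 1)).1 = 0 := T.lam_hit _ (h.sq n).E
      rw [← T.R_of_lam_eq_zero h3, sq_succ_fst, GX_append, tt_succ, h1, h2, add_smul,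
        ← add_assoc, GX_add T w (s.1 + T.tt s n • s.2)]

lemma exists_word_fw {s : ℂ × ℂ} (h : T.Good s) {t : ℝ} (ht : 0 ≤ t) :
    ∃ w, T.fw s t = T.NW t w s := by
  obtain ⟨n, h1, h2⟩ := h.exists_Ico ht
  obtain ⟨w, h3, h4⟩ := exists_word h n
  refine ⟨w, ?_⟩
  rw [h.fw_eq h1 h2, NW, h3, h4, ← GX_add, add_assoc, ← add_smul]
  congr 4
  ring

lemma exists_word_traj {p : ℂ × ℂ} (h1 : T.Good p) (h2 : T.Good (flip p)) (t : ℝ) :
    ∃ w, T.traj t p = T.NW t w p := by
  rcases le_or_gt 0 t with ht | ht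
  · rw [traj, if_pos ht]
    exact exists_word_fw h1 ht
  · rw [traj, if_neg (not_le.2 ht)]
    obtain ⟨w, hw⟩ := exists_word_fw h2 (neg_nonneg.2 ht.le)
    refine ⟨w, ?_⟩
    rw [hw]
    simp only [NW, flip, GU_neg, neg_neg, smul_neg, neg_smul]

end Triangle

end Vale.Agent.P099
end
end

section

section

open MeasureTheory Set Filter Topology

namespace Vale.Agent.P099

namespace Triangle

variable {T : Triangle}

/-! ### measurable version of the flow -/

lemma measurable_lam (i : Fin 3) : Measurable (T.lam i) := (continuous_lamE i).measurable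

lemma measurable_ell (i : Fin 3) : Measurable (T.ell i) := by
  have : Continuous (T.ell i) := by
    unfold ell cr
    fun_prop
  exact this.measurable

lemma measurable_hitT (i : Fin 3) : Measurable (T.hitT i) := by
  have h1 : Measurable (fun s : ℂ × ℂ => T.lam i s.1) := (measurable_lam i).comp measurable_fst
  have h2 : Measurable (fun s : ℂ × ℂ => T.ell i s.2) := (measurable_ell i).comp measurable_snd
  exact h1.neg.div h2

lemma measurable_hit (i : Fin 3) : Measurable (T.hit i) := by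
  have h1 := measurable_hitT (T := T) i
  have h2 : Measurable (fun s : ℂ × ℂ => T.refl i s.2) :=
    (T.continuous_refl i).measurable.comp measurable_snd
  exact (measurable_fst.add (h1.smul measurable_snd)).prodMk h2

lemma measurableSet_E (i : Fin 3) : MeasurableSet {s : ℂ × ℂ | T.E i s} := by
  have h1 := measurable_hitT (T := T) i
  have h2 : Measurable (fun s : ℂ × ℂ => T.ell i s.2) := (measurable_ell i).comp measurable_snd
  have h3 : Measurable (fun s : ℂ × ℂ => s.1 + T.hitT i s • s.2) :=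
    measurable_fst.add (h1.smul measurable_snd)
  have h4 : MeasurableSet {s : ℂ × ℂ | T.ell i s.2 < 0} := measurableSet_lt h2 measurable_const
  have h5 : MeasurableSet {s : ℂ × ℂ | ∀ j, j ≠ i → 0 < T.lam j (s.1 + T.hitT i s • s.2)} := by
    have : {s : ℂ × ℂ | ∀ j, j ≠ i → 0 < T.lam j (s.1 + T.hitT i s • s.2)} =
        ⋂ j, ⋂ (_ : j ≠ i), {s : ℂ × ℂ | 0 < T.lam j (s.1 + T.hitT i s • s.2)} := by
      ext s
      simp only [ne_eq, Complex.real_smul, mem_ofPred_eq, mem_iInter]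
    rw [this]
    refine MeasurableSet.iInter fun j => MeasurableSet.iInter fun _ => ?_
    exact measurableSet_lt measurable_const ((measurable_lam j).comp h3)
  exact h4.inter h5

open Classical in
/-- measurable version of the collision map -/
noncomputable def hm (T : Triangle) (s : ℂ × ℂ) : ℂ × ℂ :=
  if T.E 0 s then T.hit 0 s else if T.E 1 s then T.hit 1 s else T.hit 2 s

open Classical in
/-- measurable version of the flight time -/
noncomputable def hT (T : Triangle) (s : ℂ × ℂ) : ℝ :=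
  if T.E 0 s then T.hitT 0 s else if T.E 1 s then T.hitT 1 s else T.hitT 2 s

lemma measurable_hm : Measurable T.hm := by
  classical
  exact Measurable.ite (measurableSet_E 0) (measurable_hit 0)
    (Measurable.ite (measurableSet_E 1) (measurable_hit 1) (measurable_hit 2))

lemma measurable_hT : Measurable T.hT := by
  classical
  exact Measurable.ite (measurableSet_E 0) (measurable_hitT 0)
    (Measurable.ite (measurableSet_E 1) (measurable_hitT 1) (measurable_hitT 2))

lemma Good.hm_eq {s : ℂ × ℂ} (h : T.Good s) : T.hm s = T.hit (T.ex s) s := by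
  have h1 := h.E
  unfold Triangle.hm
  generalize T.ex s = i at h1
  split_ifs with h2 h3
  · rw [Triangle.E.unique T h.adm h1 h2]
  · rw [Triangle.E.unique T h.adm h1 h3]
  · fin_cases i
    · exact absurd h1 h2
    · exact absurd h1 h3
    · rfl

lemma Good.hT_eq {s : ℂ × ℂ} (h : T.Good s) : T.hT s = T.hitT (T.ex s) s := by
  have h1 := h.E
  unfold Triangle.hT
  generalize T.ex s = i at h1
  split_ifs with h2 h3
  · rw [Triangle.E.unique T h.adm h1 h2]
  · rw [Triangle.E.unique T h.adm h1 h3]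
  · fin_cases i
    · exact absurd h1 h2
    · exact absurd h1 h3
    · rfl

lemma Good.sq_eq_iterate {s : ℂ × ℂ} (h : T.Good s) (n : ℕ) : T.hm^[n] s = T.sq s n := by
  induction n with
  | zero => rfl
  | succ n ih => rw [Function.iterate_succ_apply', ih, (h.sq n).hm_eq]; rfl

/-- measurable version of the collision times -/
noncomputable def tm' (T : Triangle) (n : ℕ) (s : ℂ × ℂ) : ℝ :=
  ∑ m ∈ Finset.range n, T.hT (T.hm^[m] s)

lemma measurable_tm' (n : ℕ) : Measurable (T.tm' n) := by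
  refine Finset.measurable_fun_sum _ fun m _ => ?_
  exact measurable_hT.comp (measurable_hm.iterate m)

lemma Good.tm'_eq {s : ℂ × ℂ} (h : T.Good s) (n : ℕ) : T.tm' n s = T.tt s n := by
  refine Finset.sum_congr rfl fun m _ => ?_
  rw [h.sq_eq_iterate, (h.sq m).hT_eq]
  rfl

lemma exists_measurable_fw (T : Triangle) : ∃ F : ℝ × (ℂ × ℂ) → ℂ × ℂ, Measurable F ∧
    ∀ s t, T.Good s → 0 ≤ t → F (t, s) = T.fw s t := by
  classical
  let p : ℕ → ℝ × (ℂ × ℂ) → Prop := fun n z =>
    z.1 < T.tm' (n + 1) z.2 ∨ ∀ m, T.tm' (m + 1) z.2 ≤ z.1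
  let f : ℕ → ℝ × (ℂ × ℂ) → ℂ × ℂ := fun n z =>
    ((T.hm^[n] z.2).1 + (z.1 - T.tm' n z.2) • (T.hm^[n] z.2).2, (T.hm^[n] z.2).2)
  have hp : ∀ n, MeasurableSet {z | p n z} := by
    intro n
    have h1 : MeasurableSet {z : ℝ × (ℂ × ℂ) | z.1 < T.tm' (n + 1) z.2} :=
      measurableSet_lt measurable_fst ((measurable_tm' _).comp measurable_snd)
    have h2 : MeasurableSet {z : ℝ × (ℂ × ℂ) | ∀ m, T.tm' (m + 1) z.2 ≤ z.1} := by
      have : {z : ℝ × (ℂ × ℂ) | ∀ m, T.tm' (m + 1) z.2 ≤ z.1} =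
          ⋂ m, {z : ℝ × (ℂ × ℂ) | T.tm' (m + 1) z.2 ≤ z.1} := by
        ext z; simp only [mem_ofPred_eq, mem_iInter]
      rw [this]
      exact MeasurableSet.iInter fun m =>
        measurableSet_le ((measurable_tm' _).comp measurable_snd) measurable_fst
    exact h1.union h2
  have hf : ∀ n, Measurable (f n) := by
    intro n
    have h1 : Measurable (fun z : ℝ × (ℂ × ℂ) => T.hm^[n] z.2) :=
      (measurable_hm.iterate n).comp measurable_snd
    have h2 : Measurable (fun z : ℝ × (ℂ × ℂ) => T.tm' n z.2) :=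
      (measurable_tm' n).comp measurable_snd
    exact (h1.fst.add ((measurable_fst.sub h2).smul h1.snd)).prodMk h1.snd
  have hex : ∀ z, ∃ n, p n z := by
    intro z
    by_cases h : ∃ m, z.1 < T.tm' (m + 1) z.2
    · obtain ⟨m, hm⟩ := h
      exact ⟨m, Or.inl hm⟩
    · refine ⟨0, Or.inr ?_⟩
      intro m
      by_contra hm
      exact h ⟨m, not_le.1 hm⟩
  refine ⟨_, Measurable.find hf hp hex, ?_⟩
  intro s t hs ht
  obtain ⟨n, h1, h2⟩ := hs.exists_Ico ht
  have hfind : Nat.find (hex (t, s)) = n := by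
    rw [Nat.find_eq_iff]
    constructor
    · left
      change t < T.tm' (n + 1) s
      rw [hs.tm'_eq]
      exact h2
    · intro m hm hpm
      rcases hpm with h3 | h3
      · change t < T.tm' (m + 1) s at h3
        rw [hs.tm'_eq] at h3
        have h4 : T.tt s (m + 1) ≤ T.tt s n := hs.tt_strictMono.monotone (by omega)
        linarith only [h1, h3, h4]
      · have h4 : T.tm' (n + 1) s ≤ t := h3 n
        rw [hs.tm'_eq] at h4
        linarith only [h2, h4]
  change f (Nat.find (hex (t, s))) (t, s) = _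
  rw [hfind, hs.fw_eq h1 h2]
  change ((T.hm^[n] s).1 + (t - T.tm' n s) • (T.hm^[n] s).2, (T.hm^[n] s).2) = _
  rw [hs.sq_eq_iterate, hs.tm'_eq]

lemma measurable_flip : Measurable (flip : ℂ × ℂ → ℂ × ℂ) :=
  measurable_fst.prodMk measurable_snd.neg

/-- There is a measurable flow which agrees with `traj` on a measurable conull set of good
states. -/
lemma exists_measurable_flow (T : Triangle) : ∃ (G : Set (ℂ × ℂ)) (Ψ : ℝ → ℂ × ℂ → ℂ × ℂ),
    MeasurableSet G ∧ (∀ᵐ p ∂((volume.restrict T.table).prod nu), p ∈ G) ∧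
    (∀ p ∈ G, p.1 ∈ T.table ∧ T.Good p ∧ T.Good (flip p)) ∧
    Measurable (fun z : ℝ × (ℂ × ℂ) => Ψ z.1 z.2) ∧ (∀ p ∈ G, ∀ t, Ψ t p = T.traj t p) := by
  classical
  obtain ⟨G, hG, hGm, hGp⟩ := (T.ae_good).exists_measurable_mem
  obtain ⟨F, hF, hFe⟩ := exists_measurable_fw T
  refine ⟨G, fun t p => if p ∈ G then (if 0 ≤ t then F (t, p) else flip (F (-t, flip p))) else p,
    hGm, hG, hGp, ?_, ?_⟩
  · refine Measurable.ite (hGm.preimage measurable_snd) ?_ measurable_snd
    refine Measurable.ite (measurableSet_le measurable_const measurable_fst) ?_ ?_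
    · exact hF
    · exact measurable_flip.comp (hF.comp (measurable_fst.neg.prodMk
        (measurable_flip.comp measurable_snd)))
  · intro p hp t
    obtain ⟨h1, h2, h3⟩ := hGp p hp
    simp only [if_pos hp, traj]
    split_ifs with ht
    · exact hFe p t h2 ht
    · rw [hFe (flip p) (-t) h3 (by linarith only [ht])]

lemma volume_lam_eq_zeroF (i : Fin 3) : volume {y : ℂ | T.lam i y = 0} = 0 := by
  have h1 := volume_line (T.P (i + 1)) (T.d i) (T.d_ne i)
  convert h1 using 2
  ext y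
  simp only [mem_ofPred_eq, lam, div_eq_zero_iff, T.Del_ne, or_false]
  simp only [cr, Complex.sub_re, Complex.sub_im]
  constructor <;> intro h <;> linarith

lemma ae_lam_neF (t : ℝ) (w : List (Fin 3)) (i : Fin 3) :
    ∀ᵐ p ∂((volume : Measure ℂ).prod nu), T.lam i (T.NW t w p).1 ≠ 0 := by
  have h1 : ∀ᵐ p ∂((volume : Measure ℂ).prod nu), T.lam i p.1 ≠ 0 := by
    have h2 : ∀ᵐ y ∂(volume : Measure ℂ), T.lam i y ≠ 0 := by
      rw [ae_iff]
      simp only [not_not]
      exact volume_lam_eq_zeroF i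
    exact Measure.quasiMeasurePreserving_fst.ae h2
  exact (measurePreserving_NW t w).quasiMeasurePreserving.ae h1

/-- A measurable measure preserving version of the billiard flow. -/
theorem exists_good_flow (T : Triangle) : ∃ Ψ : ℝ → ℂ × ℂ → ℂ × ℂ, PFlow T.mu Ψ ∧
    T.IsBilliardFlow Ψ ∧
    ∀ Φ : ℝ → ℂ × ℂ → ℂ × ℂ, T.IsBilliardFlow Φ → ∀ t, Φ t =ᵐ[T.mu] Ψ t := by
  obtain ⟨G, Ψ, hGm, hG, hGp, hΨm, hΨ⟩ := exists_measurable_flow T
  set L : Measure (ℂ × ℂ) := (volume : Measure ℂ).prod nu with hL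
  set M : Measure (ℂ × ℂ) := (volume.restrict T.table).prod nu with hM
  have hML : M = L.restrict (T.table ×ˢ univ) := by
    rw [hM, hL, ← Measure.prod_restrict, Measure.restrict_univ]
  have hmu : T.mu = (volume T.table)⁻¹ • M := by
    rw [mu, ProbabilityTheory.cond, Measure.prod_smul_left]
  have hKm : MeasurableSet (T.table ×ˢ (univ : Set ℂ)) :=
    T.isOpen_table.measurableSet.prod MeasurableSet.univ
  have hMfin : IsFiniteMeasure M := by
    have : IsFiniteMeasure (volume.restrict T.table) :=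
      ⟨by rw [Measure.restrict_apply_univ]; exact T.volume_table_lt_top⟩
    rw [hM]
    infer_instance
  have hΨtm : ∀ t, Measurable (Ψ t) := fun t =>
    hΨm.comp (measurable_const.prodMk measurable_id)
  -- the trajectories
  have htraj : ∀ p ∈ G, T.IsTrajectory (fun t => Ψ t p) := by
    intro p hp
    obtain ⟨h1, h2, h3⟩ := hGp p hp
    have h4 : (fun t => Ψ t p) = fun t => T.traj t p := by
      funext t; exact hΨ p hp t
    rw [h4]
    exact isTrajectory_traj h1 h2 h3
  have hzero : ∀ p ∈ G, Ψ 0 p = p := by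
    intro p hp
    obtain ⟨h1, h2, h3⟩ := hGp p hp
    rw [hΨ p hp, traj, if_pos le_rfl, h2.fw_small le_rfl (h2.tau_pos 0)]
    simp
  have hword : ∀ p ∈ G, ∀ t, ∃ w, Ψ t p = T.NW t w p := by
    intro p hp t
    obtain ⟨h1, h2, h3⟩ := hGp p hp
    rw [hΨ p hp]
    exact exists_word_traj h2 h3 t
  -- at a given time almost all points are in the table
  have htab : ∀ t, ∀ᵐ p ∂M, (Ψ t p).1 ∈ T.table := by
    intro t
    have h1 : ∀ᵐ p ∂M, ∀ w : List (Fin 3), ∀ i : Fin 3, T.lam i (T.NW t w p).1 ≠ 0 := by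
      rw [ae_all_iff]
      intro w
      rw [ae_all_iff]
      intro i
      rw [hML]
      exact ae_restrict_of_ae (ae_lam_neF t w i)
    filter_upwards [hG, h1] with p hp h2
    rcases htraj p hp t with ⟨h3, _⟩ | ⟨i, u, h3, _⟩
    · exact h3
    · exfalso
      obtain ⟨w, hw⟩ := hword p hp t
      apply h2 w i
      rw [← hw]
      exact ((T.mem_side_iff i _).1 h3).1
  -- measure preservation
  have hmp : ∀ t, MeasurePreserving (Ψ t) M M := by
    intro t
    refine ⟨hΨtm t, ?_⟩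
    have hle : M.map (Ψ t) ≤ M := by
      refine Measure.le_iff.2 fun B hB => ?_
      rw [Measure.map_apply (hΨtm t) hB]
      set S : Set (ℂ × ℂ) := G ∩ (Ψ t) ⁻¹' (T.table ×ˢ univ) with hS
      have hSm : MeasurableSet S := hGm.inter ((hΨtm t) hKm)
      have h1 : M (Ψ t ⁻¹' B) = M (S ∩ Ψ t ⁻¹' B) := by
        apply measure_congr
        filter_upwards [hG, htab t] with p h2 h3
        have h4 : p ∈ S := ⟨h2, h3, trivial⟩
        apply propext
        exact ⟨fun h => ⟨h4, h⟩, fun h => h.2⟩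
      have h2 : M (S ∩ Ψ t ⁻¹' B) ≤ L (S ∩ Ψ t ⁻¹' B) := by
        rw [hML]
        exact Measure.restrict_apply_le _ _
      have h3 : M B = L ((T.table ×ˢ univ) ∩ B) := by
        rw [hML, Measure.restrict_apply hB, inter_comm]
      rw [h1, h3]
      refine h2.trans ?_
      refine measure_inter_preimage_le (hΨtm t) hSm ?_ (fun x hx => hx.2) (T.NW t)
        (fun w => (continuous_NW t w).measurableEmbedding (NW_injective t w))
        (fun w => measurePreserving_NW t w) (fun x hx => hword x hx.1 t) ?_ hB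
      · intro p hp q hq hpq
        have h4 := (htraj p hp.1).shift T t
        have h5 := (htraj q hq.1).shift T t
        have h6 : (Ψ (0 + t) p).1 ∈ T.table := by rw [zero_add]; exact hp.2.1
        have h7 : Ψ (0 + t) p = Ψ (0 + t) q := by rw [zero_add]; exact hpq
        have h8 : (Ψ (-t + t) p).1 ∈ T.table := by
          rw [neg_add_cancel, hzero p hp.1]; exact (hGp p hp.1).1
        have h9 : Ψ (-t + t) p = Ψ (-t + t) q :=
          IsTrajectory.same h4 h5 (a := 0) h6 h7 (t := -t) h8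
        rw [neg_add_cancel, hzero p hp.1, hzero q hq.1] at h9
        exact h9
      · intro w
        exact measurableSet_eq_fun (hΨtm t) (continuous_NW t w).measurable
    have huniv : M.map (Ψ t) univ = M univ := by
      rw [Measure.map_apply (hΨtm t) MeasurableSet.univ, preimage_univ]
    have : IsFiniteMeasure (M.map (Ψ t)) := Measure.isFiniteMeasure_map M (Ψ t)
    exact Measure.eq_of_le_of_measure_univ_eq hle huniv
  have haemu : ∀ {P : ℂ × ℂ → Prop}, (∀ᵐ p ∂M, P p) → ∀ᵐ p ∂T.mu, P p := by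
    intro P hP
    rw [hmu]
    exact Measure.ae_smul_measure hP _
  refine ⟨Ψ, ⟨hΨm, ?_, ?_, ?_⟩, ?_, ?_⟩
  · intro t
    rw [hmu]
    exact (hmp t).smul_measure _
  · intro s t
    apply haemu
    have h1 : ∀ᵐ p ∂M, Ψ t p ∈ G := (hmp t).quasiMeasurePreserving.ae hG
    have h2 : ∀ᵐ p ∂M, (Ψ s (Ψ t p)).1 ∈ T.table :=
      (hmp t).quasiMeasurePreserving.ae (htab s)
    filter_upwards [hG, h1, h2] with p hp hq h3
    have h4 := (htraj p hp).shift T t
    have h5 := htraj _ hq
    have h6 : (Ψ 0 (Ψ t p)).1 ∈ T.table := by rw [hzero _ hq]; exact (hGp _ hq).1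
    have h7 : Ψ 0 (Ψ t p) = Ψ (0 + t) p := by rw [hzero _ hq, zero_add]
    exact (IsTrajectory.same h5 h4 (a := 0) h6 h7 (t := s) h3).symm
  · apply haemu
    filter_upwards [hG] with p hp
    exact hzero p hp
  · apply haemu
    filter_upwards [hG] with p hp
    exact ⟨hzero p hp, htraj p hp⟩
  · intro Φ hΦ t
    filter_upwards [hΦ, haemu hG, haemu (htab t)] with p h1 hp h3
    have h6 : (Ψ 0 p).1 ∈ T.table := by rw [hzero _ hp]; exact (hGp _ hp).1
    have h7 : Ψ 0 p = Φ 0 p := by rw [hzero _ hp, h1.1]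
    exact (IsTrajectory.same (htraj p hp) h1.2 (a := 0) h6 h7 (t := t) h3).symm

end Triangle

end Vale.Agent.P099
end
end

section

section

open MeasureTheory Set Filter Topology

namespace Vale.Agent.P099

namespace Triangle

variable (T : Triangle)

/-- null sets of `mu` -/
lemma ae_mu : ae T.mu = ae ((volume.restrict T.table).prod nu) := by
  have hne : (volume T.table)⁻¹ ≠ 0 := ENNReal.inv_ne_zero.2 T.volume_table_lt_top.ne
  have h : T.mu = (volume T.table)⁻¹ • ((volume.restrict T.table).prod nu) := by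
    rw [mu, ProbabilityTheory.cond, Measure.prod_smul_left]
  rw [h, Measure.ae_ennreal_smul_measure_eq hne]

instance : IsProbabilityMeasure T.mu := by
  have : IsProbabilityMeasure (ProbabilityTheory.cond (volume : Measure ℂ) T.table) :=
    ProbabilityTheory.cond_isProbabilityMeasure_of_finite T.volume_table_pos.ne'
      T.volume_table_lt_top.ne
  rw [mu]
  infer_instance

/-- forget a probability parameter -/
lemma ae_forget {Ω : Type} [MeasurableSpace Ω] (m : Measure Ω) [IsProbabilityMeasure m]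
    {P : ℂ × ℂ → Prop} (h : ∀ᵐ p ∂((volume.restrict T.table).prod nu), P p) :
    ∀ᵐ p ∂((volume.restrict T.table).prod (nu.prod m)), P (p.1, p.2.1) := by
  have h1 : Measure.QuasiMeasurePreserving (Prod.map id Prod.fst : ℂ × (ℂ × Ω) → ℂ × ℂ)
      ((volume.restrict T.table).prod (nu.prod m)) ((volume.restrict T.table).prod nu) :=
    ((MeasurePreserving.id (volume.restrict T.table)).prod
      (measurePreserving_fst (μ := nu) (ν := m))).quasiMeasurePreserving
  exact h1.ae h

/-- a set invariant under the flow is invariant under free flights and single collisions -/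
lemma inv_free {Φ : ℝ → ℂ × ℂ → ℂ × ℂ} (hΦ : T.IsBilliardFlow Φ) {A : Set (ℂ × ℂ)}
    {t : ℝ} (ht : 0 < t) (hA : T.mu (symmDiff (Φ t ⁻¹' A) A) = 0) :
    ∀ᵐ p ∂((volume.restrict T.table).prod nu), p.1 + t • p.2 ∈ T.table →
      ((p.1 + t • p.2, p.2) ∈ A ↔ p ∈ A) := by
  have h1 : ∀ᵐ p ∂T.mu, p ∉ symmDiff (Φ t ⁻¹' A) A := measure_eq_zero_iff_ae_notMem.1 hA
  have h2 : ∀ᵐ p ∂T.mu, Φ 0 p = p ∧ T.IsTrajectory (fun t => Φ t p) := hΦ
  rw [T.ae_mu] at h1 h2
  have h3 : ∀ᵐ p ∂((volume.restrict T.table).prod nu), p.1 ∈ T.table := by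
    have := Measure.quasiMeasurePreserving_fst (μ := volume.restrict T.table) (ν := nu)
    exact this.ae (ae_restrict_mem T.isOpen_table.measurableSet)
  filter_upwards [h1, h2, h3] with p hp1 hp2 hp3 hp4
  have h0 : Φ 0 p = p := hp2.1
  have h5 := IsTrajectory.free T hp2.2 (by rw [h0]; exact hp3) ht.le (by rw [h0]; exact hp4)
  rw [h0] at h5
  have h6 : Φ t p = (p.1 + t • p.2, p.2) := h5
  rw [mem_symmDiff, not_or] at hp1
  rw [← h6]
  constructor
  · intro h7
    by_contra h8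
    exact hp1.1 ⟨h7, h8⟩
  · intro h7
    by_contra h8
    exact hp1.2 ⟨h7, h8⟩

lemma inv_bounce {Φ : ℝ → ℂ × ℂ → ℂ × ℂ} (hΦ : T.IsBilliardFlow Φ) {A : Set (ℂ × ℂ)}
    {t : ℝ} (hA : T.mu (symmDiff (Φ t ⁻¹' A) A) = 0) (i : Fin 3) :
    ∀ᵐ p ∂((volume.restrict T.table).prod nu), T.E i p → T.hitT i p < t →
      T.R i (p.1 + t • p.2) ∈ T.table →
      ((T.R i (p.1 + t • p.2), T.refl i p.2) ∈ A ↔ p ∈ A) := by
  have h1 : ∀ᵐ p ∂T.mu, p ∉ symmDiff (Φ t ⁻¹' A) A := measure_eq_zero_iff_ae_notMem.1 hA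
  have h2 : ∀ᵐ p ∂T.mu, Φ 0 p = p ∧ T.IsTrajectory (fun t => Φ t p) := hΦ
  rw [T.ae_mu] at h1 h2
  have h3 : ∀ᵐ p ∂((volume.restrict T.table).prod nu), p.1 ∈ T.table := by
    have := Measure.quasiMeasurePreserving_fst (μ := volume.restrict T.table) (ν := nu)
    exact this.ae (ae_restrict_mem T.isOpen_table.measurableSet)
  filter_upwards [h1, h2, h3] with p hp1 hp2 hp3 hpE hpt hpR
  have h0 : Φ 0 p = p := hp2.1
  have h5 := IsTrajectory.bounce T hp2.2 (t := t) (i := i) (by rw [h0]; exact hp3)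
    (by rw [h0]; exact hpE) (by rw [h0]; exact hpt) (by rw [h0]; exact hpR)
  rw [h0] at h5
  have h6 : Φ t p = (T.R i (p.1 + t • p.2), T.refl i p.2) := h5
  rw [mem_symmDiff, not_or] at hp1
  rw [← h6]
  constructor
  · intro h7
    by_contra h8
    exact hp1.1 ⟨h7, h8⟩
  · intro h7
    by_contra h8
    exact hp1.2 ⟨h7, h8⟩

/-- the trivial flow on the one point space -/
lemma pflow_unit : PFlow (Measure.dirac ()) (fun (_ : ℝ) (q : Unit) => q) where
  meas := measurable_snd
  mp := fun _ => MeasurePreserving.id _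
  add := fun _ _ => ae_of_all _ fun _ => rfl
  zero := ae_of_all _ fun _ => rfl

/-- Ergodicity. -/
theorem ergodic (hT : T.IsIrrational) (Φ : ℝ → ℂ × ℂ → ℂ × ℂ) (hΦ : T.IsBilliardFlow Φ) :
    FlowErgodic T.mu Φ := by
  intro A hAm hA
  set H : ℂ → ℂ × Unit → ℝ := fun x ω => A.indicator 1 (x, ω.1) with hH
  have hHb : Bdd H := by
    refine ⟨?_, 1, ?_⟩
    · have : Measurable (A.indicator (1 : ℂ × ℂ → ℝ)) := measurable_one.indicator hAm
      exact this.comp (measurable_fst.prodMk (measurable_fst.comp measurable_snd))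
    · intro y ω
      by_cases h : (y, ω.1) ∈ A
      · simp only [hH, h, indicator_of_mem, Pi.one_apply, abs_one, Std.le_refl]
      · simp only [hH, h, not_false_eq_true, indicator_of_notMem, abs_zero, zero_le_one]
  have hind : ∀ p q : ℂ × ℂ, (p ∈ A ↔ q ∈ A) →
      A.indicator (1 : ℂ × ℂ → ℝ) p = A.indicator (1 : ℂ × ℂ → ℝ) q := by
    intro p q h
    by_cases hp : p ∈ A
    · rw [indicator_of_mem hp, indicator_of_mem (h.1 hp)]
      rfl
    · rw [indicator_of_notMem hp, indicator_of_notMem (fun hq => hp (h.2 hq))]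
  have hF : T.FreeInv (Measure.dirac ()) (fun (_ : ℝ) (q : Unit) => q) H := by
    intro t ht
    have h1 := T.ae_forget (Measure.dirac ()) (T.inv_free hΦ ht (hA t))
    filter_upwards [h1] with p hp h2
    exact hind _ _ (hp h2)
  have hB : T.BounceInv (Measure.dirac ()) (fun (_ : ℝ) (q : Unit) => q) H := by
    intro t ht i
    have h1 := T.ae_forget (Measure.dirac ()) (T.inv_bounce hΦ (hA t) i)
    filter_upwards [h1] with p hp h2 h3 h4
    exact hind _ _ (hp h2 h3 h4)
  obtain ⟨f, _, _, _, hf⟩ := T.relative pflow_unit hT hHb hF hB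
  have h1 : ∀ᵐ p ∂T.mu, A.indicator (1 : ℂ × ℂ → ℝ) p = f () := by
    rw [T.ae_mu]
    have h2 : MeasurePreserving (fun p : ℂ × ℂ => (p.1, (p.2, ())))
        ((volume.restrict T.table).prod nu)
        ((volume.restrict T.table).prod (nu.prod (Measure.dirac ()))) := by
      have h3 : MeasurePreserving (fun u : ℂ => (u, ())) nu (nu.prod (Measure.dirac ())) := by
        refine ⟨by fun_prop, ?_⟩
        rw [Measure.prod_dirac]
      exact (MeasurePreserving.id (volume.restrict T.table)).prod h3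
    exact h2.quasiMeasurePreserving.ae hf
  by_cases hc : f () = 0
  · left
    rw [measure_eq_zero_iff_ae_notMem]
    filter_upwards [h1] with p hp hpA
    rw [indicator_of_mem hpA, hc] at hp
    exact one_ne_zero hp
  · right
    have h4 : T.mu Aᶜ = 0 := by
      rw [measure_eq_zero_iff_ae_notMem]
      filter_upwards [h1] with p hp hpA
      rw [indicator_of_notMem hpA] at hp
      exact hc hp.symm
    rwa [prob_compl_eq_zero_iff hAm] at h4

end Triangle

end Vale.Agent.P099
end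
end
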